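import Vale.Agent.Lib.P058.Defs

/-!
# P058, module Affine: affine combinations are determined by the distances.

`norm_comb_eq`: `inner_sum_smul_sum_smul_of_sum_eq_zero` (Mathlib) expresses
`⟪∑ a j • u j, ∑ a j • u j⟫` by the distances when `∑ a = 0`.

`norm_comb_one`: for `∑ a = 1`, `‖∑ a j • u j‖^2 = ∑ a j ‖u j‖^2 - (1/2) ∑ ∑ a i a j ‖u i - u j‖^2`
(expand `‖u i - u j‖^2 = ‖u i‖^2 - 2 ⟪u i, u j⟫ + ‖u j‖^2`), applied to `u` and to `u'`.
-/

namespace Vale.Agent.Lib.P058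

theorem norm_comb_eq {J : Type} [Fintype J] {E E' : Type} [NormedAddCommGroup E]
    [InnerProductSpace ℝ E] [NormedAddCommGroup E'] [InnerProductSpace ℝ E']
    (u : J → E) (u' : J → E') (h : ∀ i j, dist (u i) (u j) = dist (u' i) (u' j))
    (a : J → ℝ) (ha : ∑ j, a j = 0) : ‖∑ j, a j • u j‖ = ‖∑ j, a j • u' j‖ := by
  have h1 := inner_sum_smul_sum_smul_of_sum_eq_zero u ha u ha
  have h2 := inner_sum_smul_sum_smul_of_sum_eq_zero u' ha u' ha
  have h3 : ∀ i j, ‖u i - u j‖ = ‖u' i - u' j‖ := fun i j => by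
    rw [← dist_eq_norm, ← dist_eq_norm, h]
  simp only [h3] at h1
  rw [← h2, real_inner_self_eq_norm_sq, real_inner_self_eq_norm_sq] at h1
  exact (sq_eq_sq₀ (norm_nonneg _) (norm_nonneg _)).mp h1

/-- the squared norm of an affine combination of vectors of equal norm -/
theorem norm_comb_one_aux {J : Type} [Fintype J] {E : Type} [NormedAddCommGroup E]
    [InnerProductSpace ℝ E] (u : J → E) (R : ℝ) (hR : ∀ j, ‖u j‖ = R)
    (a : J → ℝ) (ha : ∑ j, a j = 1) :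
    ‖∑ j, a j • u j‖ ^ 2 - R ^ 2 = -(∑ i, ∑ j, a i * a j * dist (u i) (u j) ^ 2) / 2 := by
  have h1 : ‖∑ j, a j • u j‖ ^ 2 = ∑ i, ∑ j, a i * a j * inner ℝ (u i) (u j) := by
    rw [← real_inner_self_eq_norm_sq, sum_inner]
    refine Finset.sum_congr rfl fun i _ => ?_
    rw [inner_sum]
    refine Finset.sum_congr rfl fun j _ => ?_
    rw [real_inner_smul_left, real_inner_smul_right]
    ring
  have h2 : ∀ i j, inner ℝ (u i) (u j) = R ^ 2 - dist (u i) (u j) ^ 2 / 2 := by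
    intro i j
    have h := norm_sub_sq_real (u i) (u j)
    rw [hR i, hR j, ← dist_eq_norm] at h
    linarith
  have h3 : ∑ i, ∑ j, a i * a j = 1 := by
    rw [← Finset.sum_mul_sum, ha, one_mul]
  have h4 : ∑ i, ∑ j, a i * a j * (inner ℝ (u i) (u j) : ℝ)
      = R ^ 2 * ∑ i, ∑ j, a i * a j - (∑ i, ∑ j, a i * a j * dist (u i) (u j) ^ 2) / 2 := by
    rw [Finset.mul_sum, Finset.sum_div, ← Finset.sum_sub_distrib]
    refine Finset.sum_congr rfl fun i _ => ?_
    rw [Finset.mul_sum, Finset.sum_div, ← Finset.sum_sub_distrib]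
    refine Finset.sum_congr rfl fun j _ => ?_
    rw [h2]
    ring
  rw [h1, h4, h3]
  ring

theorem norm_comb_one {J : Type} [Fintype J] {E E' : Type} [NormedAddCommGroup E]
    [InnerProductSpace ℝ E] [NormedAddCommGroup E'] [InnerProductSpace ℝ E']
    (u : J → E) (u' : J → E') (h : ∀ i j, dist (u i) (u j) = dist (u' i) (u' j))
    (R R' : ℝ) (hR : ∀ j, ‖u j‖ = R) (hR' : ∀ j, ‖u' j‖ = R')
    (a : J → ℝ) (ha : ∑ j, a j = 1) :
    ‖∑ j, a j • u j‖ ^ 2 - R ^ 2 = ‖∑ j, a j • u' j‖ ^ 2 - R' ^ 2 := by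
  rw [norm_comb_one_aux u R hR a ha, norm_comb_one_aux u' R' hR' a ha]
  simp only [h]

end Vale.Agent.Lib.P058
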