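import Mathlib

/-!
# P058, module ApexCoeffs

PROOF.  `q` is an affine combination of the points `p y`:
`q = ∑ α y • p y`, `∑ α = 1` (`eq_affineCombination_of_mem_affineSpan_of_fintype` and
`Finset.affineCombination_eq_linear_combination`, or similar).
At least three `α y` are nonzero.  Otherwise (`∑ α = 1`) either exactly one is nonzero and `q = p y`,
or `q = α₁ p y₁ + α₂ p y₂`, `α₁ + α₂ = 1`, `α₁ α₂ ≠ 0`, and
`ρ² = ‖q‖² = α₁ ρ² + α₂ ρ² - α₁ α₂ ‖p y₁ - p y₂‖²`, so `p y₁ = p y₂`, impossible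
(`hind.injective`).
Then for every index there are two other distinct indices with `α ≠ 0`
(`Finset.card` of the filter is `≥ 3`, `Finset.two_lt_card`/`Finset.one_lt_card` after `erase`).
Last claim: `(p y - q)_y` has only one linear relation up to scaling.
The linear map `T g = (⟪g, p y - q⟫)_y` has range `{δ | ∑ α δ = 0}`: the inclusion `⊆` holds because
`∑ α y • (p y - q) = 0`; the range is a subspace, and by duality (finite dimension) it suffices that
every `lam : Y → ℝ` with `∑ lam y * (T g) y = 0` for all `g` is a multiple of `α`: such `lam`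
satisfies `∑ lam y • (p y - q) = 0`, so `∑ (lam y - (∑ lam) * α y) • p y = 0` with coefficient sum `0`, and
by affine independence `lam = (∑ lam) • α` (`affineIndependent_iff`).
(For the duality: work in `EuclideanSpace ℝ Y`, a subspace `U` satisfies `Uᗮᗮ = U`; here
`Uᗮ = ℝ α`.  Or use dimension: `rank T = finrank (span (p y - q)) = card Y - 1`.)
-/

namespace Vale.Agent.Lib.P058

theorem apexCoeffs_norm {d : ℕ} (x y : EuclideanSpace ℝ (Fin d)) (ρ a b : ℝ) (hx : ‖x‖ = ρ)
    (hy : ‖y‖ = ρ) (hq : ‖a • x + b • y‖ = ρ) (hab : a + b = 1) : a * b * ‖x - y‖ ^ 2 = 0 := by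
  have h1 : ‖a • x + b • y‖ ^ 2 = a ^ 2 * ρ ^ 2 + 2 * (a * b * inner ℝ x y) + b ^ 2 * ρ ^ 2 := by
    rw [norm_add_sq_real, norm_smul, norm_smul, inner_smul_left, inner_smul_right, hx, hy,
      mul_pow, mul_pow, Real.norm_eq_abs, Real.norm_eq_abs, sq_abs, sq_abs]
    simp
    ring
  have h2 : ‖x - y‖ ^ 2 = ρ ^ 2 - 2 * inner ℝ x y + ρ ^ 2 := by
    rw [norm_sub_sq_real, hx, hy]
  rw [hq] at h1
  have hb : b = 1 - a := by linarith
  subst hb
  rw [h2]
  linear_combination h1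

theorem apexCoeffs_two {d : ℕ} {Y : Type} [Fintype Y] [DecidableEq Y]
    (p : Y → EuclideanSpace ℝ (Fin d))
    (q : EuclideanSpace ℝ (Fin d)) (ρ : ℝ) (hp : ∀ y, ‖p y‖ = ρ) (hqρ : ‖q‖ = ρ)
    (hne : ∀ y, p y ≠ q) (hinj : Function.Injective p) (α : Y → ℝ) (hα : ∑ y, α y = 1)
    (hq : ∑ y, α y • p y = q) (y0 : Y) :
    ∃ r t : Y, r ≠ t ∧ r ≠ y0 ∧ t ≠ y0 ∧ α r ≠ 0 ∧ α t ≠ 0 := by
  by_contra hcon
  push Not at hcon
  by_cases h1 : ∃ y1, y1 ≠ y0 ∧ α y1 ≠ 0
  · obtain ⟨y1, hy1, hαy1⟩ := h1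
    have h0 : ∀ t, t ≠ y0 ∧ t ≠ y1 → α t = 0 := fun t ht =>
      hcon y1 t (fun h => ht.2 h.symm) hy1 ht.1 hαy1
    have e1 : α y0 + α y1 = 1 := by
      rw [← hα]
      exact (Fintype.sum_eq_add y0 y1 hy1.symm h0).symm
    have e2 : α y0 • p y0 + α y1 • p y1 = q := by
      rw [← hq]
      exact (Fintype.sum_eq_add (f := fun y => α y • p y) y0 y1 hy1.symm fun t ht => by
        simp only [h0 t ht, zero_smul]).symm
    have h3 := apexCoeffs_norm (p y0) (p y1) ρ (α y0) (α y1) (hp _) (hp _)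
      (by rw [e2]; exact hqρ) e1
    have h4 : ‖p y0 - p y1‖ ^ 2 ≠ 0 := by
      have : p y0 - p y1 ≠ 0 := sub_ne_zero.2 fun h => hy1 (hinj h).symm
      positivity
    rcases mul_eq_zero.1 h3 with h5 | h5
    · rcases mul_eq_zero.1 h5 with h6 | h6
      · rw [h6, zero_add] at e1
        rw [h6, e1, zero_smul, zero_add, one_smul] at e2
        exact hne y1 e2
      · exact hαy1 h6
    · exact h4 h5
  · push Not at h1
    have e1 : α y0 = 1 := by
      rw [← hα]
      exact (Fintype.sum_eq_single y0 h1).symm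
    have e2 : α y0 • p y0 = q := by
      rw [← hq]
      exact (Fintype.sum_eq_single (f := fun y => α y • p y) y0 fun t ht => by
        simp only [h1 t ht, zero_smul]).symm
    rw [e1, one_smul] at e2
    exact hne y0 e2

theorem apexCoeffs_dual {d : ℕ} {Y : Type} [Fintype Y] [DecidableEq Y]
    (p : Y → EuclideanSpace ℝ (Fin d))
    (q : EuclideanSpace ℝ (Fin d)) (hind : AffineIndependent ℝ p)
    (α : Y → ℝ) (hα : ∑ y, α y = 1)
    (hq : ∑ y, α y • p y = q) (δ : Y → ℝ) (hδ : ∑ y, α y * δ y = 0) :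
    ∃ g : EuclideanSpace ℝ (Fin d), ∀ y, inner ℝ g (p y - q) = δ y := by
  let T : EuclideanSpace ℝ (Fin d) →ₗ[ℝ] (Y → ℝ) :=
    { toFun := fun g y => inner ℝ g (p y - q)
      map_add' := fun g h => by
        funext y
        simp [inner_add_left]
      map_smul' := fun a g => by
        funext y
        simp [inner_smul_left] }
  have hT : ∀ g y, T g y = inner ℝ g (p y - q) := fun g y => rfl
  suffices h : δ ∈ LinearMap.range T by
    obtain ⟨g, hg⟩ := LinearMap.mem_range.1 h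
    exact ⟨g, fun y => by rw [← hT, hg]⟩
  by_contra hnot
  obtain ⟨φ, hφ, hmap⟩ := Submodule.exists_dual_map_eq_bot_of_notMem hnot inferInstance
  have hφT : ∀ g, φ (T g) = 0 := by
    intro g
    have : φ (T g) ∈ (LinearMap.range T).map φ :=
      Submodule.mem_map_of_mem (LinearMap.mem_range_self T g)
    rw [hmap] at this
    exact (Submodule.mem_bot ℝ).1 this
  obtain ⟨lam, hlam⟩ : ∃ lam : Y → ℝ, ∀ y, lam y = φ (Pi.single y 1) := ⟨_, fun _ => rfl⟩
  have hrep : ∀ f : Y → ℝ, φ f = ∑ y, lam y * f y := by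
    intro f
    have h1 : f = ∑ y, f y • (Pi.single y (1 : ℝ) : Y → ℝ) := by
      funext z
      simp [Finset.sum_apply, Pi.single_apply]
    conv_lhs => rw [h1]
    rw [map_sum]
    refine Finset.sum_congr rfl fun y _ => ?_
    rw [map_smul, smul_eq_mul, hlam, mul_comm]
  have hzero : ∑ y, lam y • (p y - q) = 0 := by
    have h2 : ∀ g : EuclideanSpace ℝ (Fin d), inner ℝ g (∑ y, lam y • (p y - q)) = 0 := by
      intro g
      have h3 := hφT g
      rw [hrep] at h3
      rw [inner_sum, ← h3]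
      refine Finset.sum_congr rfl fun y _ => ?_
      rw [inner_smul_right, hT]
    have h4 := h2 (∑ y, lam y • (p y - q))
    exact inner_self_eq_zero.1 h4
  obtain ⟨s, hs⟩ : ∃ s, s = ∑ y, lam y := ⟨_, rfl⟩
  have hrel : ∑ y, (lam y - s * α y) • p y = 0 := by
    have h1 : ∑ y, lam y • p y = s • q := by
      simp only [smul_sub, Finset.sum_sub_distrib] at hzero
      rw [← Finset.sum_smul, ← hs] at hzero
      exact sub_eq_zero.1 hzero
    simp only [sub_smul, Finset.sum_sub_distrib, mul_smul]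
    rw [h1, ← Finset.smul_sum, hq, sub_self]
  have hsum : ∑ y, (lam y - s * α y) = 0 := by
    rw [Finset.sum_sub_distrib, ← Finset.mul_sum, hα, hs]
    ring
  have hz := (affineIndependent_iff.1 hind) Finset.univ (fun y => lam y - s * α y) hsum hrel
  apply hφ
  rw [hrep]
  calc ∑ y, lam y * δ y = ∑ y, s * (α y * δ y) := by
        refine Finset.sum_congr rfl fun y hy => ?_
        have := hz y hy
        have h2 : lam y = s * α y := by linarith
        rw [h2]
        ring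
    _ = 0 := by rw [← Finset.mul_sum, hδ, mul_zero]

theorem apex_coeffs {d : ℕ} {Y : Type} [Fintype Y] (p : Y → EuclideanSpace ℝ (Fin d))
    (q : EuclideanSpace ℝ (Fin d)) (ρ : ℝ) (hp : ∀ y, ‖p y‖ = ρ) (hqρ : ‖q‖ = ρ)
    (hne : ∀ y, p y ≠ q) (hind : AffineIndependent ℝ p)
    (hspan : q ∈ affineSpan ℝ (Set.range p)) :
    ∃ α : Y → ℝ, ∑ y, α y = 1 ∧ ∑ y, α y • p y = q ∧
      (∀ p : Y, ∃ r t : Y, r ≠ t ∧ r ≠ p ∧ t ≠ p ∧ α r ≠ 0 ∧ α t ≠ 0) ∧
      ∀ δ : Y → ℝ, ∑ y, α y * δ y = 0 →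
        ∃ g : EuclideanSpace ℝ (Fin d), ∀ y, inner ℝ g (p y - q) = δ y := by
  classical
  obtain ⟨α, hα, hq⟩ := eq_affineCombination_of_mem_affineSpan_of_fintype hspan
  have hq' : ∑ y, α y • p y = q := by
    rw [hq, Finset.affineCombination_eq_linear_combination _ _ _ hα]
  exact ⟨α, hα, hq', fun y0 => apexCoeffs_two p q ρ hp hqρ hne hind.injective α hα hq' y0,
    fun δ hδ => apexCoeffs_dual p q hind α hα hq' δ hδ⟩

end Vale.Agent.Lib.P058
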