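import Vale.Agent.Lib.P058.Defs

/-!
# P058: elementary closure properties of `InP`
-/

namespace Vale.Agent.Lib.P058

variable {J J' : Type}

theorem InP.one (V : Set (J → ℝ)) : InP V 1 0 := InP.const 1

theorem InP.of_eq {V : Set (J → ℝ)} {v v' : J → FreeGroup ℝ} {D D' : J → J → ℝ}
    (h : InP V v D) (hv : v = v') (hD : D = D') : InP V v' D' := by
  subst hv; subst hD; exact h

theorem InP.mono {V V' : Set (J → ℝ)} (hV : V ⊆ V') {v : J → FreeGroup ℝ} {D : J → J → ℝ}
    (h : InP V v D) : InP V' v D := by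
  induction h with
  | const b => exact InP.const b
  | col c hc => exact InP.col c (hV hc)
  | mul _ _ ih ih' => exact InP.mul ih ih'

/-- costs are nonnegative -/
theorem InP.nonneg {V : Set (J → ℝ)} {v : J → FreeGroup ℝ} {D : J → J → ℝ}
    (h : InP V v D) (i j : J) : 0 ≤ D i j := by
  induction h with
  | const b => exact le_refl _
  | col c hc => exact sq_nonneg _
  | mul _ _ ih ih' => exact add_nonneg ih ih'

/-- re-indexing the rows -/
theorem InP.comap {V : Set (J → ℝ)} {V' : Set (J' → ℝ)} (f : J' → J)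
    (hf : ∀ c ∈ V, (fun j => c (f j)) ∈ V') {v : J → FreeGroup ℝ} {D : J → J → ℝ}
    (h : InP V v D) : InP V' (fun j => v (f j)) (fun i j => D (f i) (f j)) := by
  induction h with
  | const b => exact InP.const b
  | col c hc => exact InP.col _ (hf c hc)
  | mul _ _ ih ih' => exact InP.mul ih ih'

/-- affine maps of the letters -/
theorem InP.affine {V : Submodule ℝ (J → ℝ)} (hone : (fun _ => (1 : ℝ)) ∈ V) (m δ : ℝ)
    {v : J → FreeGroup ℝ} {D : J → J → ℝ} (h : InP (V : Set (J → ℝ)) v D) :
    InP (V : Set (J → ℝ)) (fun j => FreeGroup.map (fun x : ℝ => m + δ * x) (v j)) (δ ^ 2 • D) := by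
  induction h with
  | const b => exact (InP.const _).of_eq rfl (by simp)
  | col c hc =>
    have hmem : (fun j => m + δ * c j) ∈ V := by
      have := V.add_mem (V.smul_mem m hone) (V.smul_mem δ hc)
      convert this using 1
      funext j
      simp
    refine (InP.col _ hmem).of_eq ?_ ?_
    · funext j; simp [colF]
    · funext i j
      simp only [Dm, Pi.smul_apply, smul_eq_mul]
      ring
  | mul _ _ ih ih' =>
    refine (InP.mul ih ih').of_eq ?_ ?_
    · funext j; simp
    · rw [smul_add]

@[simp] theorem homL_of (φ : ℝ → ℝ) (x : ℝ) : homL φ (FreeGroup.of x) = φ x := by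
  simp [homL]

@[simp] theorem homL_one (φ : ℝ → ℝ) : homL φ 1 = 0 := by
  simp [homL]

@[simp] theorem homL_mul (φ : ℝ → ℝ) (g h : FreeGroup ℝ) :
    homL φ (g * h) = homL φ g + homL φ h := by
  simp [homL]

@[simp] theorem homL_inv (φ : ℝ → ℝ) (g : FreeGroup ℝ) :
    homL φ g⁻¹ = - homL φ g := by
  simp [homL]

/-- the list of columns used by an element of `P` -/
theorem InP.exists_list {V : Set (J → ℝ)} {v : J → FreeGroup ℝ} {D : J → J → ℝ}
    (h : InP V v D) : ∃ L : List (J → ℝ), (∀ c ∈ L, c ∈ V) ∧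
      (∀ i j, D i j = (L.map (fun c => Dm c i j)).sum) ∧
      ∀ (φ : ℝ → ℝ) (i j : J), (L.map (fun c => φ (c i))).sum - (L.map (fun c => φ (c j))).sum
        = homL φ (v i) - homL φ (v j) := by
  induction h with
  | const b => exact ⟨[], by simp, by simp, by simp⟩
  | col c hc => exact ⟨[c], by simpa using hc, by simp, by simp [colF]⟩
  | mul _ _ ih ih' =>
    obtain ⟨L, h1, h2, h3⟩ := ih
    obtain ⟨L', h1', h2', h3'⟩ := ih'
    refine ⟨L ++ L', ?_, ?_, ?_⟩
    · intro c hc
      rcases List.mem_append.1 hc with h | h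
      · exact h1 c h
      · exact h1' c h
    · intro i j
      simp [h2 i j, h2' i j]
    · intro φ i j
      have e1 := h3 φ i j
      have e2 := h3' φ i j
      simp only [List.map_append, List.sum_append, Pi.mul_apply, homL_mul]
      linarith

theorem count_eq_sum (L : List (J → ℝ)) (k : J) (x : ℝ) :
    (((L.map (fun c => c k)).count x : ℕ) : ℝ)
      = (L.map (fun c => (if c k = x then (1 : ℝ) else 0))).sum := by
  classical
  induction L with
  | nil => simp
  | cons c L ih =>
    simp only [List.map_cons, List.sum_cons, List.count_cons]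
    rw [← ih]
    by_cases hx : c k = x <;> simp [hx]
    ring

/-- if all the sums `∑ φ (c i)` agree then the list is balanced -/
theorem balanced_of_sums {L : List (J → ℝ)}
    (h : ∀ (φ : ℝ → ℝ) (i j : J), (L.map (fun c => φ (c i))).sum = (L.map (fun c => φ (c j))).sum) :
    Balanced L := by
  classical
  intro i j
  rw [List.perm_iff_count]
  intro x
  have := h (fun t => if t = x then (1 : ℝ) else 0) i j
  rw [← count_eq_sum L i, ← count_eq_sum L j] at this
  exact_mod_cast this

/-- in a balanced list all the sums `∑ φ (c i)` agree -/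
theorem Balanced.sums {L : List (J → ℝ)} (h : Balanced L) (φ : ℝ → ℝ) (i j : J) :
    (L.map (fun c => φ (c i))).sum = (L.map (fun c => φ (c j))).sum := by
  have := ((h i j).map φ).sum_eq
  simpa [List.map_map, Function.comp_def] using this

/-- a constant element of `P` gives a balanced list -/
theorem InD.exists_balanced {V : Set (J → ℝ)} {D : J → J → ℝ} (h : InD V D) :
    ∃ L : List (J → ℝ), (∀ c ∈ L, c ∈ V) ∧ Balanced L ∧
      ∀ i j, D i j = (L.map (fun c => Dm c i j)).sum := by
  obtain ⟨b, hb⟩ := h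
  obtain ⟨L, h1, h2, h3⟩ := hb.exists_list
  refine ⟨L, h1, balanced_of_sums ?_, h2⟩
  intro φ i j
  have := h3 φ i j
  linarith

theorem InD.add {V : Set (J → ℝ)} {D D' : J → J → ℝ} (h : InD V D) (h' : InD V D') :
    InD V (D + D') := by
  obtain ⟨b, hb⟩ := h
  obtain ⟨b', hb'⟩ := h'
  exact ⟨b * b', (InP.mul hb hb').of_eq rfl rfl⟩

theorem InD.zero (V : Set (J → ℝ)) : InD V 0 := ⟨1, InP.const 1⟩

theorem InD.smul {V : Submodule ℝ (J → ℝ)} (hone : (fun _ => (1 : ℝ)) ∈ V) {t : ℝ} (ht : 0 ≤ t)
    {D : J → J → ℝ} (h : InD (V : Set (J → ℝ)) D) : InD (V : Set (J → ℝ)) (t • D) := by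
  obtain ⟨b, hb⟩ := h
  refine ⟨_, (hb.affine hone 0 (Real.sqrt t)).of_eq rfl ?_⟩
  rw [Real.sq_sqrt ht]

end Vale.Agent.Lib.P058
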