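import Vale.Agent.Lib.P058.Main
import Vale.Agent.Lib.P058.Affine

/-!
# P058, module Spherical: Ramsey sets are spherical (Erdos et al. 1973)

Let `A = {x_i}` be finite and not spherical.

(1) There are reals `c x` (`x ∈ A`) and `x₀ ∈ A` with `∑ c x • (x - x₀) = 0` and
`b := ∑ c x * ‖x - x₀‖^2 ≠ 0`.
Fix `x₀ ∈ A` (`A` is nonempty, the empty set is spherical).  A centre `z` is a solution of
`2 ⟪x - x₀, z - x₀⟫ = ‖x - x₀‖^2` for all `x ∈ A`
(then `dist x z ^ 2 = ‖x - x₀‖^2 - 2 ⟪x - x₀, z - x₀⟫ + dist x₀ z ^ 2 = dist x₀ z ^ 2`).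
If there is no solution, the vector `(‖x - x₀‖^2)_x` is not in the range of the linear map
`u ↦ (⟪x - x₀, u⟫)_x`, so a linear functional `c` on `A → ℝ` vanishes on the range and not at this
vector (`Submodule.exists_le_ker_of_notMem` / dual annihilator in finite dimension):
`∑ c x ⟪x - x₀, u⟫ = 0` for all `u`, so `∑ c x • (x - x₀) = 0`, and `∑ c x ‖x - x₀‖^2 ≠ 0`.

(2) For an isometric embedding `f : A → EuclideanSpace ℝ (Fin D)`:
`∑ c x (‖f x‖^2 - ‖f x₀‖^2) = b`.  Indeed `∑ c x • (f x - f x₀) = 0` (its norm squared is a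
polynomial in the distances: `norm_comb_eq` of module Affine with coefficients `c x` at `x` and
`- ∑ c` at `x₀`, or directly), and
`‖f x‖^2 - ‖f x₀‖^2 = ‖f x - f x₀‖^2 + 2 ⟪f x - f x₀, f x₀⟫`.

(3) Let `k = |A|` and colour `y ∈ ℝ^D` by the function
`x ↦ ⌊2 k * Int.fract (c x * ‖y‖^2 / (2 b))⌋ ∈ {0, …, 2k - 1}` (`x ∈ A`): finitely many colours
(`r = (2 k) ^ k ≥ 2`, the number does not depend on `D`; transport to `Fin r` by an equivalence, or use
`Fintype.card (A → Fin (2 k))`).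
If all `f x` have the same colour, then for each `x` the number `c x (‖f x‖^2 - ‖f x₀‖^2) / (2 b)` is
within distance `< 1 / (2 k)` of an integer `m x`, so the sum over `x` is within distance `< 1 / 2` of
the integer `∑ m x`; but the sum is `b / (2 b) = 1 / 2`, contradiction with
`|1/2 - m| ≥ 1/2` for integers `m`.
-/

namespace Vale.Agent.Lib.P058

/-- linear algebra: a centre, or a dependence which sees the squared norms -/
private theorem sph_dichotomy {d : ℕ} {J : Type} [Fintype J] [DecidableEq J]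
    (a : J → EuclideanSpace ℝ (Fin d)) (x0 : J) :
    (∃ u : EuclideanSpace ℝ (Fin d), ∀ x, inner ℝ (a x - a x0) u = ‖a x - a x0‖ ^ 2) ∨
    ∃ c : J → ℝ, ∑ x, c x • (a x - a x0) = 0 ∧ ∑ x, c x * ‖a x - a x0‖ ^ 2 ≠ 0 := by
  classical
  let T : EuclideanSpace ℝ (Fin d) →ₗ[ℝ] (J → ℝ) :=
    LinearMap.pi fun x => (innerₛₗ ℝ (a x - a x0))
  have hT : ∀ u x, T u x = inner ℝ (a x - a x0) u := fun u x => rfl
  by_cases hv : (fun x => ‖a x - a x0‖ ^ 2) ∈ LinearMap.range T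
  · obtain ⟨u, hu⟩ := hv
    left
    exact ⟨u, fun x => by rw [← hT, hu]⟩
  · right
    obtain ⟨φ, hφ, hle⟩ := Submodule.exists_le_ker_of_notMem hv
    have hsum : ∀ w : J → ℝ, φ w = ∑ x, φ (Pi.single x 1) * w x := by
      intro w
      rw [LinearMap.pi_apply_eq_sum_univ φ w]
      refine Finset.sum_congr rfl fun x _ => ?_
      rw [smul_eq_mul, mul_comm]
      have hs : (fun j => if x = j then (1 : ℝ) else 0) = Pi.single x 1 := by
        funext j
        rw [Pi.single_apply]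
        simp only [eq_comm]
      rw [hs]
    refine ⟨fun x => φ (Pi.single x 1), ?_, ?_⟩
    · have h0 : ∀ u : EuclideanSpace ℝ (Fin d),
          inner ℝ (∑ x, φ (Pi.single x 1) • (a x - a x0)) u = 0 := by
        intro u
        rw [sum_inner]
        have h1 : φ (T u) = 0 := hle ⟨u, rfl⟩
        rw [hsum] at h1
        rw [← h1]
        refine Finset.sum_congr rfl fun x _ => ?_
        rw [real_inner_smul_left, hT]
      exact inner_self_eq_zero.mp (h0 _)
    · rw [← hsum]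
      exact hφ

/-- the dependence is transported by isometric embeddings -/
private theorem sph_transport {d D : ℕ} {J : Type} [Fintype J] [DecidableEq J]
    (a : J → EuclideanSpace ℝ (Fin d)) (f : J → EuclideanSpace ℝ (Fin D)) (x0 : J)
    (h : ∀ x y, dist (f x) (f y) = dist (a x) (a y)) (c : J → ℝ)
    (hc : ∑ x, c x • (a x - a x0) = 0) :
    ∑ x, c x * (‖f x‖ ^ 2 - ‖f x0‖ ^ 2) = ∑ x, c x * ‖a x - a x0‖ ^ 2 := by
  have key : ∀ {n : ℕ} (g : J → EuclideanSpace ℝ (Fin n)),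
      ∑ x, (c x - if x = x0 then ∑ y, c y else 0) • g x = ∑ x, c x • (g x - g x0) := by
    intro n g
    simp only [sub_smul, smul_sub, Finset.sum_sub_distrib, ite_smul, zero_smul,
      Finset.sum_ite_eq', Finset.mem_univ, if_true, Finset.sum_smul]
  have ha0 : ∑ x, (c x - if x = x0 then ∑ y, c y else 0) = 0 := by
    simp [Finset.sum_sub_distrib]
  have h1 := norm_comb_eq f a h (fun x => c x - if x = x0 then ∑ y, c y else 0) ha0
  rw [key f, key a, hc, norm_zero, norm_eq_zero] at h1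
  have h2 : ∀ x, c x * (‖f x‖ ^ 2 - ‖f x0‖ ^ 2) =
      c x * ‖a x - a x0‖ ^ 2 + 2 * inner ℝ (c x • (f x - f x0)) (f x0) := by
    intro x
    have h3 : ‖f x‖ ^ 2 = ‖f x - f x0‖ ^ 2 + 2 * inner ℝ (f x - f x0) (f x0) + ‖f x0‖ ^ 2 := by
      have := norm_add_sq_real (f x - f x0) (f x0)
      rwa [sub_add_cancel] at this
    have h4 : ‖f x - f x0‖ = ‖a x - a x0‖ := by
      rw [← dist_eq_norm, ← dist_eq_norm, h]
    rw [h3, h4, real_inner_smul_left]
    ring
  rw [Finset.sum_congr rfl fun x _ => h2 x, Finset.sum_add_distrib, ← Finset.mul_sum,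
    ← sum_inner, h1, inner_zero_left, mul_zero, add_zero]

theorem isSpherical_of_isRamsey {d : ℕ} (A : Set (EuclideanSpace ℝ (Fin d))) (hfin : A.Finite)
    (h : IsRamsey A) : IsSpherical A := by
  classical
  rcases A.eq_empty_or_nonempty with hA | ⟨p0, hp0⟩
  · refine ⟨0, 0, fun x hx => ?_⟩
    rw [hA] at hx
    exact absurd hx (Set.notMem_empty x)
  have _ : Fintype A := hfin.fintype
  set x0 : A := ⟨p0, hp0⟩ with hx0
  rcases sph_dichotomy (fun x : A => (x : EuclideanSpace ℝ (Fin d))) x0 with ⟨u, hu⟩ | ⟨c, hc, hb⟩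
  · refine ⟨x0 + (1 / 2 : ℝ) • u, ‖(1 / 2 : ℝ) • u‖, fun x hx => ?_⟩
    have h1 := hu ⟨x, hx⟩
    simp only at h1
    rw [dist_eq_norm, ← sub_sub]
    have h2 := norm_sub_sq_real (x - (x0 : EuclideanSpace ℝ (Fin d))) ((1 / 2 : ℝ) • u)
    rw [real_inner_smul_right, h1] at h2
    have h3 : ‖x - (x0 : EuclideanSpace ℝ (Fin d)) - (1 / 2 : ℝ) • u‖ ^ 2 =
        ‖(1 / 2 : ℝ) • u‖ ^ 2 := by
      rw [h2]; ring
    exact (sq_eq_sq₀ (norm_nonneg _) (norm_nonneg _)).mp h3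
  · exfalso
    set b : ℝ := ∑ x : A, c x * ‖(x : EuclideanSpace ℝ (Fin d)) - x0‖ ^ 2 with hbdef
    have hb0 : b ≠ 0 := hb
    set k : ℕ := Fintype.card A with hk
    have hkpos : 0 < k := Fintype.card_pos_iff.mpr ⟨x0⟩
    have hk2 : 0 < 2 * k := by omega
    have hcard : Fintype.card (A → Fin (2 * k)) = (2 * k) ^ k := by
      rw [Fintype.card_fun, Fintype.card_fin]
    have hr : 2 ≤ (2 * k) ^ k := by
      calc 2 ≤ 2 * k := by omega
        _ = (2 * k) ^ 1 := (pow_one _).symm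
        _ ≤ (2 * k) ^ k := Nat.pow_le_pow_right hk2 hkpos
    obtain ⟨D, -, hD⟩ := h _ hr
    let e : (A → Fin (2 * k)) ≃ Fin ((2 * k) ^ k) := Fintype.equivFinOfCardEq hcard
    have hlt : ∀ t : ℝ, ⌊((2 * k : ℕ) : ℝ) * Int.fract t⌋₊ < 2 * k := by
      intro t
      have h2 : (0 : ℝ) < ((2 * k : ℕ) : ℝ) := by exact_mod_cast hk2
      rw [Nat.floor_lt (mul_nonneg h2.le (Int.fract_nonneg _))]
      have h1 := Int.fract_lt_one t
      nlinarith
    obtain ⟨f, hf, hcol⟩ := hD (fun y => e fun x =>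
      ⟨⌊((2 * k : ℕ) : ℝ) * Int.fract (c x * ‖y‖ ^ 2 / (2 * b))⌋₊, hlt _⟩)
    have htr := sph_transport (fun x : A => (x : EuclideanSpace ℝ (Fin d))) f x0
      (fun x y => hf.dist_eq x y) c hc
    have hK : (0 : ℝ) < ((2 * k : ℕ) : ℝ) := by exact_mod_cast hk2
    have hclose : ∀ x : A, |Int.fract (c x * ‖f x‖ ^ 2 / (2 * b)) -
        Int.fract (c x * ‖f x0‖ ^ 2 / (2 * b))| < 1 / ((2 * k : ℕ) : ℝ) := by
      intro x
      have h1 := e.injective (hcol x x0)
      have h2 := congrArg Fin.val (congrFun h1 x)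
      simp only at h2
      set s := Int.fract (c x * ‖f x‖ ^ 2 / (2 * b))
      set t := Int.fract (c x * ‖f x0‖ ^ 2 / (2 * b))
      have hs0 : 0 ≤ ((2 * k : ℕ) : ℝ) * s := mul_nonneg hK.le (Int.fract_nonneg _)
      have ht0 : 0 ≤ ((2 * k : ℕ) : ℝ) * t := mul_nonneg hK.le (Int.fract_nonneg _)
      have a1 := Nat.floor_le hs0
      have a2 := Nat.lt_floor_add_one (((2 * k : ℕ) : ℝ) * s)
      have a3 := Nat.floor_le ht0
      have a4 := Nat.lt_floor_add_one (((2 * k : ℕ) : ℝ) * t)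
      rw [h2] at a1 a2
      rw [lt_div_iff₀ hK, ← abs_of_pos hK, ← abs_mul, abs_lt]
      constructor <;> nlinarith
    have hsum : ∑ x : A, (c x * ‖f x‖ ^ 2 / (2 * b) - c x * ‖f x0‖ ^ 2 / (2 * b)) = 1 / 2 := by
      have h1 : ∀ x : A, c x * ‖f x‖ ^ 2 / (2 * b) - c x * ‖f x0‖ ^ 2 / (2 * b) =
          (c x * (‖f x‖ ^ 2 - ‖f x0‖ ^ 2)) / (2 * b) := fun x => by ring
      rw [Finset.sum_congr rfl fun x _ => h1 x, ← Finset.sum_div, htr]
      change b / (2 * b) = 1 / 2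
      field_simp
    have hsplit : (1 / 2 : ℝ) = ((∑ x : A, (⌊c x * ‖f x‖ ^ 2 / (2 * b)⌋ -
        ⌊c x * ‖f x0‖ ^ 2 / (2 * b)⌋) : ℤ) : ℝ) + ∑ x : A,
        (Int.fract (c x * ‖f x‖ ^ 2 / (2 * b)) - Int.fract (c x * ‖f x0‖ ^ 2 / (2 * b))) := by
      rw [← hsum]
      push_cast
      rw [← Finset.sum_add_distrib]
      refine Finset.sum_congr rfl fun x _ => ?_
      simp only [Int.fract]
      ring
    have hsmall : |∑ x : A, (Int.fract (c x * ‖f x‖ ^ 2 / (2 * b)) -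
        Int.fract (c x * ‖f x0‖ ^ 2 / (2 * b)))| < 1 / 2 := by
      calc |∑ x : A, (Int.fract (c x * ‖f x‖ ^ 2 / (2 * b)) -
            Int.fract (c x * ‖f x0‖ ^ 2 / (2 * b)))|
          ≤ ∑ x : A, |Int.fract (c x * ‖f x‖ ^ 2 / (2 * b)) -
            Int.fract (c x * ‖f x0‖ ^ 2 / (2 * b))| := Finset.abs_sum_le_sum_abs _ _
        _ < ∑ _x : A, 1 / ((2 * k : ℕ) : ℝ) :=
            Finset.sum_lt_sum_of_nonempty ⟨x0, Finset.mem_univ _⟩ fun x _ => hclose x
        _ = 1 / 2 := by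
            rw [Finset.sum_const, Finset.card_univ, ← hk, nsmul_eq_mul]
            push_cast
            have : (k : ℝ) ≠ 0 := by exact_mod_cast hkpos.ne'
            field_simp
    set M : ℤ := ∑ x : A, (⌊c x * ‖f x‖ ^ 2 / (2 * b)⌋ - ⌊c x * ‖f x0‖ ^ 2 / (2 * b)⌋)
    rw [abs_lt] at hsmall
    have hM1 : (0 : ℝ) < (M : ℝ) := by linarith [hsmall.2]
    have hM2 : (M : ℝ) < 1 := by linarith [hsmall.1]
    have hM1' : 0 < M := by exact_mod_cast hM1
    have hM2' : M < 1 := by exact_mod_cast hM2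
    omega

end Vale.Agent.Lib.P058
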