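import Vale.Agent.Lib.P058.Final
import Vale.Agent.Lib.P058.Spherical

/-!
# P058, module Class: classification of Ramsey sets with at most `dim + 2` points
-/

namespace Vale.Agent.Lib.P058

theorem isRamsey_of_card_le {d : ℕ} (A : Set (EuclideanSpace ℝ (Fin d))) (hfin : A.Finite)
    (hcard : A.ncard ≤ Module.finrank ℝ (vectorSpan ℝ A) + 2) (hsph : IsSpherical A) :
    IsRamsey A := by
  classical
  obtain ⟨t, htA, htspan, hind⟩ := exists_affineIndependent ℝ (EuclideanSpace ℝ (Fin d)) A
  have htfin : t.Finite := hfin.subset htA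
  by_cases hAt : A ⊆ t
  · have : A = t := Set.Subset.antisymm hAt htA
    subst this
    exact isRamsey_simplex A hfin hind
  · rw [Set.not_subset] at hAt
    obtain ⟨q, hqA, hqt⟩ := hAt
    -- `t` has `finrank + 1` points
    have htne : t.Nonempty := by
      by_contra h
      rw [Set.not_nonempty_iff_eq_empty] at h
      rw [h, AffineSubspace.span_empty] at htspan
      have hA : A = ∅ := by
        have := (affineSpan_eq_bot ℝ).1 htspan.symm
        exact this
      rw [hA] at hqA
      exact hqA
    have hfint : Fintype t := htfin.fintype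
    have hcardt : t.ncard = Module.finrank ℝ (vectorSpan ℝ A) + 1 := by
      have h1 : Module.finrank ℝ (vectorSpan ℝ (Set.range ((↑) : t → EuclideanSpace ℝ (Fin d)))) + 1
          = Fintype.card t := by
        have : Nonempty t := htne.to_subtype
        have hpos : 0 < Fintype.card t := Fintype.card_pos
        obtain ⟨n, hn⟩ : ∃ n, Fintype.card t = n + 1 := ⟨Fintype.card t - 1, by omega⟩
        have := hind.finrank_vectorSpan (n := n) hn
        rw [this, hn]
      rw [Subtype.range_coe] at h1
      have h2 : vectorSpan ℝ t = vectorSpan ℝ A := by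
        rw [← direction_affineSpan, ← direction_affineSpan, htspan]
      rw [← h2, h1, ← Nat.card_eq_fintype_card, Nat.card_coe_set_eq]
    have hAsub : A ⊆ insert q t := by
      have hle : (insert q t).ncard = t.ncard + 1 := Set.ncard_insert_of_notMem hqt htfin
      have hsub : insert q t ⊆ A := Set.insert_subset hqA htA
      have := Set.eq_of_subset_of_ncard_le hsub (by omega) hfin
      rw [this]
    refine isRamsey_of_spherical_erase A q hfin hqA ?_ hsph
    let e : {x // x ∈ A ∧ x ≠ q} ↪ t :=
      ⟨fun x => ⟨x.1, (hAsub x.2.1).resolve_left x.2.2⟩, fun x y h => by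
        apply Subtype.ext
        exact congrArg (fun z : t => (z : EuclideanSpace ℝ (Fin d))) h⟩
    exact hind.comp_embedding e

theorem card_le_of_spherical {d : ℕ} (A : Set (EuclideanSpace ℝ (Fin d))) (hfin : A.Finite)
    (hcard : A.ncard ≤ 4) (hsph : IsSpherical A) :
    A.ncard ≤ Module.finrank ℝ (vectorSpan ℝ A) + 2 := by
  classical
  by_cases h3 : A.ncard ≤ 2
  · omega
  · push Not at h3
    -- three distinct points
    obtain ⟨x, hx, y, hy, z, hz, hxy, hxz, hyz⟩ : ∃ x ∈ A, ∃ y ∈ A, ∃ z ∈ A, x ≠ y ∧ x ≠ z ∧ y ≠ z := by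
      have := (Set.two_lt_ncard_iff hfin).1 h3
      obtain ⟨a, b, c, ha, hb, hc, hab, hac, hbc⟩ := this
      exact ⟨a, ha, b, hb, c, hc, hab, hac, hbc⟩
    have hcos : EuclideanGeometry.Cospherical A := by
      obtain ⟨c, ρ, h⟩ := hsph
      exact ⟨c, ρ, h⟩
    have hind : AffineIndependent ℝ ![x, y, z] := by
      refine hcos.affineIndependent ?_ ?_
      · rintro _ ⟨i, rfl⟩
        fin_cases i <;> simp [hx, hy, hz]
      · intro i j hij
        fin_cases i <;> fin_cases j <;> simp_all
    have hfr := hind.finrank_vectorSpan (n := 2) (by simp)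
    have hsub : vectorSpan ℝ (Set.range ![x, y, z]) ≤ vectorSpan ℝ A := by
      apply vectorSpan_mono
      rintro _ ⟨i, rfl⟩
      fin_cases i <;> simp [hx, hy, hz]
    have := Submodule.finrank_mono hsub
    omega

end Vale.Agent.Lib.P058
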