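import Vale.Agent.Lib.P058.Realize

/-!
# P058, module Compact

Compactness: finitely many words suffice.

PROOF.  Suppose not: for every finite set `W` of words there is a colouring `χ_W : List ℝ → C`
without monochromatic family `w : J → List ℝ` inside `W` having the three metric properties.
Take an ultrafilter `𝒰` on `Finset (List ℝ)` finer than `Filter.atTop`, and let
`χ u` be the `𝒰`-limit of `χ_W u` (`C` is finite: for every `u` there is `k` with
`∀ᶠ W in 𝒰, χ_W u = k`).  By `realize` the colouring `χ` has a monochromatic family `w`.  For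
`𝒰`-almost all `W`: `w j ∈ W` for all `j` (`W` is eventually above `Finset.univ.image w`), and
`χ_W (w j) = χ (w j)` for all `j`; contradiction.
-/

namespace Vale.Agent.Lib.P058

theorem realize_finite {J : Type} [Finite J] (V : Set (J → ℝ)) (D : J → J → ℝ) (hD : InD V D)
    (C : Type) [Finite C] :
    ∃ W : Finset (List ℝ), ∀ χ : List ℝ → C, ∃ w : J → List ℝ, (∀ j, w j ∈ W) ∧
      (∀ i j, (w i).length = (w j).length) ∧
      (∀ i j, wnorm (w i) = wnorm (w j)) ∧ (∀ i j, wdist (w i) (w j) = D i j) ∧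
      ∀ i j, χ (w i) = χ (w j) := by
  classical
  by_contra hcon
  push Not at hcon
  choose χ hχ using hcon
  let U : Ultrafilter (Finset (List ℝ)) := Ultrafilter.of Filter.atTop
  have hU : (U : Filter (Finset (List ℝ))) ≤ Filter.atTop := Ultrafilter.of_le _
  have hlim : ∀ u : List ℝ, ∃ k : C, ∀ᶠ W in (U : Filter (Finset (List ℝ))), χ W u = k := by
    intro u
    obtain ⟨k, hk⟩ := Ultrafilter.eq_pure_of_finite (U.map fun W => χ W u)
    refine ⟨k, ?_⟩
    have h1 : ({k} : Set C) ∈ U.map fun W => χ W u := by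
      rw [hk]
      exact Ultrafilter.mem_pure.2 rfl
    exact Ultrafilter.mem_map.1 h1
  choose ψ hψ using hlim
  obtain ⟨w, hw1, hw2, hw3, hw4⟩ := realize V D hD ψ
  have := Fintype.ofFinite J
  have h1 : ∀ᶠ W in (U : Filter (Finset (List ℝ))), Finset.univ.image w ≤ W :=
    hU (Filter.eventually_ge_atTop _)
  have h2 : ∀ᶠ W in (U : Filter (Finset (List ℝ))), ∀ j, χ W (w j) = ψ (w j) :=
    Filter.eventually_all.2 fun j => hψ (w j)
  obtain ⟨W, hW1, hW2⟩ := (h1.and h2).exists
  obtain ⟨i, j, hij⟩ := hχ W w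
    (fun j => hW1 (Finset.mem_image_of_mem w (Finset.mem_univ j))) hw1 hw2 hw3
  exact hij (by rw [hW2, hW2, hw4 i j])

end Vale.Agent.Lib.P058
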