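import Mathlib

/-!
# P058: definitions (free-group words with letters in `ℝ`)

`FreeGroup ℝ` has one letter `a_x = FreeGroup.of x` for every real number `x`.
A *column* is a function `c : J → ℝ` (`J` finite index set of *rows*).

`InP V v D`: the element `v : J → FreeGroup ℝ` is a product of constants `(b,...,b)` and of
columns `(a_{c j})_j` with `c ∈ V`, and `D i j` is the sum of `(c i - c j)^2` over the columns used.
-/

namespace Vale.Agent.Lib.P058

/-- The matrix of squared differences of a column. -/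
def Dm {J : Type*} (c : J → ℝ) : J → J → ℝ := fun i j => (c i - c j) ^ 2

/-- The column of letters. -/
def colF {J : Type*} (c : J → ℝ) : J → FreeGroup ℝ := fun j => FreeGroup.of (c j)

/-- The submonoid generated by the constants (cost `0`) and the columns in `V` (cost `Dm c`). -/
inductive InP {J : Type*} (V : Set (J → ℝ)) : (J → FreeGroup ℝ) → (J → J → ℝ) → Prop
  | const (b : FreeGroup ℝ) : InP V (fun _ => b) 0
  | col (c : J → ℝ) (hc : c ∈ V) : InP V (colF c) (Dm c)
  | mul {v v' : J → FreeGroup ℝ} {D D' : J → J → ℝ} :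
      InP V v D → InP V v' D' → InP V (v * v') (D + D')

/-- `D` is the cost of some constant element (this is an *identity with positive letters*). -/
def InD {J : Type*} (V : Set (J → ℝ)) (D : J → J → ℝ) : Prop :=
  ∃ b : FreeGroup ℝ, InP V (fun _ => b) D

/-- `φ` extended to a homomorphism `FreeGroup ℝ → (ℝ,+)`, `a_x ↦ φ x`. -/
noncomputable def homL (φ : ℝ → ℝ) (g : FreeGroup ℝ) : ℝ :=
  Multiplicative.toAdd (FreeGroup.lift (fun x => Multiplicative.ofAdd (φ x)) g)

/-- `v` has arbitrarily small cost. -/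
def Null {J : Type*} (V : Set (J → ℝ)) (v : J → FreeGroup ℝ) : Prop :=
  ∀ η : ℝ, 0 < η → ∃ D : J → J → ℝ, InP V v D ∧ ∀ i j, D i j ≤ η

/-- A list of columns is balanced if every row contains the same multiset of letters. -/
def Balanced {J : Type*} (L : List (J → ℝ)) : Prop :=
  ∀ i j : J, (L.map (fun c => c i)).Perm (L.map (fun c => c j))

/-- The standing hypotheses on the space `V` of columns; rows are pairs `(w, y)`
(`w` the group, `y` the class), `α` are the affine coefficients of the apex. -/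
structure GoodV {β Y : Type} [Fintype Y] [DecidableEq β] (α : Y → ℝ)
    (V : Submodule ℝ (β × Y → ℝ)) : Prop where
  sum_one : ∑ y, α y = 1
  two : ∀ p : Y, ∃ r t : Y, r ≠ t ∧ r ≠ p ∧ t ≠ p ∧ α r ≠ 0 ∧ α t ≠ 0
  one_mem : (fun _ => (1 : ℝ)) ∈ V
  loc_mem : ∀ (w : β) (δ : Y → ℝ), ∑ y, α y * δ y = 0 →
    (fun j : β × Y => if j.1 = w then δ j.2 else 0) ∈ V

/-- squared Euclidean distance of two words -/
def wdist (u v : List ℝ) : ℝ := (List.zipWith (fun a b => (a - b) ^ 2) u v).sum

/-- squared Euclidean norm of a word -/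
def wnorm (u : List ℝ) : ℝ := (u.map (fun a => a ^ 2)).sum

/-- Spherical Ramsey property for `r` colours: finite subsets of spheres of arbitrarily large radius
such that every colouring of them with at most `r` colours contains a monochromatic copy of `a`. -/
def SRam {I : Type} {d : ℕ} (r : ℕ) (a : I → EuclideanSpace ℝ (Fin d)) : Prop :=
  ∀ R0 : ℝ, ∃ (n : ℕ) (Z : Finset (EuclideanSpace ℝ (Fin n))) (R : ℝ), R0 < R ∧ Z.Nonempty ∧
    (∀ z ∈ Z, ‖z‖ = R) ∧
    ∀ (χ : EuclideanSpace ℝ (Fin n) → ℕ) (K : Finset ℕ), K.card ≤ r → (∀ z ∈ Z, χ z ∈ K) →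
      ∃ f : I → EuclideanSpace ℝ (Fin n), (∀ i, f i ∈ Z) ∧
        (∀ i j, dist (f i) (f j) = dist (a i) (a j)) ∧ ∀ i j, χ (f i) = χ (f j)

end Vale.Agent.Lib.P058
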