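import Vale.Agent.Lib.P058.NullM

/-!
# P058, module Dense

The cost of a balanced list is approximated by costs of constants.

PROOF.  Let `L = [c_1, ..., c_m]` be balanced with `c_i ∈ V`.  Let
`v = ∏ i, (colF c_i * const a_0⁻¹)`; `InP V v (∑ Dm c_i)` (induction on the list).
Row `j` is `v j = ∏ i, e_{c_i j}`, `e_x = a_x * a_0⁻¹ ∈ F0`.  For two rows the lists
`(c_i j)_i`, `(c_i j')_i` are permutations of each other, so `(v j)⁻¹ * v j' ∈ ⁅F0, F0⁆`
(e.g. `List.Perm` induction: if `l.Perm l'` are lists of elements of `F0` then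
`(l.prod)⁻¹ * l'.prod ∈ ⁅F0, F0⁆`; `⁅F0,F0⁆` is normal (`Subgroup.commutator_normal`);
or map to the quotient by `⁅F0,F0⁆`, where elements of the image of `F0` commute).
If there is no row, `InD V 0` works.  Otherwise fix a row `j₀`, `n j = (v j)⁻¹ * v j₀ ∈ ⁅F0, F0⁆`.
Then `v * ∏ j, Pi.mulSingle j (n j)` is the constant `v j₀`, and each `Pi.mulSingle j (n j)` is null
(`null_single`); choose costs `≤ η / (card + 1)`.  Use `Finset.noncommProd` or, simpler, an induction
over a finset/list of rows: for every `η > 0` and every finset `s` there is `D'` with all entries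
`≤ η` (and `≥ 0`) and `InP V (fun j => if j ∈ s then n j else 1) D'`.
The cost of the constant is `∑ Dm c_i + D'`, `0 ≤ D' ≤ η` (`InP.nonneg`).
-/

namespace Vale.Agent.Lib.P058

variable {β Y : Type} [Fintype Y] [DecidableEq Y] [Fintype β] [DecidableEq β] {α : Y → ℝ}
  {V : Submodule ℝ (β × Y → ℝ)}

open scoped commutatorElement in
private theorem dense_perm {G : Type} [Group G] (H : Subgroup G) [H.Normal] {l l' : List G}
    (h : l.Perm l') (hl : ∀ x ∈ l, x ∈ H) : l.prod⁻¹ * l'.prod ∈ ⁅H, H⁆ := by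
  induction h with
  | nil => simp
  | cons x _ ih =>
    have h1 := ih fun y hy => hl y (List.mem_cons_of_mem x hy)
    rw [List.prod_cons, List.prod_cons]
    have h2 : ∀ p p' : G, (x * p)⁻¹ * (x * p') = p⁻¹ * p' := fun p p' => by group
    rw [h2]
    exact h1
  | swap x y l =>
    rw [List.prod_cons, List.prod_cons, List.prod_cons, List.prod_cons]
    have hx : x ∈ H := hl x (by simp)
    have hy : y ∈ H := hl y (by simp)
    have h1 : ⁅x⁻¹, y⁻¹⁆ ∈ ⁅H, H⁆ := Subgroup.commutator_mem_commutator (H.inv_mem hx) (H.inv_mem hy)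
    have h2 := (Subgroup.commutator_normal H H).conj_mem _ h1 (l.prod)⁻¹
    have h3 : (y * (x * l.prod))⁻¹ * (x * (y * l.prod)) =
        l.prod⁻¹ * ⁅x⁻¹, y⁻¹⁆ * (l.prod⁻¹)⁻¹ := by
      rw [commutatorElement_def]
      group
    rw [h3]
    exact h2
  | trans h1 _ ih1 ih2 =>
    rename_i l1 l2 l3 _
    have e1 := ih1 hl
    have e2 := ih2 fun x hx => hl x (h1.mem_iff.2 hx)
    have e3 : l1.prod⁻¹ * l3.prod = (l1.prod⁻¹ * l2.prod) * (l2.prod⁻¹ * l3.prod) := by group
    rw [e3]
    exact Subgroup.mul_mem _ e1 e2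

private theorem dense_prod {J : Type} {W : Set (J → ℝ)} (L : List (J → ℝ)) (hL : ∀ c ∈ L, c ∈ W) :
    InP W ((L.map fun c => colF c * fun _ => (FreeGroup.of (0 : ℝ))⁻¹).prod)
      (fun i j => (L.map (fun c => Dm c i j)).sum) := by
  induction L with
  | nil => exact (InP.const 1).of_eq rfl rfl
  | cons c L ih =>
    have h1 := ih fun c' hc' => hL c' (List.mem_cons_of_mem c hc')
    refine (InP.mul (InP.mul (InP.col c (hL c List.mem_cons_self))
      (InP.const (FreeGroup.of (0 : ℝ))⁻¹)) h1).of_eq ?_ ?_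
    · rw [List.map_cons, List.prod_cons]
    · funext i j
      simp [Pi.add_apply]

private theorem dense_null {J : Type} [DecidableEq J] {W : Set (J → ℝ)} (n : J → FreeGroup ℝ)
    (hn : ∀ j, Null W (Pi.mulSingle j (n j))) (s : Finset J) :
    Null W (fun j => if j ∈ s then n j else 1) := by
  induction s using Finset.induction_on with
  | empty =>
    intro η hη
    refine ⟨0, (InP.const 1).of_eq ?_ rfl, fun i j => hη.le⟩
    funext j
    simp
  | insert a s ha ih =>
    have h : (fun j => if j ∈ insert a s then n j else 1) =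
        Pi.mulSingle a (n a) * fun j => if j ∈ s then n j else 1 := by
      funext j
      rw [Pi.mul_apply]
      by_cases hj : j = a
      · subst hj
        rw [if_pos (Finset.mem_insert_self _ _), if_neg ha, Pi.mulSingle_eq_same, mul_one]
      · rw [Pi.mulSingle_eq_of_ne hj, one_mul]
        by_cases hs : j ∈ s
        · rw [if_pos (Finset.mem_insert_of_mem hs), if_pos hs]
        · rw [if_neg hs, if_neg]
          rw [Finset.mem_insert, not_or]
          exact ⟨hj, hs⟩
    rw [h]
    exact (hn a).mul ih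

theorem dense (hV : GoodV α V) (L : List (β × Y → ℝ)) (hL : ∀ c ∈ L, c ∈ V)
    (hbal : Balanced L) (η : ℝ) (hη : 0 < η) :
    ∃ D, InD (V : Set (β × Y → ℝ)) D ∧
      ∀ i j, |D i j - (L.map (fun c => Dm c i j)).sum| ≤ η := by
  rcases isEmpty_or_nonempty (β × Y) with hE | ⟨⟨j₀⟩⟩
  · exact ⟨0, InD.zero _, fun i => (hE.false i).elim⟩
  set v : β × Y → FreeGroup ℝ :=
    (L.map fun c => colF c * fun _ => (FreeGroup.of (0 : ℝ))⁻¹).prod with hv
  have hvP := dense_prod (W := (V : Set (β × Y → ℝ))) L hL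
  have hrow : ∀ j, v j = ((L.map fun c => c j).map
      fun x : ℝ => FreeGroup.of x * (FreeGroup.of (0 : ℝ))⁻¹).prod := by
    intro j
    rw [hv, Pi.list_prod_apply, List.map_map, List.map_map]
    rfl
  have hnorm : (F0).Normal := Subgroup.normalClosure_normal
  have hcomm : ∀ j, (v j)⁻¹ * v j₀ ∈ ⁅F0, F0⁆ := by
    intro j
    rw [hrow, hrow]
    refine dense_perm F0 ((hbal j j₀).map _) ?_
    intro g hg
    obtain ⟨x, _, rfl⟩ := List.mem_map.1 hg
    exact Subgroup.subset_normalClosure ⟨x, 0, rfl⟩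
  have hnull : Null (V : Set (β × Y → ℝ))
      (fun j => if j ∈ (Finset.univ : Finset (β × Y)) then (v j)⁻¹ * v j₀ else 1) :=
    dense_null (fun j => (v j)⁻¹ * v j₀) (fun j => null_single hV j _ (hcomm j)) Finset.univ
  obtain ⟨D', hD', hle⟩ := hnull η hη
  refine ⟨(fun i j => (L.map (fun c => Dm c i j)).sum) + D', ⟨v j₀, ?_⟩, ?_⟩
  · refine (InP.mul hvP hD').of_eq ?_ rfl
    funext j
    rw [Pi.mul_apply, if_pos (Finset.mem_univ j), ← hv]
    group
  · intro i j
    have h1 := hD'.nonneg i j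
    have h2 := hle i j
    rw [Pi.add_apply, Pi.add_apply, add_sub_cancel_left, abs_of_nonneg h1]
    exact h2

/-- every column of `V` lies in a balanced list: `unit_all` gives `u` with
`colF c * u = 1`, i.e. `InD V (Dm c + D')`; the list of columns of this element
(`InP.exists_list`) can be taken as `c :: L'` where `L'` is the list of `u`. -/
theorem exists_balanced_cons (hV : GoodV α V) (c : β × Y → ℝ) (hc : c ∈ V) :
    ∃ L : List (β × Y → ℝ), (∀ c' ∈ L, c' ∈ V) ∧ Balanced (c :: L) := by
  obtain ⟨D, hD⟩ := unit_all hV c hc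
  obtain ⟨L, h1, _, h3⟩ := hD.exists_list
  refine ⟨L, h1, balanced_of_sums ?_⟩
  intro φ i j
  have h := h3 φ i j
  rw [homL_inv, homL_inv, homL_of, homL_of] at h
  rw [List.map_cons, List.map_cons, List.sum_cons, List.sum_cons]
  linarith

end Vale.Agent.Lib.P058
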