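import Mathlib

/-!
# P058, module Deriv: a nonzero derivation of `ℝ`

PROOF.  Let `v : ι → ℝ` be a transcendence basis of `ℝ` over `ℚ` (`exists_isTranscendenceBasis'`);
`ι` is nonempty (else `ℝ` is algebraic over `ℚ`, but there are transcendental numbers, e.g. by
cardinality `Algebraic.cardinalMk_le_max`, or `Liouville`), let `i₀ : ι`.
Let `S₀ = Algebra.adjoin ℚ (Set.range v)`.  `hb.aevalEquiv : MvPolynomial ι ℚ ≃ₐ S₀`, so there is an
`ℚ`-algebra map `S₀ → TrivSqZeroExt ℝ ℝ` (dual numbers `DualNumber ℝ`) with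
`v i ↦ v i + (if i = i₀ then ε else 0)`; it makes `DualNumber ℝ` an `S₀`-algebra and
`TrivSqZeroExt.fst` an `S₀`-algebra map onto `ℝ` with kernel of square zero.  `ℝ` is formally smooth
over `S₀` (localisation `IntermediateField.adjoin` of `S₀`, then a separable algebraic extension: see
the proof of `Algebra.FormallySmooth.of_algebraicIndependent_of_isSeparable` in
`Mathlib/RingTheory/Smooth/Field.lean`), so the identity of `ℝ` lifts to an `S₀`-algebra map
`h : ℝ → DualNumber ℝ` with `fst ∘ h = id` (`Algebra.FormallySmooth.lift`/`exists_lift`).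
`δ a = snd (h a)` satisfies the sum and product rules and `δ (v i₀) = 1`.
(Other ways are fine: `KaehlerDifferential.tensorKaehlerEquivOfFormallyEtale`, `MvPolynomial.mkDerivation`,
or Zorn's lemma.)
Let `T = v i₀`, `δ 1 = 0` (product rule for `1 * 1`), so `δ n = 0` for integers `n` and `δ (T - n) = 1`;
take `x = Int.fract T`; `x ≠ 0` because `δ 0 = 0`.
-/

namespace Vale.Agent.Lib.P058

/-- a copy of the dual numbers, without algebra instances -/
private def DD : Type := DualNumber ℝ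

private noncomputable instance : CommRing DD := inferInstanceAs (CommRing (DualNumber ℝ))

private noncomputable def fstR : DD →+* ℝ :=
  (TrivSqZeroExt.fstHom ℝ ℝ ℝ : DualNumber ℝ →ₐ[ℝ] ℝ).toRingHom

private noncomputable def sndR (x : DD) : ℝ := TrivSqZeroExt.snd (x : DualNumber ℝ)

private theorem sndR_add (x y : DD) : sndR (x + y) = sndR x + sndR y :=
  TrivSqZeroExt.snd_add (x : DualNumber ℝ) (y : DualNumber ℝ)

private theorem sndR_mul (x y : DD) : sndR (x * y) = fstR x * sndR y + fstR y * sndR x := by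
  have h := TrivSqZeroExt.snd_mul (x : DualNumber ℝ) (y : DualNumber ℝ)
  refine Eq.trans (b := TrivSqZeroExt.fst (x : DualNumber ℝ) * TrivSqZeroExt.snd (y : DualNumber ℝ) +
    TrivSqZeroExt.snd (x : DualNumber ℝ) * TrivSqZeroExt.fst (y : DualNumber ℝ)) h ?_
  change TrivSqZeroExt.fst (x : DualNumber ℝ) * TrivSqZeroExt.snd (y : DualNumber ℝ) +
    TrivSqZeroExt.snd (x : DualNumber ℝ) * TrivSqZeroExt.fst (y : DualNumber ℝ) =
    TrivSqZeroExt.fst (x : DualNumber ℝ) * TrivSqZeroExt.snd (y : DualNumber ℝ) +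
    TrivSqZeroExt.fst (y : DualNumber ℝ) * TrivSqZeroExt.snd (x : DualNumber ℝ)
  ring

private theorem fstR_surj : Function.Surjective fstR :=
  fun x => ⟨(TrivSqZeroExt.inl x : DualNumber ℝ), rfl⟩

private theorem isUnit_of_fst {x : DD} (h : fstR x ≠ 0) : IsUnit x := by
  have : IsUnit (x : DualNumber ℝ) :=
    TrivSqZeroExt.isUnit_iff_isUnit_fst.2 (isUnit_iff_ne_zero.2 h)
  exact this

private theorem DD_ext {x y : DD} (h1 : fstR x = fstR y) (h2 : sndR x = sndR y) : x = y :=
  TrivSqZeroExt.ext (x := (x : DualNumber ℝ)) (y := (y : DualNumber ℝ)) h1 h2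

private theorem sndR_zero : sndR 0 = 0 := rfl

private theorem ker_nilp : IsNilpotent (RingHom.ker fstR) := by
  refine ⟨2, ?_⟩
  rw [pow_two, Ideal.zero_eq_bot, eq_bot_iff, Ideal.mul_le]
  intro r hr s hs
  have hr' : fstR r = 0 := hr
  have hs' : fstR s = 0 := hs
  rw [Ideal.mem_bot]
  refine DD_ext ?_ ?_
  · rw [map_mul, hr', map_zero, zero_mul]
  · rw [sndR_mul, hr', hs', sndR_zero, zero_mul, zero_mul, add_zero]

private noncomputable def gen {ι : Type} (v : ι → ℝ) (w : ι → ℝ) (i : ι) : DualNumber ℝ :=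
  TrivSqZeroExt.inl (v i) + TrivSqZeroExt.inr (w i)

private noncomputable def gHom {ι : Type} (v : ι → ℝ) (w : ι → ℝ) : MvPolynomial ι ℚ →+* DD :=
  (MvPolynomial.aeval (R := ℚ) (gen v w)).toRingHom

private theorem gHom_X {ι : Type} (v : ι → ℝ) (w : ι → ℝ) (i : ι) :
    gHom v w (MvPolynomial.X i) = (gen v w i : DualNumber ℝ) :=
  MvPolynomial.aeval_X (R := ℚ) (gen v w) i

private theorem fstR_gHom {ι : Type} (v : ι → ℝ) (w : ι → ℝ) (p : MvPolynomial ι ℚ) :
    fstR (gHom v w p) = MvPolynomial.aeval v p := by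
  have h : fstR.comp (gHom v w) = (MvPolynomial.aeval (R := ℚ) v).toRingHom := by
    refine MvPolynomial.ringHom_ext (fun r => ?_) (fun i => ?_)
    · exact RingHom.congr_fun (Subsingleton.elim ((fstR.comp (gHom v w)).comp MvPolynomial.C)
        (((MvPolynomial.aeval (R := ℚ) v).toRingHom).comp MvPolynomial.C)) r
    · rw [RingHom.comp_apply, gHom_X]
      change _ = MvPolynomial.aeval v (MvPolynomial.X i)
      rw [MvPolynomial.aeval_X]
      change TrivSqZeroExt.fst (gen v w i) = v i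
      simp [gen]
  exact RingHom.congr_fun h p

open scoped IntermediateField.algebraAdjoinAdjoin in
private theorem exists_lift' {ι : Type} {v : ι → ℝ} (hv : IsTranscendenceBasis ℚ v) (i₀ : ι) :
    ∃ h : ℝ →+* DD, (∀ x, fstR (h x) = x) ∧ sndR (h (v i₀)) = 1 := by
  classical
  have hb := hv.1
  let w : ι → ℝ := fun i => if i = i₀ then 1 else 0
  let φ₀ : Algebra.adjoin ℚ (Set.range v) →+* DD :=
    (gHom v w).comp (hb.aevalEquiv.symm : _ ≃ₐ[ℚ] _).toRingEquiv.toRingHom
  have hφ₀ : ∀ s, φ₀ s = gHom v w (hb.aevalEquiv.symm s) := fun s => rfl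
  have hfst : ∀ s, fstR (φ₀ s) = (s : ℝ) := by
    intro s
    rw [hφ₀, fstR_gHom]
    have h1 := hb.algebraMap_aevalEquiv (hb.aevalEquiv.symm s)
    rw [AlgEquiv.apply_symm_apply] at h1
    rw [← h1]
    rfl
  have hunit : ∀ y : nonZeroDivisors (Algebra.adjoin ℚ (Set.range v)), IsUnit (φ₀ y) := by
    intro y
    apply isUnit_of_fst
    rw [hfst]
    intro h0
    exact nonZeroDivisors.ne_zero y.2 (Subtype.ext h0)
  let φ : IntermediateField.adjoin ℚ (Set.range v) →+* DD := IsLocalization.lift hunit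
  have hφ : ∀ s, φ (algebraMap _ _ s) = φ₀ s := fun s => IsLocalization.lift_eq hunit s
  letI : Algebra (IntermediateField.adjoin ℚ (Set.range v)) DD := φ.toAlgebra
  have hcomm : fstR.comp φ = algebraMap (IntermediateField.adjoin ℚ (Set.range v)) ℝ := by
    refine IsLocalization.ringHom_ext (nonZeroDivisors (Algebra.adjoin ℚ (Set.range v))) ?_
    ext s
    rw [RingHom.comp_apply, RingHom.comp_apply, RingHom.comp_apply, hφ, hfst]
    rfl
  let fstA : DD →ₐ[IntermediateField.adjoin ℚ (Set.range v)] ℝ :=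
    { fstR with commutes' := fun a => RingHom.congr_fun hcomm a }
  haveI : Algebra.IsAlgebraic (IntermediateField.adjoin ℚ (Set.range v)) ℝ := hv.isAlgebraic_field
  haveI : Algebra.FormallyEtale (IntermediateField.adjoin ℚ (Set.range v)) ℝ :=
    Algebra.FormallyEtale.of_isSeparable _ ℝ
  let h := Algebra.FormallySmooth.liftOfSurjective
    (AlgHom.id (IntermediateField.adjoin ℚ (Set.range v)) ℝ) fstA fstR_surj ker_nilp
  refine ⟨h.toRingHom, fun x => ?_, ?_⟩
  · exact Algebra.FormallySmooth.liftOfSurjective_apply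
      (AlgHom.id (IntermediateField.adjoin ℚ (Set.range v)) ℝ) fstA fstR_surj ker_nilp x
  · have h1 : v i₀ ∈ Algebra.adjoin ℚ (Set.range v) := Algebra.subset_adjoin ⟨i₀, rfl⟩
    have h2 : h (v i₀) = φ₀ ⟨v i₀, h1⟩ := by
      have h3 := h.commutes (algebraMap (Algebra.adjoin ℚ (Set.range v))
        (IntermediateField.adjoin ℚ (Set.range v)) ⟨v i₀, h1⟩)
      rw [← hφ]
      exact h3
    have h4 : hb.aevalEquiv.symm ⟨v i₀, h1⟩ = MvPolynomial.X i₀ := by
      rw [AlgEquiv.symm_apply_eq]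
      apply Subtype.ext
      have h5 := hb.algebraMap_aevalEquiv (MvPolynomial.X i₀)
      rw [MvPolynomial.aeval_X] at h5
      exact h5.symm
    change sndR (h (v i₀)) = 1
    rw [h2, hφ₀, h4, gHom_X]
    change TrivSqZeroExt.snd (gen v w i₀) = 1
    simp [gen, w]

theorem exists_derivation : ∃ (δ : ℝ → ℝ) (x : ℝ), (∀ a b, δ (a + b) = δ a + δ b) ∧
    (∀ a b, δ (a * b) = a * δ b + b * δ a) ∧ 0 < x ∧ x < 1 ∧ δ x ≠ 0 := by
  obtain ⟨ι, v, hv⟩ := exists_isTranscendenceBasis' ℚ ℝ
  have hne : Nonempty ι := by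
    rw [← not_isEmpty_iff]
    intro he
    have halg : Algebra.IsAlgebraic ℚ ℝ := hv.isEmpty_iff_isAlgebraic.1 he
    have h1 := Algebra.IsAlgebraic.cardinalMk_le_max ℚ ℝ
    rw [Cardinal.mk_real] at h1
    have h2 : max (Cardinal.mk ℚ) Cardinal.aleph0 = Cardinal.aleph0 := by
      simp
    rw [h2] at h1
    exact absurd h1 (not_le.2 Cardinal.aleph0_lt_continuum)
  obtain ⟨i₀⟩ := hne
  obtain ⟨h, hf, hs⟩ := exists_lift' hv i₀
  have hmul : ∀ a b, sndR (h (a * b)) = a * sndR (h b) + b * sndR (h a) := by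
    intro a b
    rw [map_mul, sndR_mul, hf, hf]
  have hadd : ∀ a b, sndR (h (a + b)) = sndR (h a) + sndR (h b) := by
    intro a b
    rw [map_add, sndR_add]
  have hint : ∀ n : ℤ, sndR (h n) = 0 := by
    intro n
    have h1 : sndR (h 1) = 0 := by
      have := hmul 1 1
      rw [mul_one, one_mul] at this
      linarith
    have h0 : sndR (h 0) = 0 := by rw [map_zero]; rfl
    induction n using Int.induction_on with
    | zero => simpa using h0
    | succ i ih =>
      push_cast at ih ⊢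
      rw [hadd, ih, h1, add_zero]
    | pred i ih =>
      have e := hadd (((-(i : ℤ) - 1 : ℤ) : ℝ)) 1
      have e2 : (((-(i : ℤ) - 1 : ℤ) : ℝ)) + 1 = ((-(i : ℤ) : ℤ) : ℝ) := by push_cast; ring
      rw [e2, ih, h1, add_zero] at e
      exact e.symm
  have hfr : sndR (h (Int.fract (v i₀))) = 1 := by
    have e := hadd (Int.fract (v i₀)) (⌊v i₀⌋ : ℝ)
    rw [Int.fract_add_floor, hs, hint, add_zero] at e
    exact e.symm
  refine ⟨fun a => sndR (h a), Int.fract (v i₀), hadd, hmul, ?_, Int.fract_lt_one _, ?_⟩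
  · refine lt_of_le_of_ne (Int.fract_nonneg _) (fun h0 => ?_)
    rw [← h0, map_zero] at hfr
    exact zero_ne_one hfr
  · change sndR (h (Int.fract (v i₀))) ≠ 0
    rw [hfr]
    exact one_ne_zero

end Vale.Agent.Lib.P058
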