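import Vale.Agent.Lib.P058.FarkasA

/-!
# P058, module Farkas

A functional that is nonnegative on balanced lists becomes nonnegative on columns after adding a sum
of one-row functions with total sum zero.

PROOF.  `J` finite nonempty, `V` a set of columns.  Let `M = (V →₀ ℝ)` (finitely supported real
weights on the columns in `V`), for a row `j` let `push j : M →ₗ (ℝ →₀ ℝ)` be
`Finsupp.lmapDomain` along `c ↦ c j`, fix a row `j₀` and let
`B : M →ₗ (J → ℝ →₀ ℝ)`, `B ω j = push j ω - push j₀ ω`; `N = ker B` (balanced weights).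
`Qh ω = ∑ c, ω c * Q c` (`Finsupp.lsum`/`Finsupp.linearCombination`).

(A) `0 ≤ Qh ω` for `ω ∈ N`, `ω ≥ 0`: this is `farkas_real` (module FarkasA).

(B) Riesz extension (`riesz_extension`) with the cone of nonnegative `ω`, the linear map
`Qh` restricted to `N` (nonneg on nonneg elements), and the density condition: for every `ω` there is
`n ∈ N` with `0 ≤ n + ω`: every `c ∈ V` lies in a balanced list (`hcover`), i.e. there is
`n_c ∈ N`, `n_c ≥ 0`, `n_c c ≥ 1`; take `n = ∑_c |ω c| • n_c`.
It gives `g : M →ₗ ℝ`, `g ≥ 0` on nonneg `ω`, `g = Qh` on `N`.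
`g - Qh` vanishes on `N = ker B`, so there is `G : (J → ℝ →₀ ℝ) →ₗ ℝ` with `g - Qh = G ∘ B`
(e.g. `LinearMap.range_dualMap_eq_dualAnnihilator_ker`, or factor through the range and
`LinearMap.exists_extend`).
With `G_j x = G (Pi.single j (Finsupp.single x 1))`:
`g (single c 1) - Q c = ∑ j, (G_j (c j) - G_j (c j₀))`.
Put `f j = G_j` for `j ≠ j₀` and `f j₀ = G_{j₀} - ∑ j, G_j`; then `∑ j, f j x = 0` and
`g (single c 1) - Q c = ∑ j, f j (c j)`, so `0 ≤ g (single c 1) = Q c + ∑ j, f j (c j)`.
-/

namespace Vale.Agent.Lib.P058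

namespace FarkasAux

variable {J : Type}

/-- the cone of nonnegative weights -/
def nonnegCone (V : Set (J → ℝ)) : PointedCone ℝ (V →₀ ℝ) where
  carrier := {ω | ∀ c, 0 ≤ ω c}
  add_mem' := fun {a b} ha hb c => add_nonneg (ha c) (hb c)
  zero_mem' := fun _ => le_rfl
  smul_mem' := fun t a ha c => by
    have h1 : (t • a) c = (t : ℝ) * a c := rfl
    rw [h1]
    exact mul_nonneg t.2 (ha c)

/-- differences of the distributions of the letters of the rows -/
noncomputable def rowDiff (V : Set (J → ℝ)) (j₀ : J) : (V →₀ ℝ) →ₗ[ℝ] (J → (ℝ →₀ ℝ)) :=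
  LinearMap.pi fun j => Finsupp.lmapDomain ℝ ℝ (fun c : V => c.1 j) -
    Finsupp.lmapDomain ℝ ℝ (fun c : V => c.1 j₀)

theorem rowDiff_apply (V : Set (J → ℝ)) (j₀ j : J) (ω : V →₀ ℝ) :
    rowDiff V j₀ ω j = Finsupp.mapDomain (fun c : V => c.1 j) ω -
      Finsupp.mapDomain (fun c : V => c.1 j₀) ω := rfl

/-- the weight of a list of columns -/
noncomputable def lw (V : Set (J → ℝ)) (L : List V) : V →₀ ℝ :=
  (L.map fun c => Finsupp.single c (1 : ℝ)).sum

theorem lw_nonneg (V : Set (J → ℝ)) (L : List V) (c : V) : 0 ≤ lw V L c := by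
  induction L with
  | nil => exact le_rfl
  | cons a L ih =>
    have h : lw V (a :: L) = Finsupp.single a (1 : ℝ) + lw V L := by
      unfold lw
      rw [List.map_cons, List.sum_cons]
    rw [h, Finsupp.add_apply]
    refine add_nonneg ?_ ih
    classical
    rw [Finsupp.single_apply]
    split_ifs
    · exact zero_le_one
    · exact le_rfl

theorem mapDomain_lw (V : Set (J → ℝ)) (L : List V) (j : J) :
    Finsupp.mapDomain (fun c : V => c.1 j) (lw V L) =
      ((L.map fun c => c.1 j).map fun x => Finsupp.single x (1 : ℝ)).sum := by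
  induction L with
  | nil => exact Finsupp.mapDomain_zero
  | cons a L ih =>
    have h : lw V (a :: L) = Finsupp.single a (1 : ℝ) + lw V L := by
      unfold lw
      rw [List.map_cons, List.sum_cons]
    rw [h, Finsupp.mapDomain_add, ih, Finsupp.mapDomain_single, List.map_cons, List.map_cons,
      List.sum_cons]

theorem rowDiff_lw (V : Set (J → ℝ)) (j₀ : J) (L : List V)
    (hL : Balanced (L.map Subtype.val)) : rowDiff V j₀ (lw V L) = 0 := by
  funext j
  rw [rowDiff_apply, mapDomain_lw, mapDomain_lw]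
  have h := hL j j₀
  rw [List.map_map, List.map_map] at h
  have h2 : (L.map fun c => c.1 j).Perm (L.map fun c => c.1 j₀) := h
  rw [(h2.map fun x => Finsupp.single x (1 : ℝ)).sum_eq, sub_self]
  rfl

/-- every weight becomes nonnegative after adding a balanced weight -/
theorem dense (V : Set (J → ℝ)) (j₀ : J)
    (hcover : ∀ c ∈ V, ∃ L : List (J → ℝ), (∀ c' ∈ L, c' ∈ V) ∧ Balanced (c :: L))
    (y : V →₀ ℝ) : ∃ x : V →₀ ℝ, rowDiff V j₀ x = 0 ∧ ∀ c, 0 ≤ (x + y) c := by
  induction y using Finsupp.induction_linear with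
  | zero => exact ⟨0, map_zero _, fun c => by simp⟩
  | add f g hf hg =>
    obtain ⟨x, hx, hx'⟩ := hf
    obtain ⟨z, hz, hz'⟩ := hg
    refine ⟨x + z, by rw [map_add, hx, hz, add_zero], fun c => ?_⟩
    have h1 := add_nonneg (hx' c) (hz' c)
    simp only [Finsupp.add_apply] at h1 ⊢
    linarith
  | single a t =>
    obtain ⟨L, hL, hbal⟩ := hcover a.1 a.2
    lift L to List V using hL
    have hb : Balanced ((a :: L).map Subtype.val) := by
      rw [List.map_cons]
      exact hbal
    refine ⟨|t| • lw V (a :: L), by rw [map_smul, rowDiff_lw V j₀ _ hb, smul_zero], fun c => ?_⟩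
    have h : lw V (a :: L) = Finsupp.single a (1 : ℝ) + lw V L := by
      unfold lw
      rw [List.map_cons, List.sum_cons]
    have h1 := mul_nonneg (abs_nonneg t) (lw_nonneg V L c)
    rw [h]
    simp only [Finsupp.add_apply, Finsupp.smul_apply, smul_eq_mul, mul_add]
    classical
    rw [Finsupp.single_apply, Finsupp.single_apply]
    have h2 := neg_abs_le t
    split_ifs
    · linarith
    · linarith

end FarkasAux

open FarkasAux in
theorem farkas {J : Type} [Fintype J] [Nonempty J] (V : Set (J → ℝ)) (Q : (J → ℝ) → ℝ)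
    (hQ : ∀ L : List (J → ℝ), (∀ c ∈ L, c ∈ V) → Balanced L → 0 ≤ (L.map Q).sum)
    (hcover : ∀ c ∈ V, ∃ L : List (J → ℝ), (∀ c' ∈ L, c' ∈ V) ∧ Balanced (c :: L)) :
    ∃ f : J → ℝ → ℝ, (∀ x, ∑ j, f j x = 0) ∧ ∀ c ∈ V, 0 ≤ Q c + ∑ j, f j (c j) := by
  classical
  obtain ⟨j₀⟩ := ‹Nonempty J›
  have hQh : ∀ ω : V →₀ ℝ, Finsupp.linearCombination ℝ (fun c : V => Q c.1) ω =
      ω.sum (fun c t => t * Q c.1) := fun ω => by
    rw [Finsupp.linearCombination_apply]
    rfl
  obtain ⟨g, hg1, hg2⟩ := riesz_extension (nonnegCone V)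
    ⟨LinearMap.ker (rowDiff V j₀),
      (Finsupp.linearCombination ℝ (fun c : V => Q c.1)).domRestrict
        (LinearMap.ker (rowDiff V j₀))⟩
    (by
      rintro ⟨x, hx⟩ hx'
      have h1 : ∀ j, Finsupp.mapDomain (fun c : V => c.1 j) x =
          Finsupp.mapDomain (fun c : V => c.1 j₀) x := fun j => by
        have h2 := congrFun (LinearMap.mem_ker.1 hx) j
        rw [rowDiff_apply] at h2
        exact sub_eq_zero.1 h2
      have h3 := farkas_real V Q hQ x hx' fun i j => (h1 i).trans (h1 j).symm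
      rw [← hQh] at h3
      exact h3)
    (by
      intro y
      obtain ⟨x, hx, hx'⟩ := dense V j₀ hcover y
      exact ⟨⟨x, LinearMap.mem_ker.2 hx⟩, hx'⟩)
  have hmem : (g - Finsupp.linearCombination ℝ (fun c : V => Q c.1) : Module.Dual ℝ (V →₀ ℝ)) ∈
      (LinearMap.ker (rowDiff V j₀)).dualAnnihilator := by
    rw [Submodule.mem_dualAnnihilator]
    intro x hx
    have h1 := hg1 ⟨x, hx⟩
    rw [LinearMap.sub_apply, sub_eq_zero]
    exact h1
  rw [← LinearMap.range_dualMap_eq_dualAnnihilator_ker] at hmem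
  obtain ⟨G, hG⟩ := hmem
  have hval : ∀ c : V, g (Finsupp.single c 1) =
      Q c.1 + (∑ j, G (Pi.single j (Finsupp.single (c.1 j) 1)) -
        ∑ j, G (Pi.single j (Finsupp.single (c.1 j₀) 1))) := by
    intro c
    have h1 := congrArg (fun φ : Module.Dual ℝ (V →₀ ℝ) => φ (Finsupp.single c 1)) hG
    simp only [LinearMap.dualMap_apply, LinearMap.sub_apply,
      Finsupp.linearCombination_single, one_smul] at h1
    have h2 : rowDiff V j₀ (Finsupp.single c 1) =
        ∑ j, Pi.single j (Finsupp.single (c.1 j) (1 : ℝ)) -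
          ∑ j, Pi.single j (Finsupp.single (c.1 j₀) (1 : ℝ)) := by
      funext j
      rw [rowDiff_apply, Finsupp.mapDomain_single, Finsupp.mapDomain_single, Pi.sub_apply,
        Finset.sum_apply, Finset.sum_apply]
      simp only [Pi.single_apply]
      simp
    rw [h2, map_sub, map_sum, map_sum] at h1
    linarith
  refine ⟨fun j x => G (Pi.single j (Finsupp.single x 1)) -
    if j = j₀ then ∑ i, G (Pi.single i (Finsupp.single x 1)) else 0, fun x => ?_, fun c hc => ?_⟩
  · rw [Finset.sum_sub_distrib]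
    simp
  · have h1 := hval ⟨c, hc⟩
    have h2 : 0 ≤ g (Finsupp.single ⟨c, hc⟩ 1) := hg2 _ fun c' => by
      rw [Finsupp.single_apply]
      split_ifs
      · exact zero_le_one
      · exact le_rfl
    have h3 : ∑ j, (G (Pi.single j (Finsupp.single (c j) 1)) -
        if j = j₀ then ∑ i, G (Pi.single i (Finsupp.single (c j) 1)) else 0) =
        ∑ j, G (Pi.single j (Finsupp.single (c j) 1)) -
          ∑ j, G (Pi.single j (Finsupp.single (c j₀) 1)) := by
      rw [Finset.sum_sub_distrib]
      congr 1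
      rw [Finset.sum_ite_eq' Finset.univ j₀, if_pos (Finset.mem_univ _)]
    rw [h3, ← h1]
    exact h2

end Vale.Agent.Lib.P058
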