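import Mathlib

/-!
# P058, module IntA: averages over balls

`ball_integral_rot`: for `‖x‖ = ‖y‖` there is a linear isometry `L : E ≃ₗᵢ[ℝ] E` with `L x = y`
(reflection: `reflection_sub` / `Submodule.reflection`, in Mathlib
`theorem reflection_sub {v w : F} (h : ‖v‖ = ‖w‖) : reflection (ℝ ∙ (v - w))ᗮ v = w`).  `L` preserves
the volume (`LinearIsometryEquiv.measurePreserving`) and the ball, and `⟪L g, y⟫ = ⟪L g, L x⟫ = ⟪g, x⟫`
(`MeasureTheory.MeasurePreserving.setIntegral_preimage_emb`, measurable embedding from the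
homeomorphism).

`ball_integral_sq`: pick a unit vector `e` (`Nontrivial E`), `κ = ∫ g in ball 0 T, ⟪g, e⟫ ^ 2`.
For `x ≠ 0`: `⟪g, x⟫ ^ 2 = ‖x‖ ^ 2 * ⟪g, x / ‖x‖⟫ ^ 2` and `ball_integral_rot`.  `κ > 0`: continuous
nonnegative integrand, positive at `(T / 2) • e` in the open ball
(`MeasureTheory.setIntegral_pos_iff_support_of_nonneg_ae`, or
`Continuous.integral_pos_of_hasCompactSupport_nonneg_nonzero` on the indicator.., or an
explicit small ball on which the integrand is bounded below).
-/

namespace Vale.Agent.Lib.P058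

open MeasureTheory

variable {E : Type} [NormedAddCommGroup E] [InnerProductSpace ℝ E] [FiniteDimensional ℝ E]
  [MeasurableSpace E] [BorelSpace E]

theorem ball_integral_rot (T : ℝ) (φ : ℝ → ℝ) (x y : E) (h : ‖x‖ = ‖y‖) :
    ∫ g in Metric.ball (0 : E) T, φ (inner ℝ g x) =
      ∫ g in Metric.ball (0 : E) T, φ (inner ℝ g y) := by
  obtain ⟨L, hL⟩ : ∃ L : E ≃ₗᵢ[ℝ] E, L x = y :=
    ⟨(ℝ ∙ (x - y))ᗮ.reflection, Submodule.reflection_sub h⟩
  have hmp : MeasurePreserving L (volume : Measure E) volume := L.measurePreserving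
  have hemb : MeasurableEmbedding L := L.toHomeomorph.measurableEmbedding
  have h1 := hmp.setIntegral_preimage_emb hemb (fun g => φ (inner ℝ g y)) (Metric.ball (0 : E) T)
  have h2 : L ⁻¹' Metric.ball (0 : E) T = Metric.ball (0 : E) T := by
    ext g
    simp
  rw [← h1, h2]
  refine integral_congr_ae (Filter.Eventually.of_forall fun g => ?_)
  simp only
  rw [← hL, L.inner_map_map]

theorem ball_integral_sq [Nontrivial E] (T : ℝ) (hT : 0 < T) :
    ∃ κ : ℝ, 0 < κ ∧ ∀ x : E, ∫ g in Metric.ball (0 : E) T, (inner ℝ g x) ^ 2 = κ * ‖x‖ ^ 2 := by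
  obtain ⟨e, he⟩ := exists_norm_eq E zero_le_one
  have hcont : Continuous fun g : E => (inner ℝ g e) ^ 2 := by fun_prop
  refine ⟨∫ g in Metric.ball (0 : E) T, (inner ℝ g e) ^ 2, ?_, fun x => ?_⟩
  · have hint : IntegrableOn (fun g : E => (inner ℝ g e) ^ 2) (Metric.ball (0 : E) T) volume :=
      (hcont.continuousOn.integrableOn_compact (isCompact_closedBall (0 : E) T)).mono_set
        Metric.ball_subset_closedBall
    rw [setIntegral_pos_iff_support_of_nonneg_ae
      (Filter.Eventually.of_forall fun g => sq_nonneg _) hint]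
    refine (IsOpen.inter hcont.isOpen_support Metric.isOpen_ball).measure_pos volume
      ⟨(T / 2) • e, ?_, ?_⟩
    · have h1 : inner ℝ ((T / 2) • e) e = T / 2 := by
        rw [real_inner_smul_left, real_inner_self_eq_norm_sq, he]
        ring
      rw [Function.mem_support, h1]
      positivity
    · rw [mem_ball_zero_iff, norm_smul, he, mul_one, Real.norm_eq_abs, abs_of_pos (by positivity)]
      linarith
  · have h1 := ball_integral_rot T (fun t => t ^ 2) x (‖x‖ • e)
      (by rw [norm_smul, he, mul_one, norm_norm])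
    rw [h1, ← integral_mul_const]
    refine integral_congr_ae (Filter.Eventually.of_forall fun g => ?_)
    change (inner ℝ g (‖x‖ • e)) ^ 2 = (inner ℝ g e) ^ 2 * ‖x‖ ^ 2
    rw [real_inner_smul_right]
    ring

end Vale.Agent.Lib.P058
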