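import Vale.Agent.Lib.P058.Basic
import Vale.Agent.Lib.P058.IntA

/-!
# P058, module Integral

Averaging over balls.

PROOF.  `c g j = ⟨g, v j⟩`, `P g = ℓ (Dm (c g)) + ∑ j, f j ⟨g, v j⟩ ≥ 0`, continuous in `g`
(`ℓ` is continuous, finite-dimensional).  If `ρ = 0` all `v j = 0`, everything is `0`
(`P g = ℓ 0 + ∑ f j 0 = 0`).  Let `ρ > 0`, so `E` is nontrivial.  Give `E` its Borel σ-algebra
(`letI : MeasurableSpace E := borel E; haveI : BorelSpace E := ⟨rfl⟩`) with the
volume; let `T > 0` and `S = Metric.ball 0 T` (finite measure; continuous functions are integrable on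
it, since they are bounded on the compact closed ball).
* `∫_S f j ⟪g, v j⟫ = ∫_S f j ⟪g, v j₀⟫` (`ball_integral_rot`, module IntA), so
  `∑ j, ∫_S f j ⟪g, v j⟫ = ∫_S ∑ j, f j ⟪g, v j₀⟫ = 0`.
* `∫_S ⟪g, x⟫ ^ 2 = κ * ‖x‖ ^ 2`, `κ > 0` (`ball_integral_sq`), so with
  `ℓ A = ∑ i j, ℓ (single i (single j 1)) * A i j` and `Dm (c g) i j = ⟪g, v i - v j⟫ ^ 2`:
  `∫_S ℓ (Dm (c g)) = κ * ℓ (fun i j => ‖v i - v j‖ ^ 2)`.
So `∫_S P = κ * ℓ (fun i j => ‖v i - v j‖ ^ 2) ≥ 0`, which is the first claim; if `ℓ (..) = 0` then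
`∫_S P = 0` with `P ≥ 0` continuous, hence `P = 0` on the ball `S`
(`MeasureTheory.setIntegral_eq_zero_iff_of_nonneg_ae`, `Continuous.ae_eq_iff_eq` on the open set, ...),
for every `T`.
-/

namespace Vale.Agent.Lib.P058

theorem intarg_expand {J : Type} [Fintype J] [DecidableEq J] (ℓ : (J → J → ℝ) →ₗ[ℝ] ℝ)
    (A : J → J → ℝ) :
    ℓ A = ∑ i, ∑ j, A i j * ℓ (Pi.single i (Pi.single j 1)) := by
  have h : A = ∑ i, ∑ j, A i j • (Pi.single i (Pi.single j (1 : ℝ)) : J → J → ℝ) := by
    funext a b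
    rw [Finset.sum_apply, Finset.sum_apply, Finset.sum_eq_single a, Finset.sum_apply,
      Finset.sum_apply, Finset.sum_eq_single b]
    · simp
    · intro j _ hj
      simp [Pi.single_eq_of_ne (Ne.symm hj)]
    · simp
    · intro i _ hi
      rw [Finset.sum_apply, Finset.sum_apply]
      apply Finset.sum_eq_zero
      intro j _
      simp [Pi.single_eq_of_ne (Ne.symm hi)]
    · simp
  conv_lhs => rw [h]
  rw [map_sum]
  refine Finset.sum_congr rfl fun i _ => ?_
  rw [map_sum]
  refine Finset.sum_congr rfl fun j _ => ?_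
  rw [map_smul, smul_eq_mul]

theorem integral_argument {J : Type} [Fintype J] [Nonempty J] {E : Type} [NormedAddCommGroup E]
    [InnerProductSpace ℝ E] [FiniteDimensional ℝ E] (v : J → E) (ρ : ℝ) (hv : ∀ j, ‖v j‖ = ρ)
    (ℓ : (J → J → ℝ) →ₗ[ℝ] ℝ) (f : J → ℝ → ℝ) (hcont : ∀ j, Continuous (f j))
    (hf : ∀ x, ∑ j, f j x = 0)
    (hP : ∀ g : E, 0 ≤ ℓ (Dm (fun j => inner ℝ g (v j))) + ∑ j, f j (inner ℝ g (v j))) :
    0 ≤ ℓ (fun i j => ‖v i - v j‖ ^ 2) ∧
      (ℓ (fun i j => ‖v i - v j‖ ^ 2) = 0 →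
        ∀ g : E, ℓ (Dm (fun j => inner ℝ g (v j))) + ∑ j, f j (inner ℝ g (v j)) = 0) := by
  classical
  obtain ⟨j₀⟩ := ‹Nonempty J›
  have hρ0 : 0 ≤ ρ := by
    rw [← hv j₀]
    exact norm_nonneg _
  rcases hρ0.eq_or_lt with hρ | hρ
  · have hv0 : ∀ j, v j = 0 := fun j => by
      rw [← norm_eq_zero, hv j, ← hρ]
    have h1 : (fun i j => ‖v i - v j‖ ^ 2 : J → J → ℝ) = 0 := by
      funext i j
      simp [hv0]
    refine ⟨by rw [h1, map_zero], fun _ g => ?_⟩
    have h2 : Dm (fun j => inner ℝ g (v j)) = 0 := by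
      funext i j
      simp [Dm, hv0]
    rw [h2, map_zero, zero_add]
    simp only [hv0, inner_zero_right]
    exact hf 0
  · have hnt : Nontrivial E := by
      refine ⟨⟨v j₀, 0, fun h => ?_⟩⟩
      have := hv j₀
      rw [h, norm_zero] at this
      exact hρ.ne this
    let _ : MeasurableSpace E := borel E
    have _ : BorelSpace E := ⟨rfl⟩
    set P : E → ℝ := fun g => ℓ (Dm (fun j => inner ℝ g (v j))) + ∑ j, f j (inner ℝ g (v j))
      with hPdef
    have hexp : ∀ g : E, P g = (∑ i, ∑ j, (inner ℝ g (v i - v j)) ^ 2 *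
        ℓ (Pi.single i (Pi.single j 1))) + ∑ j, f j (inner ℝ g (v j)) := by
      intro g
      rw [hPdef]
      simp only
      rw [intarg_expand]
      congr 1
      refine Finset.sum_congr rfl fun i _ => Finset.sum_congr rfl fun j _ => ?_
      rw [Dm, inner_sub_right]
    have hcf : ∀ j k, Continuous fun g : E => f j (inner ℝ g (v k)) := fun j k =>
      (hcont j).comp (by fun_prop)
    have hcq : ∀ i j, Continuous fun g : E => (inner ℝ g (v i - v j)) ^ 2 *
        ℓ (Pi.single i (Pi.single j 1)) := fun i j => by fun_prop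
    have hcqi : ∀ i, Continuous fun g : E => ∑ j, (inner ℝ g (v i - v j)) ^ 2 *
        ℓ (Pi.single i (Pi.single j 1)) := fun i => continuous_finsetSum _ fun j _ => hcq i j
    have hcqq : Continuous fun g : E => ∑ i, ∑ j, (inner ℝ g (v i - v j)) ^ 2 *
        ℓ (Pi.single i (Pi.single j 1)) := continuous_finsetSum _ fun i _ => hcqi i
    have hcff : Continuous fun g : E => ∑ j, f j (inner ℝ g (v j)) :=
      continuous_finsetSum _ fun j _ => hcf j j
    have hcP : Continuous P := by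
      rw [show P = fun g => (∑ i, ∑ j, (inner ℝ g (v i - v j)) ^ 2 *
        ℓ (Pi.single i (Pi.single j 1))) + ∑ j, f j (inner ℝ g (v j)) from funext hexp]
      exact hcqq.add hcff
    have hint : ∀ (T : ℝ) (φ : E → ℝ), Continuous φ →
        MeasureTheory.IntegrableOn φ (Metric.ball (0 : E) T) := fun T φ hφ =>
      (hφ.continuousOn.integrableOn_compact (isCompact_closedBall 0 T)).mono_set
        Metric.ball_subset_closedBall
    have key : ∀ T : ℝ, 0 < T → ∃ κ : ℝ, 0 < κ ∧
        ∫ g in Metric.ball (0 : E) T, P g = κ * ℓ (fun i j => ‖v i - v j‖ ^ 2) := by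
      intro T hT
      obtain ⟨κ, hκ, hκ'⟩ := ball_integral_sq (E := E) T hT
      refine ⟨κ, hκ, ?_⟩
      simp only [hexp]
      rw [MeasureTheory.integral_add (hint T _ hcqq) (hint T _ hcff),
        MeasureTheory.integral_finsetSum _ fun i _ => hint T _ (hcqi i),
        MeasureTheory.integral_finsetSum _ fun j _ => hint T _ (hcf j j)]
      have h1 : ∀ i, ∫ g in Metric.ball (0 : E) T, (∑ j, (inner ℝ g (v i - v j)) ^ 2 *
          ℓ (Pi.single i (Pi.single j 1))) =
          ∑ j, κ * ‖v i - v j‖ ^ 2 * ℓ (Pi.single i (Pi.single j 1)) := by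
        intro i
        rw [MeasureTheory.integral_finsetSum _ fun j _ => hint T _ (hcq i j)]
        refine Finset.sum_congr rfl fun j _ => ?_
        rw [MeasureTheory.integral_mul_const, hκ']
      have h2 : ∑ j, ∫ g in Metric.ball (0 : E) T, f j (inner ℝ g (v j)) = 0 := by
        have h3 : ∀ j, ∫ g in Metric.ball (0 : E) T, f j (inner ℝ g (v j)) =
            ∫ g in Metric.ball (0 : E) T, f j (inner ℝ g (v j₀)) := fun j =>
          ball_integral_rot T (f j) (v j) (v j₀) (by rw [hv, hv])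
        rw [Finset.sum_congr rfl fun j _ => h3 j,
          ← MeasureTheory.integral_finsetSum _ fun j _ => hint T _ (hcf j j₀)]
        simp only [hf, MeasureTheory.integral_zero]
      rw [h2, add_zero, Finset.sum_congr rfl fun i _ => h1 i, intarg_expand, Finset.mul_sum]
      refine Finset.sum_congr rfl fun i _ => ?_
      rw [Finset.mul_sum]
      refine Finset.sum_congr rfl fun j _ => ?_
      ring
    constructor
    · obtain ⟨κ, hκ, h⟩ := key 1 one_pos
      have h1 : 0 ≤ ∫ g in Metric.ball (0 : E) 1, P g :=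
        MeasureTheory.integral_nonneg fun g => hP g
      rw [h] at h1
      exact nonneg_of_mul_nonneg_right h1 hκ
    · intro h0 g
      obtain ⟨κ, hκ, h⟩ := key (‖g‖ + 1) (by positivity)
      rw [h0, mul_zero, MeasureTheory.integral_eq_zero_iff_of_nonneg (fun g => hP g)
        (hint _ _ hcP)] at h
      have h1 := MeasureTheory.Measure.eqOn_open_of_ae_eq h Metric.isOpen_ball hcP.continuousOn
        continuousOn_const
      exact h1 (by simp)

end Vale.Agent.Lib.P058
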