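import Vale.Agent.Lib.P058.Defs

/-!
# P058, module RegC: two lemmas of real analysis

`const_of_sq_bound`: `F` has derivative `0` everywhere (or: telescope over `N` steps,
`|F y - F x| ≤ N * C * ((y - x) / N)^2 → 0`).

`continuous_of_cross`:
(d) `m = 0`, `s' = -s`: `2 |f s| ≤ 2 C s ^ 2`.  So `|f s| ≤ C s^2` (in particular `0 ≤ C`, or `f = 0`).
(e) Fix `m`, `g s = f (m + s) - f m`, and a bound `M` of `|g s|` for `|s| ≤ 1`, e.g.
`M = C (|m| + 1)^2 + C m^2`.  With `s' = s`: `|g (2 s) - 2 g s| ≤ 2 C s ^ 2`, so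
`|g s| ≤ |g (2 s)| / 2 + C s ^ 2`; by induction on `n`:
`|g s| ≤ 2^{-n} * (M + C * (1 - 2^{-n}))` for `|s| ≤ 2^{-n}` (use
`C 4^{-(n+1)} ≤ C 2^{-(n+1)} (2^{-n} - 2^{-(n+1)})`).
So `f` is continuous at `m`.
-/

namespace Vale.Agent.Lib.P058

theorem const_of_sq_bound (F : ℝ → ℝ) (C : ℝ) (h : ∀ m s, |F (m + s) - F m| ≤ C * s ^ 2) (x y : ℝ) :
    F x = F y := by
  have hd : ∀ m, HasDerivAt F 0 m := by
    intro m
    rw [hasDerivAt_iff_isLittleO_nhds_zero]
    have h1 : (fun s : ℝ => F (m + s) - F m - s • (0 : ℝ)) =O[nhds 0] fun s : ℝ => s ^ 2 := by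
      refine Asymptotics.IsBigO.of_bound C (Filter.Eventually.of_forall fun s => ?_)
      rw [smul_zero, sub_zero, Real.norm_eq_abs, Real.norm_eq_abs, abs_of_nonneg (sq_nonneg s)]
      exact h m s
    exact h1.trans_isLittleO (Asymptotics.isLittleO_pow_id one_lt_two)
  exact is_const_of_deriv_eq_zero (fun m => (hd m).differentiableAt) (fun m => (hd m).deriv) x y

theorem continuous_of_cross (f : ℝ → ℝ) (C : ℝ) (heven : ∀ x, f (-x) = f x) (h0 : f 0 = 0)
    (h : ∀ m s s', |f (m + s + s') - f (m + s) - f (m + s') + f m| ≤ C * (s ^ 2 + s' ^ 2)) :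
    Continuous f := by
  have hsq : ∀ s, |f s| ≤ C * s ^ 2 := by
    intro s
    have h1 := h 0 s (-s)
    rw [zero_add, zero_add, add_neg_cancel, h0, heven] at h1
    have h2 : |0 - f s - f s + 0| = 2 * |f s| := by
      rw [show (0 : ℝ) - f s - f s + 0 = -(2 * f s) by ring, abs_neg, abs_mul, abs_two]
    rw [h2] at h1
    nlinarith
  have hC : 0 ≤ C := by
    have h1 := hsq 1
    have h2 := abs_nonneg (f 1)
    nlinarith
  rw [Metric.continuous_iff]
  intro m ε hε
  set M : ℝ := C * (|m| + 1) ^ 2 + C * m ^ 2 with hM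
  have hM0 : 0 ≤ M := by positivity
  have hind : ∀ n : ℕ, ∀ s : ℝ, |s| ≤ (1 / 2) ^ n →
      |f (m + s) - f m| ≤ (1 / 2) ^ n * (M + C * (1 - (1 / 2) ^ n)) := by
    intro n
    induction n with
    | zero =>
      intro s hs
      rw [pow_zero] at hs ⊢
      have h1 := hsq (m + s)
      have h2 := hsq m
      have h3 : |f (m + s) - f m| ≤ |f (m + s)| + |f m| := abs_sub _ _
      have h4 : (m + s) ^ 2 ≤ (|m| + 1) ^ 2 := by
        rw [← sq_abs (m + s)]
        exact pow_le_pow_left₀ (abs_nonneg _) ((abs_add_le m s).trans (by linarith)) 2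
      have h5 : C * (m + s) ^ 2 ≤ C * (|m| + 1) ^ 2 := mul_le_mul_of_nonneg_left h4 hC
      rw [one_mul, sub_self, mul_zero, add_zero]
      linarith
    | succ n ih =>
      intro s hs
      have h2s : |2 * s| ≤ (1 / 2) ^ n := by
        rw [abs_mul, abs_two]
        rw [pow_succ] at hs
        linarith
      have h1 := ih (2 * s) h2s
      have h2 := h m s s
      have h3 : |f (m + s) - f m| ≤ |f (m + 2 * s) - f m| / 2 + C * s ^ 2 := by
        have e : 2 * (f (m + s) - f m) =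
            (f (m + 2 * s) - f m) - (f (m + s + s) - f (m + s) - f (m + s) + f m) := by
          rw [show m + s + s = m + 2 * s by ring]
          ring
        have h4 : 2 * |f (m + s) - f m| =
            |(f (m + 2 * s) - f m) - (f (m + s + s) - f (m + s) - f (m + s) + f m)| := by
          rw [← e, abs_mul, abs_two]
        have h5 := abs_sub (f (m + 2 * s) - f m)
          (f (m + s + s) - f (m + s) - f (m + s) + f m)
        linarith
      have h6 : s ^ 2 ≤ ((1 / 2 : ℝ) ^ (n + 1)) ^ 2 := by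
        rw [← sq_abs s]
        exact pow_le_pow_left₀ (abs_nonneg _) hs 2
      have h7 : C * s ^ 2 ≤ C * ((1 / 2 : ℝ) ^ (n + 1)) ^ 2 := mul_le_mul_of_nonneg_left h6 hC
      refine h3.trans ?_
      have e2 : (1 / 2 : ℝ) ^ (n + 1) * (M + C * (1 - (1 / 2) ^ (n + 1))) =
          (1 / 2) ^ n * (M + C * (1 - (1 / 2) ^ n)) / 2 + C * ((1 / 2 : ℝ) ^ (n + 1)) ^ 2 := by
        rw [pow_succ]
        ring
      rw [e2]
      linarith
  obtain ⟨n, hn⟩ := exists_pow_lt_of_lt_one (show 0 < ε / (M + C + 1) by positivity)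
    (show (1 / 2 : ℝ) < 1 by norm_num)
  refine ⟨(1 / 2) ^ n, by positivity, fun x hx => ?_⟩
  rw [Real.dist_eq] at hx ⊢
  have h1 := hind n (x - m) hx.le
  rw [show m + (x - m) = x by ring] at h1
  have hp : (0 : ℝ) < (1 / 2) ^ n := by positivity
  have h2 : (1 / 2 : ℝ) ^ n * (M + C * (1 - (1 / 2) ^ n)) ≤ (1 / 2) ^ n * (M + C + 1) := by
    refine mul_le_mul_of_nonneg_left ?_ hp.le
    have h3 : C * (1 / 2 : ℝ) ^ n ≥ 0 := by positivity
    linarith
  have h3 : (1 / 2 : ℝ) ^ n * (M + C + 1) < ε := by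
    rw [lt_div_iff₀ (by positivity)] at hn
    exact hn
  linarith

end Vale.Agent.Lib.P058
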