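import Vale.Agent.Lib.P058.Basic
import Vale.Agent.Lib.P058.RegC

/-!
# P058, module Reg

The one-row functions can be taken continuous.

PROOF.  Write `Q c = ℓ (Dm c)`.  There is `C` with `|Q c| ≤ C * ∑ j, (c j) ^ 2` for all `c`
(`ℓ` is a linear functional on a finite-dimensional space, `Dm c i j = (c i - c j)^2 ≤ 2 (c i)^2 + 2 (c j)^2`),
`Q (-c) = Q c`, and `Q (c + m) = Q c` for constants `m`.
Replace `f j x` by `(f j x + f j (-x)) / 2 - f j 0`: the sums over `j` are still `0`, and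
`P c = Q c + ∑ j, f j (c j)` is replaced by `(P c + P (-c)) / 2 ≥ 0` (as `∑ j, f j 0 = 0`).
So assume `f j` even, `f j 0 = 0`.  Columns are `c (w, y)`.

(a) `F y x = ∑ w, f (w, y) x` is `0`.  For `s : Y → ℝ` the class-level column `c (w, y) = m + s y` is in
`V` (`c = m' • 1 + ∑ w (δ on the group w)` with `m' = m + ∑ α s`, `δ y = s y - ∑ α s`).  So
`0 ≤ Q c + ∑ y, F y (m + s y)`, and `Q c = Q (c - m) ≤ C * card β * ∑ (s y)^2`.  With `s` supported at one
class `y` and `∑ y, F y m = 0`: `F y (m + s) - F y m ≥ - C' * s ^ 2` for all `m, s`; exchanging the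
roles of `m` and `m + s`, `|F y (m + s) - F y m| ≤ C' * s ^ 2`, so `F y` has derivative `0` everywhere
and is constant, `= F y 0 = 0`.

(b) For `w : β`, `m : ℝ` and `δ : Y → ℝ` with `∑ α δ = 0` let
`u w δ = ∑ y, (f (w, y) (m + δ y) - f (w, y) m)`.  The column `m • 1 + (δ on the group w)` is in `V`, so
`0 ≤ Q (..) + ∑ j, f j m + u w δ = Q (..) + u w δ`, thus `u w δ ≥ - C * ∑ (δ y)^2`.  By (a)
`∑ w, u w δ = ∑ y, (F y (m + δ y) - F y m) = 0`, hence `|u w δ| ≤ C'' * ∑ (δ y)^2`.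

(c) For a row `(w, y)`, take `r t` from `hV.two y`.  With `g z s = f (w, z) (m + s) - f (w, z) m` and
`δ¹ = (y : s + s', r : -(α y / α r) s, t : -(α y / α t) s')`,
`δ² = (y : s, r : -(α y / α r) s)`, `δ³ = (y : s', t : -(α y / α t) s')`:
`u δ¹ - u δ² - u δ³ = g y (s + s') - g y s - g y s'`, so
`|f (m + s + s') - f (m + s) - f (m + s') + f m| ≤ C₃ * (s ^ 2 + s' ^ 2)` for `f = f (w, y)`,
all `m, s, s'`.

(d)+(e) `continuous_of_cross` (module RegC) gives that `f` is continuous; `const_of_sq_bound` is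
the last step of (a).
-/

namespace Vale.Agent.Lib.P058

/-- the quadratic form is bounded -/
private theorem reg_bound {J : Type} [Fintype J] (ℓ : (J → J → ℝ) →ₗ[ℝ] ℝ) :
    ∃ C : ℝ, 0 ≤ C ∧ ∀ c : J → ℝ, |ℓ (Dm c)| ≤ C * ∑ j, (c j) ^ 2 := by
  refine ⟨‖LinearMap.toContinuousLinearMap ℓ‖ * 4, by positivity, fun c => ?_⟩
  have h1 := (LinearMap.toContinuousLinearMap ℓ).le_opNorm (Dm c)
  rw [Real.norm_eq_abs] at h1
  have hS : 0 ≤ ∑ j, (c j) ^ 2 := Finset.sum_nonneg fun j _ => sq_nonneg _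
  have h2 : ‖Dm c‖ ≤ 4 * ∑ j, (c j) ^ 2 := by
    rw [pi_norm_le_iff_of_nonneg (by positivity)]
    intro i
    rw [pi_norm_le_iff_of_nonneg (by positivity)]
    intro j
    have hi : (c i) ^ 2 ≤ ∑ j, (c j) ^ 2 :=
      Finset.single_le_sum (f := fun j => (c j) ^ 2) (fun _ _ => sq_nonneg _) (Finset.mem_univ i)
    have hj : (c j) ^ 2 ≤ ∑ j, (c j) ^ 2 :=
      Finset.single_le_sum (f := fun j => (c j) ^ 2) (fun _ _ => sq_nonneg _) (Finset.mem_univ j)
    rw [Real.norm_eq_abs, Dm, abs_of_nonneg (sq_nonneg _)]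
    nlinarith [sq_nonneg (c i + c j)]
  calc |ℓ (Dm c)| ≤ ‖LinearMap.toContinuousLinearMap ℓ‖ * ‖Dm c‖ := h1
    _ ≤ ‖LinearMap.toContinuousLinearMap ℓ‖ * (4 * ∑ j, (c j) ^ 2) :=
        mul_le_mul_of_nonneg_left h2 (norm_nonneg _)
    _ = _ := by ring

private theorem reg_Dm_neg {J : Type} (c : J → ℝ) : Dm (fun j => -c j) = Dm c := by
  funext i j
  simp only [Dm]
  ring

private theorem reg_Dm_add {J : Type} (c : J → ℝ) (m : ℝ) : Dm (fun j => m + c j) = Dm c := by
  funext i j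
  simp only [Dm]
  ring

/-- sums over functions with three nonzero values -/
private theorem reg_sum3 {Y : Type} [Fintype Y] [DecidableEq Y] {y r t : Y} (h1 : r ≠ t)
    (h2 : r ≠ y) (h3 : t ≠ y) (G : Y → ℝ → ℝ) (hG : ∀ z, G z 0 = 0) (a b c : ℝ) :
    ∑ z, G z (if z = y then a else if z = r then b else if z = t then c else 0) =
      G y a + G r b + G t c := by
  have h : ∀ z, G z (if z = y then a else if z = r then b else if z = t then c else 0) =
      (if z = y then G y a else 0) + (if z = r then G r b else 0) +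
        (if z = t then G t c else 0) := by
    intro z
    by_cases hy : z = y
    · subst hy
      simp [h2.symm, h3.symm]
    · by_cases hr : z = r
      · subst hr
        simp [h1, h2]
      · by_cases ht : z = t
        · subst ht
          simp [h1.symm, h3]
        · simp [hy, hr, ht, hG]
  simp only [h]
  rw [Finset.sum_add_distrib, Finset.sum_add_distrib]
  simp

variable {β Y : Type} [Fintype Y] [DecidableEq Y] [Fintype β] [DecidableEq β] {α : Y → ℝ}
  {V : Submodule ℝ (β × Y → ℝ)}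

/-- local columns, shifted by a constant -/
private theorem reg_loc (hV : GoodV α V) (m : ℝ) (w : β) (δ : Y → ℝ) (hδ : ∑ y, α y * δ y = 0) :
    (fun j : β × Y => m + if j.1 = w then δ j.2 else 0) ∈ V := by
  have h := V.add_mem (V.smul_mem m hV.one_mem) (hV.loc_mem w δ hδ)
  have e : (m • (fun _ : β × Y => (1 : ℝ))) + (fun j : β × Y => if j.1 = w then δ j.2 else 0) =
      fun j : β × Y => m + if j.1 = w then δ j.2 else 0 := by
    funext j
    simp
  rwa [e] at h

/-- class-level columns -/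
private theorem reg_class (hV : GoodV α V) (m : ℝ) (s : Y → ℝ) :
    (fun j : β × Y => m + s j.2) ∈ V := by
  set S := ∑ y, α y * s y with hS
  have hδ : ∑ y, α y * (s y - S) = 0 := by
    simp only [mul_sub]
    rw [Finset.sum_sub_distrib, ← Finset.sum_mul, hV.sum_one]
    ring
  have h := V.add_mem (V.smul_mem (m + S) hV.one_mem)
    (V.sum_mem (t := Finset.univ) (f := fun w : β => fun j : β × Y =>
      if j.1 = w then (s j.2 - S) else 0) fun w _ => hV.loc_mem w (fun y => s y - S) hδ)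
  have e : ((m + S) • (fun _ : β × Y => (1 : ℝ))) + (∑ w : β, fun j : β × Y =>
      if j.1 = w then (s j.2 - S) else 0) = fun j : β × Y => m + s j.2 := by
    funext j
    rw [Pi.add_apply, Finset.sum_apply, Finset.sum_ite_eq, if_pos (Finset.mem_univ _)]
    simp
  rwa [e] at h

/-- the sums over the groups vanish -/
private theorem reg_F_zero (hV : GoodV α V) (ℓ : (β × Y → β × Y → ℝ) →ₗ[ℝ] ℝ)
    (f : β × Y → ℝ → ℝ) (hf : ∀ x, ∑ j, f j x = 0)
    (hP : ∀ c ∈ V, 0 ≤ ℓ (Dm c) + ∑ j, f j (c j)) (h0 : ∀ j, f j 0 = 0)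
    {C : ℝ} (hC : ∀ c : β × Y → ℝ, |ℓ (Dm c)| ≤ C * ∑ j, (c j) ^ 2) (y : Y) (x : ℝ) :
    ∑ w, f (w, y) x = 0 := by
  have hlow : ∀ m s : ℝ, -(C * Fintype.card β * s ^ 2) ≤
      (∑ w, f (w, y) (m + s)) - ∑ w, f (w, y) m := by
    intro m s
    have h1 := hP _ (reg_class hV m (fun z => if z = y then s else 0))
    have hD : Dm (fun j : β × Y => m + (if j.2 = y then s else 0)) =
        Dm (fun j : β × Y => if j.2 = y then s else 0) :=
      reg_Dm_add (fun j : β × Y => if j.2 = y then s else 0) m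
    rw [hD] at h1
    have h2 := hC (fun j : β × Y => if j.2 = y then s else 0)
    have h3 : ∑ j : β × Y, (if j.2 = y then s else 0) ^ 2 = Fintype.card β * s ^ 2 := by
      rw [Fintype.sum_prod_type]
      simp only [ite_pow]
      simp
    rw [h3] at h2
    have h4 : ∑ j : β × Y, f j (m + if j.2 = y then s else 0) =
        (∑ w, f (w, y) (m + s)) - ∑ w, f (w, y) m := by
      have h5 : ∑ j : β × Y, f j (m + if j.2 = y then s else 0) =
          ∑ j : β × Y, (f j m + if j.2 = y then (f j (m + s) - f j m) else 0) := by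
        refine Finset.sum_congr rfl fun j _ => ?_
        by_cases h : j.2 = y
        · simp [h]
        · simp [h]
      rw [h5, Finset.sum_add_distrib, hf m, zero_add, Fintype.sum_prod_type,
        ← Finset.sum_sub_distrib]
      refine Finset.sum_congr rfl fun w _ => ?_
      simp
    rw [h4] at h1
    have h6 := neg_le_of_abs_le h2
    have h7 := le_of_abs_le h2
    linarith
  have habs : ∀ m s : ℝ, |(∑ w, f (w, y) (m + s)) - ∑ w, f (w, y) m| ≤
      (C * Fintype.card β) * s ^ 2 := by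
    intro m s
    rw [abs_le]
    refine ⟨hlow m s, ?_⟩
    have h := hlow (m + s) (-s)
    have e : m + s + -s = m := by ring
    rw [e, neg_sq] at h
    linarith
  have h := const_of_sq_bound (fun x => ∑ w, f (w, y) x) _ habs x 0
  rw [h]
  exact Finset.sum_eq_zero fun w _ => h0 _

/-- part (b) -/
private theorem reg_local (hV : GoodV α V) (ℓ : (β × Y → β × Y → ℝ) →ₗ[ℝ] ℝ)
    (f : β × Y → ℝ → ℝ) (hf : ∀ x, ∑ j, f j x = 0)
    (hP : ∀ c ∈ V, 0 ≤ ℓ (Dm c) + ∑ j, f j (c j)) (h0 : ∀ j, f j 0 = 0)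
    {C : ℝ} (hC0 : 0 ≤ C) (hC : ∀ c : β × Y → ℝ, |ℓ (Dm c)| ≤ C * ∑ j, (c j) ^ 2)
    (w : β) (m : ℝ) (δ : Y → ℝ) (hδ : ∑ y, α y * δ y = 0) :
    |∑ y, (f (w, y) (m + δ y) - f (w, y) m)| ≤ C * Fintype.card β * ∑ y, (δ y) ^ 2 := by
  have hS : 0 ≤ C * ∑ y, (δ y) ^ 2 :=
    mul_nonneg hC0 (Finset.sum_nonneg fun y _ => sq_nonneg _)
  have hlow : ∀ v : β, -(C * ∑ y, (δ y) ^ 2) ≤ ∑ y, (f (v, y) (m + δ y) - f (v, y) m) := by
    intro v
    have h1 := hP _ (reg_loc hV m v δ hδ)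
    have hD : Dm (fun j : β × Y => m + (if j.1 = v then δ j.2 else 0)) =
        Dm (fun j : β × Y => if j.1 = v then δ j.2 else 0) :=
      reg_Dm_add (fun j : β × Y => if j.1 = v then δ j.2 else 0) m
    rw [hD] at h1
    have h2 := hC (fun j : β × Y => if j.1 = v then δ j.2 else 0)
    have h3 : ∑ j : β × Y, (if j.1 = v then δ j.2 else 0) ^ 2 = ∑ y, (δ y) ^ 2 := by
      rw [Fintype.sum_prod_type, Finset.sum_comm]
      refine Finset.sum_congr rfl fun y _ => ?_
      simp only [ite_pow]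
      simp
    rw [h3] at h2
    have h4 : ∑ j : β × Y, f j (m + if j.1 = v then δ j.2 else 0) =
        ∑ y, (f (v, y) (m + δ y) - f (v, y) m) := by
      have h5 : ∑ j : β × Y, f j (m + if j.1 = v then δ j.2 else 0) =
          ∑ j : β × Y, (f j m + if j.1 = v then (f j (m + δ j.2) - f j m) else 0) := by
        refine Finset.sum_congr rfl fun j _ => ?_
        by_cases h : j.1 = v
        · simp [h]
        · simp [h]
      rw [h5, Finset.sum_add_distrib, hf m, zero_add, Fintype.sum_prod_type, Finset.sum_comm]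
      refine Finset.sum_congr rfl fun y _ => ?_
      simp
    rw [h4] at h1
    have h7 := le_of_abs_le h2
    linarith
  have hsum : ∑ v : β, ∑ y, (f (v, y) (m + δ y) - f (v, y) m) = 0 := by
    rw [Finset.sum_comm]
    refine Finset.sum_eq_zero fun y _ => ?_
    rw [Finset.sum_sub_distrib, reg_F_zero hV ℓ f hf hP h0 hC y, reg_F_zero hV ℓ f hf hP h0 hC y,
      sub_zero]
  have hcard : (1 : ℝ) ≤ Fintype.card β := by
    have : 0 < Fintype.card β := Fintype.card_pos_iff.mpr ⟨w⟩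
    exact_mod_cast this
  rw [abs_le]
  constructor
  · have h1 := hlow w
    nlinarith
  · rw [← Finset.add_sum_erase _ _ (Finset.mem_univ w)] at hsum
    have h1 : ∑ v ∈ Finset.univ.erase w, -(C * ∑ y, (δ y) ^ 2) ≤
        ∑ v ∈ Finset.univ.erase w, ∑ y, (f (v, y) (m + δ y) - f (v, y) m) :=
      Finset.sum_le_sum fun v _ => hlow v
    rw [Finset.sum_const, nsmul_eq_mul] at h1
    have h2 : ((Finset.univ.erase w).card : ℝ) ≤ Fintype.card β := by
      have : (Finset.univ.erase w).card ≤ Finset.univ.card := Finset.card_erase_le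
      exact_mod_cast this
    nlinarith

/-- part (c) and continuity -/
private theorem reg_cont (hV : GoodV α V) (ℓ : (β × Y → β × Y → ℝ) →ₗ[ℝ] ℝ)
    (f : β × Y → ℝ → ℝ) (hf : ∀ x, ∑ j, f j x = 0)
    (hP : ∀ c ∈ V, 0 ≤ ℓ (Dm c) + ∑ j, f j (c j)) (h0 : ∀ j, f j 0 = 0)
    (heven : ∀ j x, f j (-x) = f j x) (j : β × Y) : Continuous (f j) := by
  obtain ⟨w, y⟩ := j
  obtain ⟨C, hC0, hC⟩ := reg_bound ℓ
  obtain ⟨r, t, hrt, hry, hty, hr0, ht0⟩ := hV.two y
  set C' := C * Fintype.card β with hC'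
  have hC'0 : 0 ≤ C' := mul_nonneg hC0 (Nat.cast_nonneg _)
  set ρ := -(α y / α r) with hρ
  set τ := -(α y / α t) with hτ
  have key : ∀ m a b c : ℝ, α y * a + α r * b + α t * c = 0 →
      |(f (w, y) (m + a) - f (w, y) m) + (f (w, r) (m + b) - f (w, r) m) +
        (f (w, t) (m + c) - f (w, t) m)| ≤ C' * (a ^ 2 + b ^ 2 + c ^ 2) := by
    intro m a b c habc
    have hδ : ∑ z, α z * (if z = y then a else if z = r then b else if z = t then c else 0) =
        0 := by
      rw [reg_sum3 hrt hry hty (fun z x => α z * x) (fun z => by simp) a b c]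
      exact habc
    have h := reg_local hV ℓ f hf hP h0 hC0 hC w m _ hδ
    rw [reg_sum3 hrt hry hty (fun z x => f (w, z) (m + x) - f (w, z) m) (fun z => by simp) a b c,
      reg_sum3 hrt hry hty (fun z x => x ^ 2) (fun z => by simp) a b c] at h
    exact h
  refine continuous_of_cross (f (w, y)) (C' * (3 + 2 * ρ ^ 2 + 2 * τ ^ 2)) (heven (w, y))
    (h0 (w, y)) fun m s s' => ?_
  have e1 : α r * (ρ * s) = -(α y * s) := by
    rw [hρ]
    field_simp
  have e2 : α t * (τ * s') = -(α y * s') := by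
    rw [hτ]
    field_simp
  have k1 := key m (s + s') (ρ * s) (τ * s') (by rw [e1, e2]; ring)
  have k2 := key m s (ρ * s) 0 (by rw [e1]; ring)
  have k3 := key m s' 0 (τ * s') (by rw [e2]; ring)
  have hid : f (w, y) (m + s + s') - f (w, y) (m + s) - f (w, y) (m + s') + f (w, y) m =
      ((f (w, y) (m + (s + s')) - f (w, y) m) + (f (w, r) (m + ρ * s) - f (w, r) m) +
        (f (w, t) (m + τ * s') - f (w, t) m)) -
      ((f (w, y) (m + s) - f (w, y) m) + (f (w, r) (m + ρ * s) - f (w, r) m) +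
        (f (w, t) (m + 0) - f (w, t) m)) -
      ((f (w, y) (m + s') - f (w, y) m) + (f (w, r) (m + 0) - f (w, r) m) +
        (f (w, t) (m + τ * s') - f (w, t) m)) := by
    rw [add_zero, add_assoc m s s']
    ring
  rw [hid]
  refine (abs_sub _ _).trans ?_
  have h12 := abs_sub ((f (w, y) (m + (s + s')) - f (w, y) m) +
      (f (w, r) (m + ρ * s) - f (w, r) m) + (f (w, t) (m + τ * s') - f (w, t) m))
      ((f (w, y) (m + s) - f (w, y) m) + (f (w, r) (m + ρ * s) - f (w, r) m) +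
        (f (w, t) (m + 0) - f (w, t) m))
  have hfin : C' * ((s + s') ^ 2 + (ρ * s) ^ 2 + (τ * s') ^ 2) +
      C' * (s ^ 2 + (ρ * s) ^ 2 + 0 ^ 2) + C' * (s' ^ 2 + 0 ^ 2 + (τ * s') ^ 2) ≤
      C' * (3 + 2 * ρ ^ 2 + 2 * τ ^ 2) * (s ^ 2 + s' ^ 2) := by
    have hq : (s + s') ^ 2 + (ρ * s) ^ 2 + (τ * s') ^ 2 + (s ^ 2 + (ρ * s) ^ 2 + 0 ^ 2) +
        (s' ^ 2 + 0 ^ 2 + (τ * s') ^ 2) ≤
        (3 + 2 * ρ ^ 2 + 2 * τ ^ 2) * (s ^ 2 + s' ^ 2) := by
      nlinarith [sq_nonneg (s - s'), mul_nonneg (sq_nonneg ρ) (sq_nonneg s'),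
        mul_nonneg (sq_nonneg τ) (sq_nonneg s)]
    have := mul_le_mul_of_nonneg_left hq hC'0
    linarith
  linarith

theorem regularize (hV : GoodV α V) (ℓ : (β × Y → β × Y → ℝ) →ₗ[ℝ] ℝ)
    (f : β × Y → ℝ → ℝ) (hf : ∀ x, ∑ j, f j x = 0)
    (hP : ∀ c ∈ V, 0 ≤ ℓ (Dm c) + ∑ j, f j (c j)) :
    ∃ f' : β × Y → ℝ → ℝ, (∀ j, Continuous (f' j)) ∧ (∀ x, ∑ j, f' j x = 0) ∧
      ∀ c ∈ V, 0 ≤ ℓ (Dm c) + ∑ j, f' j (c j) := by
  have hsum : ∀ x, ∑ j, ((f j x + f j (-x)) / 2 - f j 0) = 0 := by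
    intro x
    rw [Finset.sum_sub_distrib, ← Finset.sum_div, Finset.sum_add_distrib, hf, hf, hf]
    norm_num
  have hpos : ∀ c ∈ V, 0 ≤ ℓ (Dm c) + ∑ j, ((f j (c j) + f j (-(c j))) / 2 - f j 0) := by
    intro c hc
    have h1 := hP c hc
    have h2 := hP _ (V.neg_mem hc)
    have hD : Dm (-c) = Dm c := reg_Dm_neg c
    rw [hD] at h2
    simp only [Pi.neg_apply] at h2
    rw [Finset.sum_sub_distrib, ← Finset.sum_div, Finset.sum_add_distrib, hf]
    linarith
  refine ⟨fun j x => (f j x + f j (-x)) / 2 - f j 0, fun j => ?_, hsum, hpos⟩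
  refine reg_cont hV ℓ (fun j x => (f j x + f j (-x)) / 2 - f j 0) hsum hpos ?_ ?_ j
  · intro j
    simp only [neg_zero]
    ring
  · intro j x
    simp only [neg_neg]
    ring

end Vale.Agent.Lib.P058
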