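import Vale.Agent.Lib.P058.Defs

/-!
# P058, module Sep

Proper separation of a point from a convex cone in a finite-dimensional space (the cone need not be
closed).

PROOF.  Let `S` be the linear span of `C`.
* If `x ∉ S`: there is a linear `ℓ` with `ℓ = 0` on `S` and `ℓ x = -1 < 0`
  (`Submodule.exists_le_ker_of_notMem` or similar).
* If `x ∈ S`: work in the normed space `S` (a finite-dimensional normed space), with
  `C' = {s : S | (s : E) ∈ C}`; it is convex and spans `S`, contains `0`, hence its affine span is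
  everything and its interior is nonempty (`Convex.interior_nonempty_iff_affineSpan_eq_top`).
  `x ∉ interior C'`, so by `geometric_hahn_banach_open_point` (or `_point_open`) there is a continuous
  linear `f : S → ℝ` with `f c < f x` for all `c ∈ interior C'`.  Put `ℓ = -f`: `ℓ x < ℓ c` on the
  interior; `C' ⊆ closure (interior C')` (`Convex.closure_interior_eq_closure_of_nonempty_interior`)
  gives `ℓ x ≤ ℓ c` for `c ∈ C'`.  `0 ∈ C'` gives `ℓ x ≤ 0`.  Since `C'` is a cone,
  `ℓ x ≤ t * ℓ c` for all `t > 0` so `ℓ c ≥ 0` on `C'`.  Finally `ℓ` is not zero on `C'`, because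
  otherwise `ℓ = 0` on the span `S`, contradicting `ℓ x < ℓ c`.
  Extend `ℓ` from `S` to `E` (`LinearMap.exists_extend`).
-/

namespace Vale.Agent.Lib.P058

/-- The case of a cone with full span. -/
theorem Sep_span {E : Type} [NormedAddCommGroup E] [NormedSpace ℝ E]
    [FiniteDimensional ℝ E] (C : Set E) (h0 : (0 : E) ∈ C)
    (hadd : ∀ x ∈ C, ∀ y ∈ C, x + y ∈ C) (hsmul : ∀ t : ℝ, 0 ≤ t → ∀ x ∈ C, t • x ∈ C)
    (hspan : Submodule.span ℝ C = ⊤) (x : E) (hx : x ∉ C) :
    ∃ ℓ : E →ₗ[ℝ] ℝ, (∀ c ∈ C, 0 ≤ ℓ c) ∧ ℓ x ≤ 0 ∧ (ℓ x < 0 ∨ ∃ c ∈ C, 0 < ℓ c) := by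
  have hconv : Convex ℝ C := by
    intro a ha b hb s t hs ht _
    exact hadd _ (hsmul s hs a ha) _ (hsmul t ht b hb)
  have haff : affineSpan ℝ C = ⊤ := by
    rw [AffineSubspace.affineSpan_eq_top_iff_vectorSpan_eq_top_of_nonempty ℝ E E ⟨0, h0⟩,
      vectorSpan_eq_span_vsub_set_right ℝ h0]
    simpa using hspan
  have hint : (interior C).Nonempty := hconv.interior_nonempty_iff_affineSpan_eq_top.2 haff
  obtain ⟨f, hf⟩ := geometric_hahn_banach_open_point hconv.interior isOpen_interior
    (fun h => hx (interior_subset h))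
  have hle : ∀ c ∈ C, f c ≤ f x := by
    intro c hc
    have h1 : closure (interior C) ⊆ {y | f y ≤ f x} :=
      closure_minimal (fun y hy => show f y ≤ f x from (hf y hy).le)
        (isClosed_le f.continuous continuous_const)
    have h2 : c ∈ closure (interior C) := by
      rw [hconv.closure_interior_eq_closure_of_nonempty_interior hint]
      exact subset_closure hc
    exact h1 h2
  have hx0 : 0 ≤ f x := by
    have h := hle 0 h0
    rwa [map_zero] at h
  have hc0 : ∀ c ∈ C, f c ≤ 0 := by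
    intro c hc
    by_contra hcon
    push Not at hcon
    have h1 := hle _ (hsmul ((f x + 1) / f c) (div_nonneg (by linarith) hcon.le) c hc)
    rw [map_smul, smul_eq_mul, div_mul_cancel₀ _ hcon.ne'] at h1
    linarith
  refine ⟨-(f : E →ₗ[ℝ] ℝ), fun c hc => ?_, ?_, ?_⟩
  · have := hc0 c hc
    simpa using this
  · simpa using hx0
  · obtain ⟨c, hc⟩ := hint
    have h1 := hf c hc
    rcases hx0.eq_or_lt with h2 | h2
    · right
      refine ⟨c, interior_subset hc, ?_⟩
      rw [← h2] at h1
      simpa using h1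
    · left
      simpa using h2

theorem cone_separation {E : Type} [NormedAddCommGroup E] [NormedSpace ℝ E]
    [FiniteDimensional ℝ E] (C : Set E) (h0 : (0 : E) ∈ C)
    (hadd : ∀ x ∈ C, ∀ y ∈ C, x + y ∈ C) (hsmul : ∀ t : ℝ, 0 ≤ t → ∀ x ∈ C, t • x ∈ C)
    (x : E) (hx : x ∉ C) :
    ∃ ℓ : E →ₗ[ℝ] ℝ, (∀ c ∈ C, 0 ≤ ℓ c) ∧ ℓ x ≤ 0 ∧ (ℓ x < 0 ∨ ∃ c ∈ C, 0 < ℓ c) := by
  by_cases hxS : x ∈ Submodule.span ℝ C
  · -- inside the span
    have hspan : Submodule.span ℝ ((Submodule.span ℝ C).subtype ⁻¹' C) = ⊤ := by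
      rw [← Submodule.map_injective_of_injective
        (Submodule.span ℝ C).injective_subtype |>.eq_iff, Submodule.map_span,
        Submodule.map_top, Submodule.range_subtype, Set.image_preimage_eq_inter_range]
      congr 1
      rw [Set.inter_eq_left]
      intro c hc
      rw [Submodule.coe_subtype, Subtype.range_coe]
      exact Submodule.subset_span hc
    obtain ⟨ℓ, h1, h2, h3⟩ := Sep_span ((Submodule.span ℝ C).subtype ⁻¹' C)
      (by simpa using h0) (fun a ha b hb => by
        have := hadd _ ha _ hb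
        simpa using this) (fun t ht a ha => by
        have := hsmul t ht _ ha
        simpa using this) hspan ⟨x, hxS⟩ (fun h => hx h)
    obtain ⟨g, hg⟩ := LinearMap.exists_extend ℓ
    have hg' : ∀ y (hy : y ∈ Submodule.span ℝ C), g y = ℓ ⟨y, hy⟩ := by
      intro y hy
      rw [← hg]
      rfl
    refine ⟨g, fun c hc => ?_, ?_, ?_⟩
    · rw [hg' c (Submodule.subset_span hc)]
      exact h1 ⟨c, Submodule.subset_span hc⟩ hc
    · rw [hg' x hxS]
      exact h2
    · rw [hg' x hxS]
      rcases h3 with h3 | ⟨c, hc, h3⟩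
      · exact Or.inl h3
      · refine Or.inr ⟨(c : E), hc, ?_⟩
        rw [hg' _ c.2]
        exact h3
  · obtain ⟨f, hf1, hf2⟩ := Submodule.exists_dual_map_eq_bot_of_notMem hxS inferInstance
    refine ⟨-((f x)⁻¹ • f), fun c hc => ?_, ?_, Or.inl ?_⟩
    · have h1 : f c ∈ (Submodule.span ℝ C).map f :=
        Submodule.mem_map_of_mem (Submodule.subset_span hc)
      rw [hf2, Submodule.mem_bot] at h1
      simp [h1]
    · simp [hf1]
    · simp [hf1]

end Vale.Agent.Lib.P058
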