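import Vale.Agent.Lib.P058.Dense
import Vale.Agent.Lib.P058.Sep
import Vale.Agent.Lib.P058.Farkas
import Vale.Agent.Lib.P058.Reg
import Vale.Agent.Lib.P058.Integral

/-!
# P058, module Duality: the squared distance matrix is the cost of an identity.
-/

namespace Vale.Agent.Lib.P058

variable {β Y : Type} [Fintype Y] [DecidableEq Y] [Fintype β] [DecidableEq β] {α : Y → ℝ}

/-- a linear functional on matrices is continuous -/
theorem abs_le_of_entries {J : Type} [Fintype J] (ℓ : (J → J → ℝ) →ₗ[ℝ] ℝ) :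
    ∃ C : ℝ, 0 ≤ C ∧ ∀ (A : J → J → ℝ) (η : ℝ), (∀ i j, |A i j| ≤ η) → 0 ≤ η → |ℓ A| ≤ C * η := by
  classical
  let ℓc : (J → J → ℝ) →L[ℝ] ℝ := LinearMap.toContinuousLinearMap ℓ
  refine ⟨‖ℓc‖, norm_nonneg _, fun A η hA hη => ?_⟩
  have h1 : ‖ℓc A‖ ≤ ‖ℓc‖ * ‖A‖ := ℓc.le_opNorm A
  have h2 : ‖A‖ ≤ η := by
    refine (pi_norm_le_iff_of_nonneg hη).2 fun i => (pi_norm_le_iff_of_nonneg hη).2 fun j => ?_
    simpa using hA i j
  have h3 : ‖ℓc A‖ = |ℓ A| := by simp [ℓc]
  rw [← h3]
  exact h1.trans (mul_le_mul_of_nonneg_left h2 (norm_nonneg _))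

theorem duality [Nonempty β] {E : Type} [NormedAddCommGroup E]
    [InnerProductSpace ℝ E] [FiniteDimensional ℝ E] (v : β × Y → E) (ρ : ℝ) (hv : ∀ j, ‖v j‖ = ρ)
    (V : Submodule ℝ (β × Y → ℝ)) (hV : GoodV α V)
    (hrange : ∀ c : β × Y → ℝ, c ∈ V ↔ ∃ g : E, ∀ j, c j = inner ℝ g (v j)) :
    InD (V : Set (β × Y → ℝ)) (fun i j => ‖v i - v j‖ ^ 2) := by
  classical
  have : Nonempty Y := by
    by_contra h
    rw [not_nonempty_iff] at h
    have := hV.sum_one
    simp at this
  by_contra hnot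
  obtain ⟨ℓ, hℓ0, hℓx, hℓp⟩ := cone_separation (E := β × Y → β × Y → ℝ)
    {D | InD (V : Set (β × Y → ℝ)) D} (InD.zero _) (fun _ h _ h' => h.add h')
    (fun t ht _ h => h.smul hV.one_mem ht) _ hnot
  obtain ⟨C, hC0, hC⟩ := abs_le_of_entries ℓ
  -- nonnegativity on balanced lists
  have hsum : ∀ L : List (β × Y → ℝ), ℓ (fun i j => (L.map (fun c => Dm c i j)).sum)
      = (L.map (fun c => ℓ (Dm c))).sum := by
    intro L
    induction L with
    | nil => exact ℓ.map_zero
    | cons c L ih =>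
      simp only [List.map_cons, List.sum_cons]
      rw [← ih, ← map_add]
      rfl
  have hbalQ : ∀ L : List (β × Y → ℝ), (∀ c ∈ L, c ∈ (V : Set (β × Y → ℝ))) → Balanced L →
      0 ≤ (L.map (fun c => ℓ (Dm c))).sum := by
    intro L hL hbal
    by_contra hneg
    push Not at hneg
    set s := (L.map (fun c => ℓ (Dm c))).sum with hs
    have hη : 0 < (-s) / (C + 1) / 2 := by
      have : 0 < -s := by linarith
      positivity
    obtain ⟨D, hD, hDc⟩ := dense hV L hL hbal _ hη
    have h1 : 0 ≤ ℓ D := hℓ0 D hD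
    have h2 : |ℓ (D - fun i j => (L.map (fun c => Dm c i j)).sum)| ≤
        C * ((-s) / (C + 1) / 2) := hC _ _ (fun i j => hDc i j) hη.le
    rw [map_sub, hsum L, ← hs] at h2
    have h3 : C * ((-s) / (C + 1) / 2) ≤ (-s) / 2 := by
      have : C / (C + 1) ≤ 1 := by
        rw [div_le_one (by linarith)]; linarith
      calc C * ((-s) / (C + 1) / 2) = (C / (C + 1)) * ((-s) / 2) := by ring
        _ ≤ 1 * ((-s) / 2) := mul_le_mul_of_nonneg_right this (by linarith)
        _ = (-s) / 2 := one_mul _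
    have h4 := (abs_le.1 h2).2
    linarith
  obtain ⟨f, hf, hfP⟩ := farkas (V : Set (β × Y → ℝ)) (fun c => ℓ (Dm c)) hbalQ
    (fun c hc => exists_balanced_cons hV c hc)
  obtain ⟨f', hcont, hf', hfP'⟩ := regularize hV ℓ f hf hfP
  have hmem : ∀ g : E, (fun j => inner ℝ g (v j)) ∈ V := fun g => (hrange _).2 ⟨g, fun _ => rfl⟩
  obtain ⟨hge, heq⟩ := integral_argument v ρ hv ℓ f' hcont hf' (fun g => hfP' _ (hmem g))
  have hzero : ℓ (fun i j => ‖v i - v j‖ ^ 2) = 0 := le_antisymm hℓx hge
  rcases hℓp with h | ⟨D, hD, hDpos⟩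
  · exact absurd h (by rw [hzero]; exact lt_irrefl _)
  · have hP0 : ∀ c ∈ (V : Set (β × Y → ℝ)), ℓ (Dm c) = - ∑ j, f' j (c j) := by
      intro c hc
      obtain ⟨g, hg⟩ := (hrange c).1 hc
      have := heq hzero g
      have hcg : c = fun j => inner ℝ g (v j) := funext hg
      rw [hcg]
      linarith
    have key : ∀ (u : β × Y → FreeGroup ℝ) (D : β × Y → β × Y → ℝ),
        InP (V : Set (β × Y → ℝ)) u D → ℓ D = - ∑ j, homL (f' j) (u j) := by
      intro u D h
      induction h with
      | const b =>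
        rw [map_zero]
        have : ∀ b : FreeGroup ℝ, ∑ j, homL (f' j) b = 0 := by
          intro b
          induction b using FreeGroup.induction_on with
          | C1 => simp
          | of x => simpa using hf' x
          | inv_of x _ => simpa using hf' x
          | mul x y hx hy => simp [Finset.sum_add_distrib, hx, hy]
        rw [this b, neg_zero]
      | col c hc => rw [hP0 c hc]; simp [colF]
      | mul _ _ ih ih' =>
        rw [map_add, ih, ih']
        simp only [Pi.mul_apply, homL_mul, Finset.sum_add_distrib]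
        ring
    obtain ⟨b, hb⟩ := hD
    have h1 := key _ _ hb
    have : ∀ b : FreeGroup ℝ, ∑ j, homL (f' j) b = 0 := by
      intro b
      induction b using FreeGroup.induction_on with
      | C1 => simp
      | of x => simpa using hf' x
      | inv_of x _ => simpa using hf' x
      | mul x y hx hy => simp [Finset.sum_add_distrib, hx, hy]
    rw [this b] at h1
    linarith

end Vale.Agent.Lib.P058
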