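import Vale.Agent.Lib.P058.Defs

/-!
# P058, module RatApprox

`ℚ`-linear maps `ℝ → ℚ` approximating the identity on a finite set.

PROOF.  Let `U = Submodule.span ℚ S ⊆ ℝ`, finite-dimensional over `ℚ`; let `b_1, ..., b_k` be a
`ℚ`-basis of `U` (`Module.finBasis`), and for every `s ∈ S` let `s = ∑ q_{s,i} b_i`.
Let `M = 1 + max ∑_i |q_{s,i}|`; choose rationals `b'_i` with `|b'_i - b_i| < ε / M`
(`exists_rat_near`), and let `φ₀ : U →ₗ[ℚ] ℚ`, `b_i ↦ b'_i` (`Basis.constr`), extended to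
`ℝ →ₗ[ℚ] ℚ` by `LinearMap.exists_extend`.  Then `|φ s - s| = |∑ q_{s,i} (b'_i - b_i)| < ε`.
-/

namespace Vale.Agent.Lib.P058

theorem exists_rat_linear (S : Finset ℝ) (ε : ℝ) (hε : 0 < ε) :
    ∃ φ : ℝ →ₗ[ℚ] ℚ, ∀ s ∈ S, |((φ s : ℚ) : ℝ) - s| < ε := by
  classical
  let U : Submodule ℚ ℝ := Submodule.span ℚ (S : Set ℝ)
  have : FiniteDimensional ℚ U := FiniteDimensional.span_finset ℚ S
  let b := Module.finBasis ℚ U
  have hS : ∀ s : S, (s : ℝ) ∈ U := fun s => Submodule.subset_span s.2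
  let nn : U → ℝ := fun t => ∑ i, |((b.repr t i : ℚ) : ℝ)|
  have hnn : ∀ t, 0 ≤ nn t := fun t => Finset.sum_nonneg fun i _ => abs_nonneg _
  let M : ℝ := 1 + ∑ s : S, nn ⟨s, hS s⟩
  have hM : ∀ s : S, nn ⟨s, hS s⟩ < M := by
    intro s
    have h1 : nn ⟨s, hS s⟩ ≤ ∑ s : S, nn ⟨s, hS s⟩ :=
      Finset.single_le_sum (f := fun s : S => nn ⟨s, hS s⟩) (fun s _ => hnn _) (Finset.mem_univ s)
    show nn ⟨s, hS s⟩ < 1 + ∑ s : S, nn ⟨s, hS s⟩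
    linarith
  have hM0 : 0 < M := by
    have h1 : 0 ≤ ∑ s : S, nn ⟨s, hS s⟩ := Finset.sum_nonneg fun s _ => hnn _
    show 0 < 1 + ∑ s : S, nn ⟨s, hS s⟩
    linarith
  have hδ : 0 < ε / M := div_pos hε hM0
  have hb : ∀ i, ∃ q : ℚ, |(b i : ℝ) - (q : ℝ)| < ε / M := fun i => exists_rat_near _ hδ
  choose b' hb' using hb
  obtain ⟨φ, hφ⟩ := LinearMap.exists_extend (b.constr ℚ b')
  refine ⟨φ, fun s hs => ?_⟩
  have h1 : φ s = b.constr ℚ b' ⟨s, hS ⟨s, hs⟩⟩ := by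
    rw [← hφ]
    rfl
  have h2 : b.constr ℚ b' ⟨s, hS ⟨s, hs⟩⟩ = ∑ i, b.repr ⟨s, hS ⟨s, hs⟩⟩ i * b' i := by
    rw [Module.Basis.constr_apply_fintype]
    rfl
  have h3 : (s : ℝ) = ∑ i, ((b.repr ⟨s, hS ⟨s, hs⟩⟩ i : ℚ) : ℝ) * (b i : ℝ) := by
    have h4 := congrArg (fun t : U => (t : ℝ)) (b.sum_repr ⟨s, hS ⟨s, hs⟩⟩)
    simp only [Submodule.coe_sum, Submodule.coe_smul, Rat.smul_def] at h4
    exact h4.symm
  have h5 : ((φ s : ℚ) : ℝ) - s =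
      ∑ i, ((b.repr ⟨s, hS ⟨s, hs⟩⟩ i : ℚ) : ℝ) * ((b' i : ℝ) - (b i : ℝ)) := by
    rw [h1, h2]
    push_cast
    refine (congrArg (fun t : ℝ => (∑ i, ((b.repr ⟨s, hS ⟨s, hs⟩⟩ i : ℚ) : ℝ) * (b' i : ℝ)) - t)
      h3).trans ?_
    rw [← Finset.sum_sub_distrib]
    apply Finset.sum_congr rfl
    intro i _
    ring
  rw [h5]
  calc |∑ i, ((b.repr ⟨s, hS ⟨s, hs⟩⟩ i : ℚ) : ℝ) * ((b' i : ℝ) - (b i : ℝ))|
      ≤ ∑ i, |((b.repr ⟨s, hS ⟨s, hs⟩⟩ i : ℚ) : ℝ) * ((b' i : ℝ) - (b i : ℝ))| :=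
        Finset.abs_sum_le_sum_abs _ _
    _ ≤ ∑ i, |((b.repr ⟨s, hS ⟨s, hs⟩⟩ i : ℚ) : ℝ)| * (ε / M) := by
        apply Finset.sum_le_sum
        intro i _
        rw [abs_mul]
        apply mul_le_mul_of_nonneg_left _ (abs_nonneg _)
        rw [abs_sub_comm]
        exact (hb' i).le
    _ = nn ⟨s, hS ⟨s, hs⟩⟩ * (ε / M) := by
        rw [← Finset.sum_mul]
    _ < M * (ε / M) := mul_lt_mul_of_pos_right (hM ⟨s, hs⟩) hδ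
    _ = ε := by
        field_simp

end Vale.Agent.Lib.P058
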