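import Vale.Agent.Lib.P058.Basic
import Vale.Agent.Lib.P058.RatApprox

/-!
# P058, module FarkasA: from lists to nonnegative real weights

`V` is a set of columns, `ω : V →₀ ℝ` a finitely supported nonnegative weight that is balanced: for any
two rows `i j` and every letter `x`, `∑_{c i = x} ω c = ∑_{c j = x} ω c`.  Claim `0 ≤ ∑ ω c * Q c`.

PROOF.  (1) For `ω` with values in `ℕ` (`ω c = (n c : ℝ)`): the list that contains every `c` of the support
`n c` times (`Multiset.toList`/`List.flatMap (List.replicate ..)`) is balanced (compare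
`List.count x`), use `hQ`.
(2) For rational values multiply by a common denominator `N > 0` (`ω' = N • ω`).
(3) For real values let `ε > 0` be smaller than all positive values of `ω`, and `φ : ℝ →ₗ[ℚ] ℚ` from
`exists_rat_linear` with `|φ (ω c) - ω c| < ε` on the support; `ω' c = φ (ω c)` is nonnegative
(`φ (ω c) > ω c - ε > 0` on the support, `φ 0 = 0`), and balanced (apply `φ` to the equalities), so
`0 ≤ ∑ φ (ω c) * Q c`; and `|∑ φ (ω c) Q c - ∑ ω c Q c| ≤ ε * ∑ |Q c|`; let `ε → 0`.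
-/

namespace Vale.Agent.Lib.P058

/-- sums over the list with multiplicities -/
theorem farkasA_sum_list {α : Type} (L : List α) (n : α → ℕ) (g : α → ℝ) :
    ((L.flatMap fun c => List.replicate (n c) c).map g).sum =
      (L.map fun c => (n c : ℝ) * g c).sum := by
  induction L with
  | nil => simp
  | cons a L ih =>
    rw [List.flatMap_cons, List.map_append, List.sum_append, ih, List.map_cons, List.sum_cons]
    simp

/-- weights in `ℕ` -/
theorem farkasA_nat {J : Type} (V : Set (J → ℝ)) (Q : (J → ℝ) → ℝ)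
    (hQ : ∀ L : List (J → ℝ), (∀ c ∈ L, c ∈ V) → Balanced L → 0 ≤ (L.map Q).sum)
    (s : Finset V) (n : V → ℕ)
    (h : ∀ (φ : ℝ → ℝ) (i j : J), ∑ c ∈ s, (n c : ℝ) * φ (c.1 i) = ∑ c ∈ s, (n c : ℝ) * φ (c.1 j)) :
    0 ≤ ∑ c ∈ s, (n c : ℝ) * Q c.1 := by
  have h1 : ∀ g : (J → ℝ) → ℝ,
      (((s.toList.flatMap fun c => List.replicate (n c) c).map fun c : V => c.1).map g).sum =
        ∑ c ∈ s, (n c : ℝ) * g c.1 := by
    intro g
    rw [List.map_map]
    have := farkasA_sum_list s.toList n (g ∘ fun c : V => c.1)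
    rw [this]
    exact Finset.sum_map_toList s (fun c => (n c : ℝ) * g c.1)
  rw [← h1 Q]
  apply hQ
  · intro c hc
    obtain ⟨c', _, rfl⟩ := List.mem_map.mp hc
    exact c'.2
  · apply balanced_of_sums
    intro φ i j
    rw [h1 (fun c => φ (c i)), h1 (fun c => φ (c j))]
    exact h φ i j

/-- weights in `ℚ` -/
theorem farkasA_rat {J : Type} (V : Set (J → ℝ)) (Q : (J → ℝ) → ℝ)
    (hQ : ∀ L : List (J → ℝ), (∀ c ∈ L, c ∈ V) → Balanced L → 0 ≤ (L.map Q).sum)
    (s : Finset V) (w : V → ℚ) (hw : ∀ c ∈ s, 0 ≤ w c)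
    (h : ∀ (φ : ℝ → ℝ) (i j : J),
      ∑ c ∈ s, ((w c : ℚ) : ℝ) * φ (c.1 i) = ∑ c ∈ s, ((w c : ℚ) : ℝ) * φ (c.1 j)) :
    0 ≤ ∑ c ∈ s, ((w c : ℚ) : ℝ) * Q c.1 := by
  classical
  obtain ⟨N, hN⟩ : ∃ N : ℕ, N = ∏ c ∈ s, (w c).den := ⟨_, rfl⟩
  have hN0 : 0 < N := by
    rw [hN]
    exact Finset.prod_pos fun c _ => (w c).den_pos
  obtain ⟨n, hn⟩ : ∃ n : V → ℕ, n = fun c => (w c).num.toNat * ∏ c' ∈ s.erase c, (w c').den :=
    ⟨_, rfl⟩
  have hnw : ∀ c ∈ s, (n c : ℝ) = (N : ℝ) * ((w c : ℚ) : ℝ) := by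
    intro c hc
    have h1 : (n c : ℚ) = (N : ℚ) * w c := by
      have h2 : ((w c).num.toNat : ℚ) = (w c).num := by
        have h3 : (0 : ℤ) ≤ (w c).num := Rat.num_nonneg.mpr (hw c hc)
        have h4 : (((w c).num.toNat : ℤ) : ℚ) = ((w c).num : ℚ) := by
          rw [Int.toNat_of_nonneg h3]
        exact_mod_cast h4
      have h5 : (w c).den * ∏ c' ∈ s.erase c, (w c').den = N := by
        rw [hN]
        exact Finset.mul_prod_erase s (fun c => (w c).den) hc
      have h6 : ((w c).num : ℚ) = w c * (w c).den := (Rat.mul_den_eq_num (w c)).symm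
      rw [hn, ← h5]
      push_cast
      rw [h2, h6]
      ring
    exact_mod_cast h1
  have h2 : ∀ g : V → ℝ, ∑ c ∈ s, (n c : ℝ) * g c = (N : ℝ) * ∑ c ∈ s, ((w c : ℚ) : ℝ) * g c := by
    intro g
    rw [Finset.mul_sum]
    apply Finset.sum_congr rfl
    intro c hc
    rw [hnw c hc, mul_assoc]
  have h3 := farkasA_nat V Q hQ s n (by
    intro φ i j
    rw [h2 (fun c => φ (c.1 i)), h2 (fun c => φ (c.1 j)), h φ i j])
  rw [h2 (fun c => Q c.1)] at h3
  have hNR : (0 : ℝ) < N := by exact_mod_cast hN0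
  exact nonneg_of_mul_nonneg_right h3 hNR

theorem farkas_real {J : Type} [Fintype J] (V : Set (J → ℝ)) (Q : (J → ℝ) → ℝ)
    (hQ : ∀ L : List (J → ℝ), (∀ c ∈ L, c ∈ V) → Balanced L → 0 ≤ (L.map Q).sum)
    (ω : V →₀ ℝ) (hω : ∀ c, 0 ≤ ω c)
    (hbal : ∀ i j : J, Finsupp.mapDomain (fun c : V => c.1 i) ω =
      Finsupp.mapDomain (fun c : V => c.1 j) ω) :
    0 ≤ ω.sum (fun c t => t * Q c.1) := by
  classical
  have key : ∀ ε : ℝ, 0 < ε → (∀ c ∈ ω.support, ε ≤ ω c) →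
      -(ε * ∑ c ∈ ω.support, |Q c.1|) ≤ ω.sum (fun c t => t * Q c.1) := by
    intro ε hε hεω
    obtain ⟨φ, hφ⟩ := exists_rat_linear (ω.support.image ω) ε hε
    have hφ' : ∀ c ∈ ω.support, |((φ (ω c) : ℚ) : ℝ) - ω c| < ε := fun c hc =>
      hφ _ (Finset.mem_image_of_mem ω hc)
    have hbal' : ∀ i j : J,
        Finsupp.mapDomain (fun c : V => c.1 i) (Finsupp.mapRange φ (map_zero φ) ω) =
        Finsupp.mapDomain (fun c : V => c.1 j) (Finsupp.mapRange φ (map_zero φ) ω) := by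
      intro i j
      rw [Finsupp.mapDomain_mapRange _ _ _ _ (map_add φ),
        Finsupp.mapDomain_mapRange _ _ _ _ (map_add φ), hbal i j]
    have hsum : ∀ (ψ : ℝ → ℝ) (i : J),
        ∑ c ∈ ω.support, ((φ (ω c) : ℚ) : ℝ) * ψ (c.1 i) =
          (Finsupp.mapDomain (fun c : V => c.1 i) (Finsupp.mapRange φ (map_zero φ) ω)).sum
            (fun x t => ((t : ℚ) : ℝ) * ψ x) := by
      intro ψ i
      rw [Finsupp.sum_mapDomain_index (by simp) (by intro b m₁ m₂; push_cast; ring),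
        Finsupp.sum_mapRange_index (by simp)]
      rfl
    have h1 := farkasA_rat V Q hQ ω.support (fun c => φ (ω c)) (by
      intro c hc
      have h2 := (abs_lt.mp (hφ' c hc)).1
      have h3 := hεω c hc
      have h4 : (0 : ℝ) ≤ ((φ (ω c) : ℚ) : ℝ) := by linarith
      exact_mod_cast h4) (by
      intro ψ i j
      rw [hsum ψ i, hsum ψ j, hbal' i j])
    have h2 : ω.sum (fun c t => t * Q c.1) = ∑ c ∈ ω.support, ω c * Q c.1 := rfl
    rw [h2]
    have h3 : ∑ c ∈ ω.support, ((φ (ω c) : ℚ) : ℝ) * Q c.1 - ∑ c ∈ ω.support, ω c * Q c.1 ≤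
        ε * ∑ c ∈ ω.support, |Q c.1| := by
      rw [← Finset.sum_sub_distrib, Finset.mul_sum]
      apply Finset.sum_le_sum
      intro c hc
      calc ((φ (ω c) : ℚ) : ℝ) * Q c.1 - ω c * Q c.1 = (((φ (ω c) : ℚ) : ℝ) - ω c) * Q c.1 := by
            ring
        _ ≤ |(((φ (ω c) : ℚ) : ℝ) - ω c) * Q c.1| := le_abs_self _
        _ = |((φ (ω c) : ℚ) : ℝ) - ω c| * |Q c.1| := abs_mul _ _
        _ ≤ ε * |Q c.1| := mul_le_mul_of_nonneg_right (hφ' c hc).le (abs_nonneg _)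
    linarith
  by_contra hcon
  rw [not_le] at hcon
  have hne : ω.support.Nonempty := by
    rw [Finset.nonempty_iff_ne_empty]
    intro h
    rw [Finsupp.support_eq_empty.mp h, Finsupp.sum_zero_index] at hcon
    exact lt_irrefl _ hcon
  obtain ⟨c₀, hc₀, hmin⟩ := Finset.exists_min_image ω.support ω hne
  have hpos : 0 < ω c₀ := lt_of_le_of_ne (hω c₀) (Finsupp.mem_support_iff.mp hc₀).symm
  obtain ⟨K, hK⟩ : ∃ K : ℝ, K = ∑ c ∈ ω.support, |Q c.1| := ⟨_, rfl⟩
  have hK0 : 0 ≤ K := by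
    rw [hK]
    exact Finset.sum_nonneg fun c _ => abs_nonneg _
  obtain ⟨X, hX⟩ : ∃ X : ℝ, X = ω.sum (fun c t => t * Q c.1) := ⟨_, rfl⟩
  rw [← hX] at hcon
  have h1 := key (min (ω c₀) (-X / (2 * (K + 1)))) (lt_min hpos (by
    apply div_pos <;> linarith)) (fun c hc => (min_le_left _ _).trans (hmin c hc))
  rw [← hK, ← hX] at h1
  have h2 : min (ω c₀) (-X / (2 * (K + 1))) * K ≤ -X / (2 * (K + 1)) * (K + 1) := by
    apply mul_le_mul (min_le_right _ _) (by linarith) hK0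
    apply div_nonneg <;> linarith
  have h3 : -X / (2 * (K + 1)) * (K + 1) = -X / 2 := by
    field_simp
  linarith

end Vale.Agent.Lib.P058
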