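import Vale.Agent.Lib.P058.Main2

/-!
# P058, module Kite: a kite that is Ramsey but not subtransitive

`kite = {(-1,0), (1,0), (a,s), (a,-s)}`, `a = √2 - 1`, `s = √(2 √2 - 2)`, on the unit circle
(`a² + s² = 3 - 2 √2 + 2 √2 - 2 = 1`).

`kite_ramsey`: `isRamsey_of_affineIndependent` with the point `q = (-1,0)` and the triangle of the other three
points (affinely independent in the plane; `(-1,0)` is in its affine span, which is the plane, or
explicitly from the relation below).

`kite_not_subtransitive`: the relation `(a,s) + (a,-s) = (2 - √2) (-1,0) + √2 (1,0)` has coefficient sum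
`0`, so it holds for the images under every isometric embedding (`norm_comb_eq`), and
`galois_rigid` gives that the images of `(-1,0)` and `(1,0)` coincide, impossible.
-/

namespace Vale.Agent.Lib.P058

/-- the kite -/
noncomputable def kite : Set (EuclideanSpace ℝ (Fin 2)) :=
  {!₂[(-1 : ℝ), 0], !₂[(1 : ℝ), 0], !₂[√2 - 1, √(2 * √2 - 2)], !₂[√2 - 1, -√(2 * √2 - 2)]}

private theorem sqrt2_sq : √2 * √2 = 2 := Real.mul_self_sqrt (by norm_num)

private theorem sqrt2_gt : (1 : ℝ) < √2 := by
  rw [Real.lt_sqrt (by norm_num)]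
  norm_num

private theorem sqrt2_lt : √2 < 2 := by
  rw [Real.sqrt_lt' (by norm_num)]
  norm_num

private theorem s_sq : √(2 * √2 - 2) * √(2 * √2 - 2) = 2 * √2 - 2 :=
  Real.mul_self_sqrt (by linarith [sqrt2_gt])

private theorem s_pos : 0 < √(2 * √2 - 2) := Real.sqrt_pos.2 (by linarith [sqrt2_gt])

/-- the apex -/
private noncomputable def kq : EuclideanSpace ℝ (Fin 2) := !₂[(-1 : ℝ), 0]
private noncomputable def k1 : EuclideanSpace ℝ (Fin 2) := !₂[(1 : ℝ), 0]
private noncomputable def k2 : EuclideanSpace ℝ (Fin 2) := !₂[√2 - 1, √(2 * √2 - 2)]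
private noncomputable def k3 : EuclideanSpace ℝ (Fin 2) := !₂[√2 - 1, -√(2 * √2 - 2)]

private theorem kite_eq : kite = {kq, k1, k2, k3} := rfl

private theorem ext2 {x y : EuclideanSpace ℝ (Fin 2)} (h0 : x 0 = y 0) (h1 : x 1 = y 1) :
    x = y := by
  ext i
  fin_cases i
  · exact h0
  · exact h1

private theorem k1_ne : k1 ≠ kq := by
  intro h
  have : k1 0 = kq 0 := by rw [h]
  simp [k1, kq] at this
  linarith

private theorem k2_ne : k2 ≠ kq := by
  intro h
  have : k2 1 = kq 1 := by rw [h]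
  simp [k2, kq] at this
  linarith [sqrt2_gt]

private theorem k3_ne : k3 ≠ kq := by
  intro h
  have : k3 1 = kq 1 := by rw [h]
  simp [k3, kq] at this
  linarith [sqrt2_gt]

theorem kite_ramsey : IsRamsey kite := by
  apply isRamsey_of_affineIndependent kite _ _ kq
  · rw [kite_eq]; simp
  · -- affine independence
    have h3 : AffineIndependent ℝ ![k1, k2, k3] := by
      rw [affineIndependent_iff_of_fintype]
      intro w hw h
      rw [Finset.univ.weightedVSub_eq_linear_combination hw] at h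
      simp only [Fin.sum_univ_three, Matrix.cons_val_zero, Matrix.cons_val_one,
        Matrix.cons_val] at h hw
      have e0 : (w 0 • k1 + w 1 • k2 + w 2 • k3) 0 = 0 := by rw [h]; rfl
      have e1 : (w 0 • k1 + w 1 • k2 + w 2 • k3) 1 = 0 := by rw [h]; rfl
      simp [k1, k2, k3] at e0 e1
      have hs := s_pos
      have h12 : w 1 = w 2 := by
        have : (w 1 - w 2) * √(2 * √2 - 2) = 0 := by linarith
        rcases mul_eq_zero.1 this with h5 | h5
        · linarith
        · exact absurd h5 hs.ne'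
      have h1 : w 1 = 0 := by
        have h6 : w 1 * (2 - √2) = 0 := by
          rw [← h12] at e0 hw
          have : w 0 = - 2 * w 1 := by linarith
          rw [this] at e0
          linarith
        rcases mul_eq_zero.1 h6 with h7 | h7
        · exact h7
        · linarith [sqrt2_lt]
      intro i
      fin_cases i
      · simp only [Fin.zero_eta]
        linarith
      · exact h1
      · show w 2 = 0
        rw [← h12]; exact h1
    have h4 := h3.range
    let f : {x // x ∈ kite ∧ x ≠ kq} ↪ Set.range ![k1, k2, k3] :=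
      ⟨fun x => ⟨x.1, by
        have hx : x.1 ∈ ({kq, k1, k2, k3} : Set (EuclideanSpace ℝ (Fin 2))) := x.2.1
        rcases hx with hx | hx | hx | hx
        · exact absurd hx x.2.2
        · exact ⟨0, hx.symm⟩
        · exact ⟨1, hx.symm⟩
        · exact ⟨2, hx.symm⟩⟩, by
        intro x y hxy
        have h5 := congrArg (fun z : Set.range ![k1, k2, k3] => z.1) hxy
        exact Subtype.ext h5⟩
    exact h4.comp_embedding f
  · -- the span
    have m1 : k1 ∈ affineSpan ℝ (kite \ {kq}) := mem_affineSpan ℝ ⟨by rw [kite_eq]; simp, k1_ne⟩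
    have m2 : k2 ∈ affineSpan ℝ (kite \ {kq}) := mem_affineSpan ℝ ⟨by rw [kite_eq]; simp, k2_ne⟩
    have m3 : k3 ∈ affineSpan ℝ (kite \ {kq}) := mem_affineSpan ℝ ⟨by rw [kite_eq]; simp, k3_ne⟩
    have m4 := AffineMap.lineMap_mem (1 / 2 : ℝ) m2 m3
    have m5 := AffineMap.lineMap_mem (2 / (2 - √2) : ℝ) m1 m4
    have hne : (2 : ℝ) - √2 ≠ 0 := by linarith [sqrt2_lt]
    have e : kq = AffineMap.lineMap k1 (AffineMap.lineMap k2 k3 (1 / 2 : ℝ)) (2 / (2 - √2) : ℝ) := by
      apply ext2
      · simp [AffineMap.lineMap_apply, kq, k1, k2, k3]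
        field_simp
        ring
      · simp [AffineMap.lineMap_apply, kq, k1, k2, k3]
        right
        ring
    rw [← e] at m5
    exact m5
  · rw [kite_eq]
    exact Set.toFinite _
  · refine ⟨0, 1, ?_⟩
    intro x hx
    rw [dist_zero_right, EuclideanSpace.norm_eq, Fin.sum_univ_two]
    rw [kite_eq] at hx
    rcases hx with rfl | rfl | rfl | rfl
    · simp [kq]
    · simp [k1]
    · have h1 : ‖k2 0‖ ^ 2 + ‖k2 1‖ ^ 2 = 1 := by
        simp only [Real.norm_eq_abs, sq_abs]
        simp only [k2, PiLp.toLp_apply, Matrix.cons_val_zero, Matrix.cons_val_one]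
        have := sqrt2_sq
        have := s_sq
        nlinarith
      rw [h1, Real.sqrt_one]
    · have h1 : ‖k3 0‖ ^ 2 + ‖k3 1‖ ^ 2 = 1 := by
        simp only [Real.norm_eq_abs, sq_abs]
        simp only [k3, PiLp.toLp_apply, Matrix.cons_val_zero, Matrix.cons_val_one]
        have := sqrt2_sq
        have := s_sq
        nlinarith
      rw [h1, Real.sqrt_one]

theorem kite_not_subtransitive : ¬ IsSubtransitive kite := by
  rintro ⟨n, X, hfin, htr, f, hf, hfX⟩
  have mq : kq ∈ kite := by rw [kite_eq]; simp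
  have m1 : k1 ∈ kite := by rw [kite_eq]; simp
  have m2 : k2 ∈ kite := by rw [kite_eq]; simp
  have m3 : k3 ∈ kite := by rw [kite_eq]; simp
  let K : Fin 4 → kite := ![⟨kq, mq⟩, ⟨k1, m1⟩, ⟨k2, m2⟩, ⟨k3, m3⟩]
  have hn := norm_comb_eq (fun j => (K j : EuclideanSpace ℝ (Fin 2))) (fun j => f (K j))
    (fun i j => by rw [hf.dist_eq]; rfl) ![-(2 - √2), -√2, 1, 1]
    (by simp [Fin.sum_univ_four]; ring)
  simp only [Fin.sum_univ_four, K, Matrix.cons_val_zero, Matrix.cons_val_one, Matrix.cons_val] at hn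
  have h0 : (-(2 - √2)) • kq + (-√2) • k1 + (1 : ℝ) • k2 + (1 : ℝ) • k3 = 0 := by
    apply ext2
    · simp [kq, k1, k2, k3]
      ring
    · simp [kq, k1, k2, k3]
  rw [h0, norm_zero] at hn
  have h1 := norm_eq_zero.1 hn.symm
  have hrel : f ⟨k2, m2⟩ + f ⟨k3, m3⟩ = (2 - √2) • f ⟨kq, mq⟩ + √2 • f ⟨k1, m1⟩ := by
    rw [neg_smul, neg_smul, one_smul, one_smul] at h1
    have h2 : f ⟨k2, m2⟩ + f ⟨k3, m3⟩ - ((2 - √2) • f ⟨kq, mq⟩ + √2 • f ⟨k1, m1⟩) = 0 := by
      rw [← h1]
      abel
    exact sub_eq_zero.1 h2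
  have h2 := galois_rigid X hfin htr _ _ _ _ (hfX ⟨kq, mq⟩) (hfX ⟨k1, m1⟩) (hfX ⟨k2, m2⟩)
    (hfX ⟨k3, m3⟩) hrel
  have h3 := hf.injective h2
  have h4 : kq = k1 := congrArg Subtype.val h3
  exact k1_ne h4.symm

end Vale.Agent.Lib.P058
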