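import Vale.Agent.Lib.P058.Simplex
import Vale.Agent.Lib.P058.Kite

/-!
# P058, module Final
-/

namespace Vale.Agent.Lib.P058

theorem isRamsey_of_spherical_erase {d : ℕ} (A : Set (EuclideanSpace ℝ (Fin d)))
    (q : EuclideanSpace ℝ (Fin d)) (hfin : A.Finite) (hq : q ∈ A)
    (hind : AffineIndependent ℝ (fun x : {x // x ∈ A ∧ x ≠ q} => (x : EuclideanSpace ℝ (Fin d))))
    (hsph : IsSpherical A) : IsRamsey A := by
  classical
  by_cases hspan : q ∈ affineSpan ℝ (A \ {q})
  · exact isRamsey_of_affineIndependent A hfin hsph q hq hind hspan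
  · refine isRamsey_simplex A hfin ?_
    let i : A := ⟨q, hq⟩
    have h1 : AffineIndependent ℝ
        (fun x : {y : A // y ≠ i} => ((x : A) : EuclideanSpace ℝ (Fin d))) := by
      let e : {y : A // y ≠ i} ↪ {x // x ∈ A ∧ x ≠ q} :=
        ⟨fun y => ⟨y.1.1, y.1.2, fun h => y.2 (Subtype.ext h)⟩, fun y y' h => by
          apply Subtype.ext
          apply Subtype.ext
          exact congrArg (fun z : {x // x ∈ A ∧ x ≠ q} => (z : EuclideanSpace ℝ (Fin d))) h⟩
      exact hind.comp_embedding e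
    refine h1.affineIndependent_of_notMem_span ?_
    intro h
    apply hspan
    refine affineSpan_mono ℝ ?_ h
    rintro _ ⟨y, hy, rfl⟩
    exact ⟨y.2, fun h => hy (Subtype.ext h)⟩

theorem final :
    (∀ (d : ℕ) (A : Set (EuclideanSpace ℝ (Fin d))) (q : EuclideanSpace ℝ (Fin d)), A.Finite →
      q ∈ A → AffineIndependent ℝ (fun x : {x // x ∈ A ∧ x ≠ q} => (x : EuclideanSpace ℝ (Fin d))) →
      IsSpherical A → IsRamsey A) ∧
    (kite.Finite ∧ IsRamsey kite ∧ ¬ IsSubtransitive kite) := by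
  refine ⟨?_, ?_, kite_ramsey, kite_not_subtransitive⟩
  · intro d A q hfin hq hind hsph
    exact isRamsey_of_spherical_erase A q hfin hq hind hsph
  · simp [kite]

end Vale.Agent.Lib.P058
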