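import Vale.Agent.Lib.P058.Defs

/-!
# P058, module Galois

In a finite transitive set the relation `r + t = (2 - √2) p + √2 q` forces `p = q`.

PROOF.  Isometries of `ℝ^n` are affine (`IsometryEquiv.toRealAffineIsometryEquiv`, Mazur-Ulam), so
the relation (coefficients `1 + 1 = (2 - √2) + √2`) holds for the images under every isometry `g`.
Let `Γ` be the set of permutations `σ` of the finite type `X` such that there is an isometry `g` of `ℝ^n`
with `g '' X = X` and `g x = σ x` for `x ∈ X`: a finite set of permutations stable under composition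
(a `Subgroup (Equiv.Perm X)` or just a finset closed under multiplication by its elements), transitive.

Suppose `p ≠ q`; choose a coordinate `i` with `p i ≠ q i`, `h x = x i`.
*Conjugation.*  Let `K = {a + b √2 | a b : ℚ}` (a subfield of `ℝ`, or `IntermediateField.adjoin`,
or work by hand).  There is an additive map `ψ : ℝ → ℝ` with `ψ (√2 * x) = - √2 * ψ x` for all `x`
and `ψ (p i - q i) ≠ 0`:
e.g. view `ℝ` as a vector space over `K`; take a `K`-linear `θ : ℝ → K` with `θ (p i - q i) = 1`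
and compose with the conjugation of `K`.
(Alternative by hand: it suffices to have an additive `φ : ℝ → ℚ` (a `ℚ`-linear form) with
`φ (x₀) ≠ 0` or `φ (√2 x₀) ≠ 0`, where `x₀ = p i - q i`, and to put
`ψ x = φ (√2 * x) - √2 * φ x`: then `ψ (√2 x) = φ (2 x) - √2 φ (√2 x) = -√2 (φ (√2 x) - √2 φ x)`,
and `ψ x₀ ≠ 0` as `φ (√2 x₀), φ x₀` are rational, not both zero, and `√2` is irrational.)

`H = ψ ∘ h`.  For `g ∈ Γ`: `h (g r) + h (g t) = 2 h (g p) - √2 h (g p) + √2 h (g q)`, so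
`H (g r) + H (g t) = 2 H (g p) + √2 H (g p) - √2 H (g q)`, i.e.
`H (g r) + H (g t) + √2 H (g q) = (2 + √2) H (g p)`.
`ν = ∑_{g ∈ Γ} H (g x)^2` does not depend on `x ∈ X` (if `y = g₀ x`, reindex `g ↦ g * g₀`).
Multiply by `H (g p)` and sum over `g`; with `⟨x, y⟩ = ∑ H (g x) H (g y) ≤ ν`:
`(2 + √2) ν = ⟨p, r⟩ + ⟨p, t⟩ + √2 ⟨p, q⟩ ≤ (2 + √2) ν`, so `⟨p, q⟩ = ν`, so
`∑ (H (g p) - H (g q))^2 = 0`, so `H p = H q` (`g = id`), i.e. `ψ (p i - q i) = 0`, a contradiction.
-/

namespace Vale.Agent.Lib.P058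

/-- the permutations of `X` induced by isometries -/
def Galois_grp {n : ℕ} (X : Set (EuclideanSpace ℝ (Fin n))) : Subgroup (Equiv.Perm X) where
  carrier := {σ | ∃ g : EuclideanSpace ℝ (Fin n) ≃ᵢ EuclideanSpace ℝ (Fin n),
    ∀ x : X, g x = (σ x : EuclideanSpace ℝ (Fin n))}
  one_mem' := ⟨IsometryEquiv.refl _, fun _ => rfl⟩
  mul_mem' := by
    rintro σ τ ⟨g, hg⟩ ⟨g', hg'⟩
    refine ⟨g'.trans g, fun x => ?_⟩
    change g (g' x) = _
    rw [hg', hg]
    rfl
  inv_mem' := by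
    rintro σ ⟨g, hg⟩
    refine ⟨g.symm, fun x => ?_⟩
    have h1 := hg (σ⁻¹ x)
    have h2 : σ (σ⁻¹ x) = x := σ.apply_symm_apply x
    rw [h2] at h1
    rw [← h1, IsometryEquiv.symm_apply_apply]

/-- transitivity -/
theorem Galois_trans {n : ℕ} (X : Set (EuclideanSpace ℝ (Fin n)))
    (htr : ∀ x ∈ X, ∀ y ∈ X, ∃ g : EuclideanSpace ℝ (Fin n) ≃ᵢ EuclideanSpace ℝ (Fin n),
      g '' X = X ∧ g x = y) (x y : X) : ∃ σ : Galois_grp X, (σ : Equiv.Perm X) x = y := by
  obtain ⟨g, hg, hxy⟩ := htr x x.2 y y.2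
  have h1 : ∀ z : X, g z ∈ X := fun z => by
    have : g z ∈ g '' X := ⟨z, z.2, rfl⟩
    rwa [hg] at this
  have h2 : ∀ z : X, g.symm z ∈ X := fun z => by
    have : (z : EuclideanSpace ℝ (Fin n)) ∈ g '' X := by rw [hg]; exact z.2
    obtain ⟨w, hw, hwz⟩ := this
    rw [← hwz, IsometryEquiv.symm_apply_apply]
    exact hw
  let σ : Equiv.Perm X :=
    { toFun := fun z => ⟨g z, h1 z⟩
      invFun := fun z => ⟨g.symm z, h2 z⟩
      left_inv := fun z => Subtype.ext (g.symm_apply_apply _)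
      right_inv := fun z => Subtype.ext (g.apply_symm_apply _) }
  exact ⟨⟨σ, g, fun z => rfl⟩, Subtype.ext hxy⟩

/-- the relation is preserved -/
theorem Galois_rel {n : ℕ} (X : Set (EuclideanSpace ℝ (Fin n))) {p q r t : X}
    (hrel : (r : EuclideanSpace ℝ (Fin n)) + t = (2 - √2) • (p : EuclideanSpace ℝ (Fin n)) +
      √2 • (q : EuclideanSpace ℝ (Fin n))) (σ : Galois_grp X) :
    (((σ : Equiv.Perm X) r : X) : EuclideanSpace ℝ (Fin n)) + ((σ : Equiv.Perm X) t : X) =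
      (2 - √2) • (((σ : Equiv.Perm X) p : X) : EuclideanSpace ℝ (Fin n)) +
      √2 • (((σ : Equiv.Perm X) q : X) : EuclideanSpace ℝ (Fin n)) := by
  obtain ⟨σ, g, hg⟩ := σ
  simp only
  rw [← hg r, ← hg t, ← hg p, ← hg q]
  set f : EuclideanSpace ℝ (Fin n) →ᵃ[ℝ] EuclideanSpace ℝ (Fin n) :=
    g.toRealAffineIsometryEquiv.toAffineEquiv.toAffineMap with hf
  have hfg : ∀ x, g x = f.linear x + f 0 := by
    intro x
    have h1 : f x = g x := rfl
    rw [← h1]
    have h2 := congrFun (AffineMap.decomp f) x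
    exact h2
  rw [hfg r, hfg t, hfg p, hfg q]
  have h3 := congrArg f.linear hrel
  rw [map_add, map_add, map_smul, map_smul] at h3
  have h4 : (f.linear r + f 0) + (f.linear t + f 0) =
      (f.linear r + f.linear t) + (2 : ℝ) • f 0 := by
    rw [two_smul]
    abel
  rw [h4, h3]
  module

/-- conjugation of `√2` -/
theorem Galois_conj {x₀ : ℝ} (hx₀ : x₀ ≠ 0) : ∃ ψ : ℝ → ℝ, (∀ x y, ψ (x + y) = ψ x + ψ y) ∧
    (∀ x, ψ (√2 * x) = -√2 * ψ x) ∧ ψ x₀ ≠ 0 := by
  obtain ⟨φ, hφ⟩ : ∃ φ : Module.Dual ℚ ℝ, φ x₀ ≠ 0 := by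
    by_contra h
    have h' : ∀ φ : Module.Dual ℚ ℝ, φ x₀ = 0 := fun φ => by
      by_contra h1
      exact h ⟨φ, h1⟩
    exact hx₀ ((Module.forall_dual_apply_eq_zero_iff ℚ x₀).1 h')
  have hs : √2 * √2 = 2 := Real.mul_self_sqrt (by norm_num)
  refine ⟨fun x => (φ (√2 * x) : ℝ) - √2 * (φ x : ℝ), fun x y => ?_, fun x => ?_, ?_⟩
  · simp only [mul_add, map_add, Rat.cast_add]
    ring
  · have h1 : √2 * (√2 * x) = (2 : ℚ) • x := by
      rw [← mul_assoc, hs, Rat.smul_def]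
      norm_num
    simp only [h1, map_smul, smul_eq_mul, Rat.cast_mul, Rat.cast_ofNat]
    linear_combination ((φ x : ℝ)) * (-hs)
  · intro h0
    simp only at h0
    have h1 : (φ (√2 * x₀) : ℝ) = √2 * (φ x₀ : ℝ) := by linarith
    have hφ' : (φ x₀ : ℝ) ≠ 0 := by exact_mod_cast hφ
    have h2 : √2 = ((φ (√2 * x₀) / φ x₀ : ℚ) : ℝ) := by
      rw [Rat.cast_div, h1, mul_div_cancel_right₀ _ hφ']
    exact irrational_sqrt_two ⟨_, h2.symm⟩

theorem galois_rigid {n : ℕ} (X : Set (EuclideanSpace ℝ (Fin n))) (hfin : X.Finite)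
    (htr : ∀ x ∈ X, ∀ y ∈ X, ∃ g : EuclideanSpace ℝ (Fin n) ≃ᵢ EuclideanSpace ℝ (Fin n),
      g '' X = X ∧ g x = y)
    (p q r t : EuclideanSpace ℝ (Fin n)) (hp : p ∈ X) (hq : q ∈ X) (hr : r ∈ X) (ht : t ∈ X)
    (hrel : r + t = (2 - √2) • p + √2 • q) : p = q := by
  classical
  by_contra hpq
  have hex : ∃ i, p i ≠ q i := by
    by_contra h
    apply hpq
    ext i
    by_contra h1
    exact h ⟨i, h1⟩
  obtain ⟨i, hi⟩ := hex
  obtain ⟨ψ, hadd, hconj, hψ⟩ := Galois_conj (sub_ne_zero.2 hi)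
  have : Finite X := hfin
  have : Fintype (Galois_grp X) := Fintype.ofFinite _
  have hψ0 : ψ 0 = 0 := by
    have := hadd 0 0
    rw [add_zero] at this
    linarith
  have hψneg : ∀ x, ψ (-x) = -ψ x := fun x => by
    have := hadd x (-x)
    rw [add_neg_cancel, hψ0] at this
    linarith
  have hψsub : ∀ x y, ψ (x - y) = ψ x - ψ y := fun x y => by
    rw [sub_eq_add_neg, hadd, hψneg]
    ring
  set p' : X := ⟨p, hp⟩ with hp'
  set q' : X := ⟨q, hq⟩ with hq'
  set r' : X := ⟨r, hr⟩ with hr'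
  set t' : X := ⟨t, ht⟩ with ht'
  set H : X → ℝ := fun x => ψ ((x : EuclideanSpace ℝ (Fin n)) i) with hH
  -- the relation for `H`
  have hrelH : ∀ σ : Galois_grp X, H ((σ : Equiv.Perm X) r') + H ((σ : Equiv.Perm X) t') +
      √2 * H ((σ : Equiv.Perm X) q') = (2 + √2) * H ((σ : Equiv.Perm X) p') := by
    intro σ
    have h1 := Galois_rel X (p := p') (q := q') (r := r') (t := t') hrel σ
    have h2 := congrArg (fun z : EuclideanSpace ℝ (Fin n) => ψ (z i)) h1
    simp only [PiLp.add_apply, PiLp.smul_apply, smul_eq_mul] at h2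
    rw [hadd, hadd] at h2
    have h3 : ψ ((2 - √2) * (((σ : Equiv.Perm X) p' : X) : EuclideanSpace ℝ (Fin n)) i) =
        2 * H ((σ : Equiv.Perm X) p') + √2 * H ((σ : Equiv.Perm X) p') := by
      rw [sub_mul, hψsub, hconj, two_mul, hadd]
      simp only [hH]
      ring
    rw [h3, hconj] at h2
    simp only [hH] at h2 ⊢
    linarith
  -- the form
  set S : X → X → ℝ := fun x y => ∑ σ : Galois_grp X, H ((σ : Equiv.Perm X) x) *
    H ((σ : Equiv.Perm X) y) with hS
  have hdiag : ∀ x y : X, S x x = S y y := by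
    intro x y
    obtain ⟨τ, hτ⟩ := Galois_trans X htr x y
    simp only [hS]
    rw [← hτ]
    refine (Fintype.sum_equiv (Equiv.mulRight τ) _ _ fun σ => ?_).symm
    rfl
  have hle : ∀ x y : X, S x y ≤ S p' p' := by
    intro x y
    have h1 : 0 ≤ ∑ σ : Galois_grp X, (H ((σ : Equiv.Perm X) x) - H ((σ : Equiv.Perm X) y)) ^ 2 :=
      Finset.sum_nonneg fun _ _ => sq_nonneg _
    have h2 : ∑ σ : Galois_grp X, (H ((σ : Equiv.Perm X) x) - H ((σ : Equiv.Perm X) y)) ^ 2 =
        S x x + S y y - 2 * S x y := by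
      simp only [hS]
      rw [Finset.mul_sum, ← Finset.sum_add_distrib, ← Finset.sum_sub_distrib]
      exact Finset.sum_congr rfl fun _ _ => by ring
    rw [h2, hdiag x p', hdiag y p'] at h1
    linarith
  have hkey : (2 + √2) * S p' p' = S p' r' + S p' t' + √2 * S p' q' := by
    simp only [hS]
    rw [Finset.mul_sum, Finset.mul_sum, ← Finset.sum_add_distrib, ← Finset.sum_add_distrib]
    refine Finset.sum_congr rfl fun σ _ => ?_
    have h1 := hrelH σ
    linear_combination (-H ((σ : Equiv.Perm X) p')) * h1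
  have hs : 0 < √2 := by positivity
  have hge : S p' p' ≤ S p' q' := by
    have h1 := hle p' r'
    have h2 := hle p' t'
    by_contra h3
    rw [not_le] at h3
    have h4 := mul_lt_mul_of_pos_left h3 hs
    nlinarith
  have hzero : ∑ σ : Galois_grp X, (H ((σ : Equiv.Perm X) p') - H ((σ : Equiv.Perm X) q')) ^ 2
      = 0 := by
    apply le_antisymm _ (Finset.sum_nonneg fun _ _ => sq_nonneg _)
    have h2 : ∑ σ : Galois_grp X, (H ((σ : Equiv.Perm X) p') - H ((σ : Equiv.Perm X) q')) ^ 2 =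
        S p' p' + S q' q' - 2 * S p' q' := by
      simp only [hS]
      rw [Finset.mul_sum, ← Finset.sum_add_distrib, ← Finset.sum_sub_distrib]
      exact Finset.sum_congr rfl fun _ _ => by ring
    rw [h2, hdiag q' p']
    linarith
  have h1 := (Finset.sum_eq_zero_iff_of_nonneg fun _ _ => sq_nonneg _).1 hzero 1
    (Finset.mem_univ _)
  have h2 : H p' - H q' = 0 := by
    have h3 := pow_eq_zero_iff (two_ne_zero) |>.1 h1
    exact h3
  apply hψ
  rw [hψsub]
  exact h2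

end Vale.Agent.Lib.P058
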