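import Mathlib

/-!
# P058, module GeomS: a symmetric map

`ρ = ‖q‖ < R`, `s = √(1 - ρ^2 / R^2) > 0`, `κ = 1 / (R^2 * (1 + s))`, so that
`ρ^2 * κ^2 - 2 * κ + 1 / R^2 = 0` and `1 - κ * ρ^2 = s` (use `ρ^2 = R^2 (1 - s^2)`).
`S x = x - (κ * ⟪x, q⟫) • q`:
`‖S x‖^2 = ‖x‖^2 - 2 κ ⟪x,q⟫^2 + κ^2 ρ^2 ⟪x,q⟫^2 = ‖x‖^2 - ⟪x,q⟫^2 / R^2`.
For `g` take `g' = g + ((κ / s) * ⟪g, q⟫) • q`:
`⟪g', S x⟫ = ⟪g, x⟫ - κ ⟪x,q⟫⟪g,q⟫ + (κ/s) ⟪g,q⟫ ⟪q,x⟫ (1 - κ ρ^2) = ⟪g, x⟫`.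
-/

namespace Vale.Agent.Lib.P058

theorem exists_S {F : Type} [NormedAddCommGroup F] [InnerProductSpace ℝ F] (q : F) (R : ℝ)
    (h : ‖q‖ < R) : ∃ S : F →ₗ[ℝ] F, (∀ x, ‖S x‖ ^ 2 = ‖x‖ ^ 2 - (inner ℝ x q) ^ 2 / R ^ 2) ∧
      ∀ g, ∃ g', ∀ x, inner ℝ g' (S x) = (inner ℝ g x : ℝ) := by
  have hR : 0 < R := lt_of_le_of_lt (norm_nonneg q) h
  have hlt : ‖q‖ ^ 2 / R ^ 2 < 1 := by
    rw [div_lt_one (by positivity)]
    exact pow_lt_pow_left₀ h (norm_nonneg q) two_ne_zero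
  obtain ⟨s, hs, hs2⟩ : ∃ s : ℝ, 0 < s ∧ s ^ 2 = 1 - ‖q‖ ^ 2 / R ^ 2 :=
    ⟨Real.sqrt (1 - ‖q‖ ^ 2 / R ^ 2), Real.sqrt_pos.2 (by linarith), Real.sq_sqrt (by linarith)⟩
  have hρ : ‖q‖ ^ 2 = R ^ 2 * (1 - s ^ 2) := by
    rw [hs2]
    field_simp
    ring
  have hs1 : (1 + s) ≠ 0 := by positivity
  obtain ⟨κ, hκ⟩ : ∃ κ : ℝ, κ = 1 / (R ^ 2 * (1 + s)) := ⟨_, rfl⟩
  have hk1 : ‖q‖ ^ 2 * κ ^ 2 - 2 * κ + 1 / R ^ 2 = 0 := by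
    rw [hρ, hκ]
    field_simp
    ring
  have hk2 : 1 - κ * ‖q‖ ^ 2 = s := by
    rw [hρ, hκ]
    field_simp
    ring
  refine ⟨{ toFun := fun x => x - (κ * inner ℝ x q) • q
            map_add' := fun x y => ?_
            map_smul' := fun c x => ?_ }, fun x => ?_, fun g => ?_⟩
  · rw [inner_add_left, mul_add, add_smul]
    abel
  · rw [real_inner_smul_left, RingHom.id_apply, smul_sub, smul_smul]
    congr 2
    ring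
  · show ‖x - (κ * inner ℝ x q) • q‖ ^ 2 = _
    rw [norm_sub_sq_real, norm_smul, inner_smul_right, mul_pow, Real.norm_eq_abs, sq_abs]
    have : (κ * inner ℝ x q) ^ 2 * ‖q‖ ^ 2 - 2 * (κ * inner ℝ x q * inner ℝ x q)
        = (‖q‖ ^ 2 * κ ^ 2 - 2 * κ) * (inner ℝ x q) ^ 2 := by ring
    have h3 : ‖q‖ ^ 2 * κ ^ 2 - 2 * κ = - (1 / R ^ 2) := by linarith
    rw [h3] at this
    rw [div_eq_mul_one_div]
    linarith
  · refine ⟨g + ((κ / s) * inner ℝ g q) • q, fun x => ?_⟩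
    show inner ℝ (g + ((κ / s) * inner ℝ g q) • q) (x - (κ * inner ℝ x q) • q) = (inner ℝ g x : ℝ)
    rw [inner_add_left, inner_sub_right, inner_sub_right, real_inner_smul_left,
      real_inner_smul_left, real_inner_smul_right, real_inner_smul_right,
      real_inner_self_eq_norm_sq, real_inner_comm x q]
    have e : κ / s * inner ℝ g q * (inner ℝ x q : ℝ)
        - κ / s * inner ℝ g q * (κ * inner ℝ x q * ‖q‖ ^ 2)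
        = κ / s * inner ℝ g q * inner ℝ x q * (1 - κ * ‖q‖ ^ 2) := by ring
    have e2 : κ / s * inner ℝ g q * (inner ℝ x q : ℝ) * (1 - κ * ‖q‖ ^ 2)
        = κ * inner ℝ g q * inner ℝ x q := by
      rw [hk2]
      field_simp
    have e3 : κ * inner ℝ x q * (inner ℝ g q : ℝ) = κ * inner ℝ g q * inner ℝ x q := by ring
    linarith

end Vale.Agent.Lib.P058
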