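import Vale.Agent.Lib.P058.Defs
import Vale.Agent.Lib.P058.GeomS

/-!
# P058, module Geom: the blow-up of a spherical set

Data: `p y` (`y ∈ Y`) and `q = ∑ α y • p y` on the sphere of radius `ρ` about `0` in `ℝ^d`,
`∑ α = 1`; points `z b` (`b ∈ β`) on the sphere of radius `R > ρ` about `0` in `ℝ^N`.

Take `S` from `exists_S` (module GeomS): `‖S x‖^2 = ‖x‖^2 - ⟪x,q⟫^2 / R^2`, and for every `g` there is
`g'` with `⟪g', S x⟫ = ⟪g, x⟫` for all `x`.

In `E = EuclideanSpace ℝ (Fin N ⊕ (β × Fin d) ⊕ Unit)` (coordinates: a vector of `ℝ^N`, a vector of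
`ℝ^d` for every `b ∈ β`, and a number) let
`v (b, y) = (  (1 + ⟪p y - q, q⟫ / R^2) • z b ;  S (p y - q) in slot b, 0 in the other slots ;  1 )`.

1. For `x = p y - p y'`: `‖v (b,y) - v (b,y')‖^2 = (⟪x,q⟫/R^2)^2 R^2 + ‖S x‖^2 = ‖x‖^2`.
2. `W b := ∑ y, α y • v (b, y) = (z b ; 0 ; 1)` because `∑ α y • (p y - q) = 0`, `∑ α = 1`.
   So `‖W b - W b'‖ = ‖z b - z b'‖`, `‖W b‖^2 = R^2 + 1`.
3. With `x = p y - q`: `‖v (b,y) - W b‖^2 = ⟪x,q⟫^2 / R^2 + ‖S x‖^2 = ‖x‖^2`.
4. With `x = p y - q`: `‖v (b,y)‖^2 = R^2 (1 + ⟪x,q⟫/R^2)^2 + ‖S x‖^2 + 1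
   = R^2 + 2 ⟪x,q⟫ + ‖x‖^2 + 1 = R^2 + ‖x + q‖^2 - ‖q‖^2 + 1 = R^2 + 1`.
5. `⟪(0;0;1), v (b,y)⟫ = 1`.
6. If `∑ α δ = 0` take `g` with `⟪g, p y - q⟫ = δ y` (`hspan`); then
   `⟪(0; g' in slot w; 0), v (b,y)⟫ = if b = w then ⟪g', S (p y - q)⟫ = δ y else 0`.
-/

namespace Vale.Agent.Lib.P058

/-- the vector with the three given components -/
private noncomputable def geomVec {β : Type} {N d : ℕ} (a : EuclideanSpace ℝ (Fin N))
    (X : β → EuclideanSpace ℝ (Fin d)) (t : ℝ) :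
    EuclideanSpace ℝ (Fin N ⊕ (β × Fin d) ⊕ Unit) :=
  WithLp.toLp 2 (Sum.elim (fun i => a i) (Sum.elim (fun k => X k.1 k.2) (fun _ => t)))

private theorem geomVec_inner {β : Type} [Fintype β] {N d : ℕ}
    (a a' : EuclideanSpace ℝ (Fin N)) (X X' : β → EuclideanSpace ℝ (Fin d)) (t t' : ℝ) :
    inner ℝ (geomVec a X t) (geomVec a' X' t')
      = inner ℝ a a' + (∑ b, inner ℝ (X b) (X' b)) + t * t' := by
  simp only [geomVec, PiLp.inner_apply, Fintype.sum_sum_type, Sum.elim_inl, Sum.elim_inr,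
    Fintype.sum_prod_type]
  simp
  ring

private theorem geomVec_norm {β : Type} [Fintype β] {N d : ℕ}
    (a : EuclideanSpace ℝ (Fin N)) (X : β → EuclideanSpace ℝ (Fin d)) (t : ℝ) :
    ‖geomVec a X t‖ ^ 2 = ‖a‖ ^ 2 + (∑ b, ‖X b‖ ^ 2) + t ^ 2 := by
  have h := geomVec_inner a a X X t t
  simp only [real_inner_self_eq_norm_sq] at h
  rw [h]
  ring

private theorem geomVec_sub {β : Type} {N d : ℕ}
    (a a' : EuclideanSpace ℝ (Fin N)) (X X' : β → EuclideanSpace ℝ (Fin d)) (t t' : ℝ) :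
    geomVec a X t - geomVec a' X' t' = geomVec (a - a') (fun b => X b - X' b) (t - t') := by
  ext k
  rcases k with k | k | k <;> simp [geomVec]

private theorem geomVec_sum {β Y : Type} [Fintype Y] {N d : ℕ} (c : Y → ℝ)
    (a : Y → EuclideanSpace ℝ (Fin N)) (X : Y → β → EuclideanSpace ℝ (Fin d)) (t : Y → ℝ) :
    ∑ y, c y • geomVec (a y) (X y) (t y)
      = geomVec (∑ y, c y • a y) (fun b => ∑ y, c y • X y b) (∑ y, c y * t y) := by
  ext k
  rcases k with k | k | k <;> simp [geomVec]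

private theorem geomVec_slot {β : Type} [Fintype β] [DecidableEq β] {d : ℕ} (b : β)
    (x : EuclideanSpace ℝ (Fin d)) :
    ∑ b', ‖(if b' = b then x else 0 : EuclideanSpace ℝ (Fin d))‖ ^ 2 = ‖x‖ ^ 2 := by
  rw [Finset.sum_eq_single b]
  · simp
  · intro b' _ hb'
    simp [hb']
  · intro h
    exact absurd (Finset.mem_univ b) h

private theorem geom_eq_of_sq {x y : ℝ} (hx : 0 ≤ x) (hy : 0 ≤ y) (h : x ^ 2 = y ^ 2) : x = y := by
  exact (pow_left_inj₀ hx hy two_ne_zero).1 h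

theorem geometry {β Y : Type} [Fintype β] [DecidableEq β] [Fintype Y] {N d : ℕ}
    (p : Y → EuclideanSpace ℝ (Fin d)) (q : EuclideanSpace ℝ (Fin d)) (α : Y → ℝ)
    (hsum : ∑ y, α y = 1) (hq : ∑ y, α y • p y = q) (ρ : ℝ) (hp : ∀ y, ‖p y‖ = ρ) (hqρ : ‖q‖ = ρ)
    (hspan : ∀ δ : Y → ℝ, ∑ y, α y * δ y = 0 →
      ∃ g : EuclideanSpace ℝ (Fin d), ∀ y, inner ℝ g (p y - q) = δ y)
    (z : β → EuclideanSpace ℝ (Fin N)) (R : ℝ) (hR : ρ < R) (hz : ∀ b, ‖z b‖ = R) :
    ∃ (v : β × Y → EuclideanSpace ℝ (Fin N ⊕ (β × Fin d) ⊕ Unit)) (R1 : ℝ),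
      (∀ j, ‖v j‖ = R1) ∧
      (∀ b y y', dist (v (b, y)) (v (b, y')) = dist (p y) (p y')) ∧
      (∀ b y, dist (∑ y', α y' • v (b, y')) (v (b, y)) = dist q (p y)) ∧
      (∀ b b', dist (∑ y, α y • v (b, y)) (∑ y, α y • v (b', y)) = dist (z b) (z b')) ∧
      (∀ b, ‖∑ y, α y • v (b, y)‖ = R1) ∧
      (∃ g, ∀ j, inner ℝ g (v j) = (1 : ℝ)) ∧
      (∀ (w : β) (δ : Y → ℝ), ∑ y, α y * δ y = 0 →
        ∃ g, ∀ j : β × Y, inner ℝ g (v j) = if j.1 = w then δ j.2 else 0) := by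
  have hρ0 : 0 ≤ ρ := hqρ ▸ norm_nonneg q
  have hR0 : 0 < R := lt_of_le_of_lt hρ0 hR
  have hRne : R ≠ 0 := hR0.ne'
  obtain ⟨S, hS, hSg⟩ := exists_S q R (by rw [hqρ]; exact hR)
  have hzero : ∑ y, α y • (p y - q) = 0 := by
    simp only [smul_sub, Finset.sum_sub_distrib, hq, ← Finset.sum_smul, hsum, one_smul, sub_self]
  have hzi : ∑ y, α y * (1 + inner ℝ (p y - q) q / R ^ 2) = 1 := by
    have h1 : ∑ y, α y * inner ℝ (p y - q) q = 0 := by
      have h2 : inner ℝ (∑ y, α y • (p y - q)) q = (0 : ℝ) := by rw [hzero, inner_zero_left]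
      rw [sum_inner] at h2
      simpa only [real_inner_smul_left] using h2
    have h3 : ∀ y, α y * (1 + inner ℝ (p y - q) q / R ^ 2)
        = α y + (α y * inner ℝ (p y - q) q) / R ^ 2 := fun y => by ring
    simp only [h3, Finset.sum_add_distrib, hsum, ← Finset.sum_div, h1]
    simp
  have hsphere : ∀ y, ‖p y - q‖ ^ 2 + 2 * inner ℝ (p y - q) q = 0 := by
    intro y
    have h1 : ‖(p y - q) + q‖ ^ 2 = ‖p y - q‖ ^ 2 + 2 * inner ℝ (p y - q) q + ‖q‖ ^ 2 :=
      norm_add_sq_real _ _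
    rw [sub_add_cancel, hp, hqρ] at h1
    linarith
  set v : β × Y → EuclideanSpace ℝ (Fin N ⊕ (β × Fin d) ⊕ Unit) := fun j =>
    geomVec ((1 + inner ℝ (p j.2 - q) q / R ^ 2) • z j.1)
      (fun b' => if b' = j.1 then S (p j.2 - q) else 0) 1 with hv
  have hW : ∀ b, ∑ y, α y • v (b, y) = geomVec (z b) (fun _ => 0) 1 := by
    intro b
    simp only [hv]
    rw [geomVec_sum]
    congr 1
    · simp only [smul_smul, ← Finset.sum_smul, hzi, one_smul]
    · funext b'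
      by_cases hb : b' = b
      · simp only [hb, if_true, ← map_smul, ← map_sum, hzero, map_zero]
      · simp [hb]
    · simpa using hsum
  have hvn : ∀ j, ‖v j‖ ^ 2 = R ^ 2 + 1 := by
    intro j
    simp only [hv]
    rw [geomVec_norm, geomVec_slot, hS, norm_smul, mul_pow, hz, Real.norm_eq_abs, sq_abs]
    have h1 := hsphere j.2
    field_simp
    nlinarith [h1]
  have hWn : ∀ b, ‖∑ y, α y • v (b, y)‖ ^ 2 = R ^ 2 + 1 := by
    intro b
    rw [hW, geomVec_norm, hz]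
    simp
  have hR1 : 0 ≤ R ^ 2 + 1 := by positivity
  refine ⟨v, Real.sqrt (R ^ 2 + 1), ?_, ?_, ?_, ?_, ?_, ?_, ?_⟩
  · intro j
    rw [← hvn j, Real.sqrt_sq (norm_nonneg _)]
  · intro b y y'
    rw [dist_eq_norm, dist_eq_norm]
    apply geom_eq_of_sq (norm_nonneg _) (norm_nonneg _)
    simp only [hv]
    rw [geomVec_sub, geomVec_norm, ← sub_smul]
    have e1 : (fun b' => (if b' = b then S (p y - q) else 0)
        - (if b' = b then S (p y' - q) else 0 : EuclideanSpace ℝ (Fin d)))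
        = fun b' => if b' = b then S (p y - p y') else 0 := by
      funext b'
      by_cases hb : b' = b
      · simp only [hb, if_true, ← map_sub]
        congr 1
        abel
      · simp [hb]
    have e2 : (1 + inner ℝ (p y - q) q / R ^ 2) - (1 + inner ℝ (p y' - q) q / R ^ 2)
        = inner ℝ (p y - p y') q / R ^ 2 := by
      have : inner ℝ (p y - p y') q = (inner ℝ (p y - q) q : ℝ) - inner ℝ (p y' - q) q := by
        rw [← inner_sub_left]
        congr 1
        abel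
      rw [this]
      ring
    have e3 : ∑ b', ‖(if b' = b then S (p y - q) else 0)
        - (if b' = b then S (p y' - q) else 0 : EuclideanSpace ℝ (Fin d))‖ ^ 2
        = ‖S (p y - p y')‖ ^ 2 := by
      have := geomVec_slot b (S (p y - p y'))
      rw [← this]
      exact Finset.sum_congr rfl fun b' _ => by rw [← congrFun e1 b']
    rw [e2, e3, hS, norm_smul, mul_pow, hz, Real.norm_eq_abs, sq_abs]
    field_simp
    ring
  · intro b y
    rw [hW, dist_comm, dist_comm q, dist_eq_norm, dist_eq_norm]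
    apply geom_eq_of_sq (norm_nonneg _) (norm_nonneg _)
    simp only [hv]
    rw [geomVec_sub, geomVec_norm]
    have e2 : (1 + inner ℝ (p y - q) q / R ^ 2) • z b - z b
        = (inner ℝ (p y - q) q / R ^ 2) • z b := by
      rw [add_smul, one_smul, add_sub_cancel_left]
    have e3 : ∑ b', ‖(if b' = b then S (p y - q) else 0 : EuclideanSpace ℝ (Fin d)) - 0‖ ^ 2
        = ‖S (p y - q)‖ ^ 2 := by
      have := geomVec_slot b (S (p y - q))
      rw [← this]
      exact Finset.sum_congr rfl fun b' _ => by rw [sub_zero]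
    rw [e2, e3, hS, norm_smul, mul_pow, hz, Real.norm_eq_abs, sq_abs]
    field_simp
    ring
  · intro b b'
    rw [hW, hW, dist_eq_norm, dist_eq_norm]
    apply geom_eq_of_sq (norm_nonneg _) (norm_nonneg _)
    rw [geomVec_sub, geomVec_norm]
    simp
  · intro b
    rw [← hWn b, Real.sqrt_sq (norm_nonneg _)]
  · refine ⟨geomVec 0 (fun _ => 0) 1, fun j => ?_⟩
    simp only [hv]
    rw [geomVec_inner]
    simp
  · intro w δ hδ
    obtain ⟨g, hg⟩ := hspan δ hδ
    obtain ⟨g', hg'⟩ := hSg g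
    refine ⟨geomVec 0 (fun b' => if b' = w then g' else 0) 0, fun j => ?_⟩
    simp only [hv]
    rw [geomVec_inner]
    by_cases hj : j.1 = w
    · rw [if_pos hj, Finset.sum_eq_single w]
      · rw [if_pos rfl, if_pos hj.symm, hg', hg]
        simp
      · intro b' _ hb'
        simp [hb']
      · intro h
        exact absurd (Finset.mem_univ w) h
    · rw [if_neg hj, Finset.sum_eq_zero]
      · simp
      · intro b' _
        by_cases hb' : b' = w
        · have : ¬ w = j.1 := fun h => hj h.symm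
          simp [hb', this]
        · simp [hb']

end Vale.Agent.Lib.P058
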