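import Vale.Agent.Lib.P058.Step
import Vale.Agent.Lib.P058.Galois

/-!
# P058: Euclidean Ramsey sets, definitions of the problem and main theorems
-/

namespace Vale.Agent.Lib.P058

/-- `A ⊂ ℝ^d` is Ramsey: for every `r ≥ 2` there is `D ≥ 1` such that every map
`c : ℝ^D → {1, …, r}` is constant on some set congruent to `A`. -/
def IsRamsey {d : ℕ} (A : Set (EuclideanSpace ℝ (Fin d))) : Prop :=
  ∀ r : ℕ, 2 ≤ r → ∃ D : ℕ, 1 ≤ D ∧ ∀ c : EuclideanSpace ℝ (Fin D) → Fin r,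
    ∃ f : A → EuclideanSpace ℝ (Fin D), Isometry f ∧ ∀ x y : A, c (f x) = c (f y)

/-- `A` lies on a sphere. -/
def IsSpherical {d : ℕ} (A : Set (EuclideanSpace ℝ (Fin d))) : Prop :=
  ∃ (z : EuclideanSpace ℝ (Fin d)) (ρ : ℝ), ∀ x ∈ A, dist x z = ρ

/-- The isometries of `ℝ^n` mapping `X` onto itself act transitively on `X`. -/
def IsTransitiveSet {n : ℕ} (X : Set (EuclideanSpace ℝ (Fin n))) : Prop :=
  ∀ x ∈ X, ∀ y ∈ X, ∃ g : EuclideanSpace ℝ (Fin n) ≃ᵢ EuclideanSpace ℝ (Fin n),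
    g '' X = X ∧ g x = y

/-- `A` is congruent to a subset of a finite transitive set. -/
def IsSubtransitive {d : ℕ} (A : Set (EuclideanSpace ℝ (Fin d))) : Prop :=
  ∃ (n : ℕ) (X : Set (EuclideanSpace ℝ (Fin n))), X.Finite ∧ IsTransitiveSet X ∧
    ∃ f : A → EuclideanSpace ℝ (Fin n), Isometry f ∧ ∀ x, f x ∈ X

end Vale.Agent.Lib.P058
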