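import Vale.Agent.Lib.P058.Main
import Vale.Agent.Lib.P058.ApexCoeffs

/-!
# P058, module Main2: from `SRam` to `IsRamsey`
-/

namespace Vale.Agent.Lib.P058

theorem isRamsey_of_sram {d d' : ℕ} {I : Type} (A : Set (EuclideanSpace ℝ (Fin d)))
    (a : I → EuclideanSpace ℝ (Fin d')) (e : A → I)
    (he : ∀ x y : A, dist (a (e x)) (a (e y)) = dist x y) (h : ∀ r, SRam r a) : IsRamsey A := by
  intro r hr
  obtain ⟨n, Z, R, hR, hne, hZR, hZ⟩ := h r 0
  obtain ⟨z, hz⟩ := hne
  have hn : 1 ≤ n := by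
    rcases Nat.eq_zero_or_pos n with h0 | h0
    · subst h0
      have h1 := hZR z hz
      have h2 : z = 0 := Subsingleton.elim _ _
      rw [h2, norm_zero] at h1
      linarith
    · exact h0
  refine ⟨n, hn, fun c => ?_⟩
  obtain ⟨f, hfZ, hfd, hfχ⟩ := hZ (fun x => (c x).val) (Finset.range r) (by simp)
    (fun x _ => Finset.mem_range.2 (c x).isLt)
  refine ⟨fun x => f (e x), Isometry.of_dist_eq fun x y => ?_, fun x y => Fin.ext ?_⟩
  · rw [hfd, he]
  · exact hfχ _ _

/-- Every spherical set `A` with a point `q` such that `A \ {q}` is affinely independent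
and affinely spans `q`, is Ramsey. -/
theorem isRamsey_of_affineIndependent {d : ℕ} (A : Set (EuclideanSpace ℝ (Fin d)))
    (hfin : A.Finite) (hsph : IsSpherical A) (q : EuclideanSpace ℝ (Fin d)) (hq : q ∈ A)
    (hind : AffineIndependent ℝ (fun x : {x // x ∈ A ∧ x ≠ q} => (x : EuclideanSpace ℝ (Fin d))))
    (hspan : q ∈ affineSpan ℝ (A \ {q})) : IsRamsey A := by
  classical
  obtain ⟨z, ρ, hρ⟩ := hsph
  let Y : Type := {x // x ∈ A ∧ x ≠ q}
  have hYfin : Finite Y := (hfin.subset (fun x hx => hx.1) : {x | x ∈ A ∧ x ≠ q}.Finite).to_subtype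
  have : Fintype Y := Fintype.ofFinite Y
  let p : Y → EuclideanSpace ℝ (Fin d) := fun y => y.1 - z
  have hind' : AffineIndependent ℝ p := by
    have h1 := (AffineIndependent.map' (k := ℝ) hind
      ((AffineEquiv.constVAdd ℝ (EuclideanSpace ℝ (Fin d)) (-z)).toAffineMap)
      (AffineEquiv.constVAdd ℝ (EuclideanSpace ℝ (Fin d)) (-z)).injective)
    convert h1 using 1
    funext y
    simp only [p, Function.comp_apply, AffineEquiv.coe_toAffineMap, AffineEquiv.constVAdd_apply,
      vadd_eq_add]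
    abel
  have hspan' : q - z ∈ affineSpan ℝ (Set.range p) := by
    have h1 : q - z ∈ (affineSpan ℝ (A \ {q})).map
        ((AffineEquiv.constVAdd ℝ (EuclideanSpace ℝ (Fin d)) (-z)).toAffineMap) := by
      refine (AffineSubspace.mem_map).2 ⟨q, hspan, ?_⟩
      simp only [AffineEquiv.coe_toAffineMap, AffineEquiv.constVAdd_apply, vadd_eq_add]
      abel
    rw [AffineSubspace.map_span] at h1
    refine affineSpan_mono ℝ ?_ h1
    rintro _ ⟨x, hx, rfl⟩
    refine ⟨⟨x, hx.1, hx.2⟩, ?_⟩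
    simp only [p, AffineEquiv.coe_toAffineMap, AffineEquiv.constVAdd_apply, vadd_eq_add]
    abel
  obtain ⟨α, h1, h2, h3, h4⟩ := apex_coeffs p (q - z) ρ
    (fun y => by simpa [p, dist_eq_norm] using hρ _ y.2.1)
    (by simpa [dist_eq_norm] using hρ _ hq)
    (fun y h => y.2.2 (by simpa [p] using h)) hind' hspan'
  let a : Option Y → EuclideanSpace ℝ (Fin d) := fun i => Option.elim i (q - z) p
  let e : A → Option Y := fun x => if h : (x : EuclideanSpace ℝ (Fin d)) = q then none
    else some ⟨x, x.2, h⟩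
  have hae : ∀ x : A, a (e x) = (x : EuclideanSpace ℝ (Fin d)) - z := by
    intro x
    by_cases h : (x : EuclideanSpace ℝ (Fin d)) = q
    · simp [e, h, a]
    · simp [e, h, a, p]
  refine isRamsey_of_sram A a e (fun x y => ?_) (fun r =>
    sram_all p (q - z) α h1 h2 ρ (fun y => by simpa [p, dist_eq_norm] using hρ _ y.2.1)
    (by simpa [dist_eq_norm] using hρ _ hq) h3 h4 a rfl (fun y => rfl) r)
  rw [hae, hae, dist_sub_right]
  rfl

theorem isRamsey_mono {d d' : ℕ} {A : Set (EuclideanSpace ℝ (Fin d))}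
    {A' : Set (EuclideanSpace ℝ (Fin d'))} (f : A → A') (hf : Isometry f) (h : IsRamsey A') :
    IsRamsey A := by
  intro r hr
  obtain ⟨D, hD, hc⟩ := h r hr
  refine ⟨D, hD, fun c => ?_⟩
  obtain ⟨g, hg, hgc⟩ := hc c
  exact ⟨fun x => g (f x), hg.comp hf, fun x y => hgc _ _⟩

end Vale.Agent.Lib.P058
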