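import Vale.Agent.Lib.P058.Units

/-!
# P058, module NullA: class-level elements of `F0` are null

`F0` is the normal subgroup generated by the `a_x * a_y⁻¹`.
Costs are nonnegative (`InP.nonneg`) and add up.

(N1) `Null` is stable under products (costs `≤ η / 2`) and under
`v ↦ const b * v * const b⁻¹` (constants cost `0`).

(N2) For `y : Y`, `x x' : ℝ` the class-level element `[a_x * a_{x'}⁻¹]_y` (value `a_x * a_{x'}⁻¹`
in the rows `(w, y)`, all `w`, and `1` in the other rows) is null.  For reals `s, s'` the element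
`[a_s * a_{s'}⁻¹]_y` is `colF c * const a_{s'}⁻¹`, `c = s` on the class `y` and `s'` elsewhere, which
is in `V` (`unit_const`, all groups have the same sum), and its cost is `≤ (s - s') ^ 2`.
With `M` steps `x_k = x' + (k / M) * (x - x')`, the product
`(a_{x_M} a_{x_{M-1}}⁻¹) * ... * (a_{x_1} a_{x_0}⁻¹)` telescopes to `a_x a_{x'}⁻¹` and the total
cost is `≤ M * ((x - x') / M) ^ 2 → 0`.
Since `(a_x a_{x'}⁻¹)⁻¹ = a_{x'} a_x⁻¹`, its inverse is null too.
By induction over `F0` (`Subgroup.closure_induction` /
`Subgroup.normalClosure`, `Group.conjugatesOfSet`): `[g]_y` is null for every `g ∈ F0`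
(prove it together with the inverse).
-/

namespace Vale.Agent.Lib.P058

/-- the normal subgroup generated by the `a_x * a_y⁻¹` -/
def F0 : Subgroup (FreeGroup ℝ) :=
  Subgroup.normalClosure {g | ∃ x y : ℝ, g = FreeGroup.of x * (FreeGroup.of y)⁻¹}

theorem Null.mul {J : Type} {V : Set (J → ℝ)} {v v' : J → FreeGroup ℝ} (h : Null V v)
    (h' : Null V v') : Null V (v * v') := by
  intro η hη
  obtain ⟨D, hD, hle⟩ := h (η / 2) (by linarith)
  obtain ⟨D', hD', hle'⟩ := h' (η / 2) (by linarith)
  refine ⟨D + D', InP.mul hD hD', fun i j => ?_⟩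
  have := hle i j
  have := hle' i j
  simp only [Pi.add_apply]
  linarith

variable {β Y : Type} [Fintype Y] [DecidableEq Y] [Fintype β] [DecidableEq β] {α : Y → ℝ}
  {V : Submodule ℝ (β × Y → ℝ)}

theorem nullA_step (hV : GoodV α V) (y : Y) (s s' : ℝ) :
    ∃ D : β × Y → β × Y → ℝ, InP (V : Set (β × Y → ℝ))
      (fun j => if j.2 = y then FreeGroup.of s * (FreeGroup.of s')⁻¹ else 1) D ∧
        ∀ i j, D i j ≤ (s - s') ^ 2 := by
  set c : β × Y → ℝ := fun j => if j.2 = y then s else s' with hc
  have hcV : c ∈ V := (unit_const hV c (∑ z, α z * (if z = y then s else s'))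
    (fun w => rfl)).1
  refine ⟨Dm c + 0, (InP.mul (InP.col c hcV) (InP.const (FreeGroup.of s')⁻¹)).of_eq ?_ rfl, ?_⟩
  · funext j
    simp only [Pi.mul_apply, colF, hc]
    by_cases h : j.2 = y
    · simp [h]
    · simp [h]
  · intro i j
    simp only [Pi.add_apply, Pi.zero_apply, add_zero, Dm, hc]
    by_cases hi : i.2 = y <;> by_cases hj : j.2 = y
    · simp only [hi, hj, if_true, sub_self]
      nlinarith only [sq_nonneg (s - s')]
    · simp only [hi, hj, if_true, if_false]
      exact le_refl _
    · simp only [hi, hj, if_true, if_false]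
      nlinarith only
    · simp only [hi, hj, if_false, sub_self]
      nlinarith only [sq_nonneg (s - s')]

theorem nullA_chain (hV : GoodV α V) (y : Y) (x' h : ℝ) (n : ℕ) :
    ∃ D : β × Y → β × Y → ℝ, InP (V : Set (β × Y → ℝ))
      (fun j => if j.2 = y then FreeGroup.of (x' + n * h) * (FreeGroup.of x')⁻¹ else 1) D ∧
        ∀ i j, D i j ≤ n * h ^ 2 := by
  induction n with
  | zero =>
    refine ⟨0, (InP.const 1).of_eq ?_ rfl, ?_⟩
    · funext j
      simp
    · intro i j
      simp
  | succ n ih =>
    obtain ⟨D, hD, hle⟩ := ih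
    obtain ⟨D', hD', hle'⟩ := nullA_step hV y (x' + (n + 1 : ℕ) * h) (x' + n * h)
    refine ⟨D' + D, (InP.mul hD' hD).of_eq ?_ rfl, ?_⟩
    · funext j
      simp only [Pi.mul_apply]
      by_cases hj : j.2 = y
      · simp only [hj, if_true]
        group
      · simp [hj]
    · intro i j
      have h1 := hle i j
      have h2 := hle' i j
      have h3 : x' + ((n + 1 : ℕ) : ℝ) * h - (x' + n * h) = h := by push_cast; ring
      rw [h3] at h2
      simp only [Pi.add_apply]
      push_cast
      linarith

theorem nullA_letters (hV : GoodV α V) (y : Y) (x x' : ℝ) :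
    Null (V : Set (β × Y → ℝ))
      (fun j => if j.2 = y then FreeGroup.of x * (FreeGroup.of x')⁻¹ else 1) := by
  intro η hη
  obtain ⟨M, hM⟩ := exists_nat_gt ((x - x') ^ 2 / η)
  have hM0 : (0 : ℝ) < M := lt_of_le_of_lt (by positivity) hM
  obtain ⟨D, hD, hle⟩ := nullA_chain hV y x' ((x - x') / M) M
  refine ⟨D, hD.of_eq ?_ rfl, fun i j => (hle i j).trans ?_⟩
  · have h1 : x' + (M : ℝ) * ((x - x') / M) = x := by
      field_simp
      ring
    rw [h1]
  · have h2 : (M : ℝ) * ((x - x') / M) ^ 2 = (x - x') ^ 2 / M := by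
      field_simp
    rw [h2, div_le_iff₀ hM0]
    rw [div_lt_iff₀ hη] at hM
    linarith

theorem Null.const {J : Type} (V : Set (J → ℝ)) (b : FreeGroup ℝ) : Null V (fun _ => b) := by
  intro η hη
  exact ⟨0, InP.const b, fun i j => hη.le⟩

theorem null_class (hV : GoodV α V) (y : Y) (g : FreeGroup ℝ) (hg : g ∈ F0) :
    Null (V : Set (β × Y → ℝ)) (fun j => if j.2 = y then g else 1) := by
  suffices h : Null (V : Set (β × Y → ℝ)) (fun j => if j.2 = y then g else 1) ∧
      Null (V : Set (β × Y → ℝ)) (fun j => if j.2 = y then g⁻¹ else 1) from h.1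
  have hcongr : ∀ {v v' : β × Y → FreeGroup ℝ}, v = v' → Null (V : Set (β × Y → ℝ)) v →
      Null (V : Set (β × Y → ℝ)) v' := by
    intro v v' h hn
    rwa [h] at hn
  unfold F0 Subgroup.normalClosure at hg
  induction hg using Subgroup.closure_induction with
  | mem g hg =>
    obtain ⟨a, ⟨x, x', rfl⟩, hconj⟩ := Group.mem_conjugatesOfSet_iff.mp hg
    obtain ⟨b, hb⟩ := isConj_iff.mp hconj
    subst hb
    constructor
    · refine hcongr ?_ (((Null.const _ b).mul (nullA_letters hV y x x')).mul (Null.const _ b⁻¹))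
      funext j
      simp only [Pi.mul_apply]
      by_cases hj : j.2 = y
      · simp [hj]
      · simp [hj]
    · refine hcongr ?_ (((Null.const _ b).mul (nullA_letters hV y x' x)).mul (Null.const _ b⁻¹))
      funext j
      simp only [Pi.mul_apply]
      by_cases hj : j.2 = y
      · simp only [hj, if_true]
        group
      · simp [hj]
  | one =>
    constructor
    · refine hcongr ?_ (Null.const _ 1)
      funext j
      simp
    · refine hcongr ?_ (Null.const _ 1)
      funext j
      simp
  | mul g h _ _ ihg ihh =>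
    constructor
    · refine hcongr ?_ (ihg.1.mul ihh.1)
      funext j
      simp only [Pi.mul_apply]
      by_cases hj : j.2 = y
      · simp [hj]
      · simp [hj]
    · refine hcongr ?_ (ihh.2.mul ihg.2)
      funext j
      simp only [Pi.mul_apply]
      by_cases hj : j.2 = y
      · simp [hj]
      · simp [hj]
  | inv g _ ih =>
    refine ⟨ih.2, ?_⟩
    refine hcongr ?_ ih.1
    funext j
    simp

end Vale.Agent.Lib.P058
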