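import Vale.Agent.Lib.P058.NullA

/-!
# P058, module NullB: accessible elements

(N3) Fix a row `(w, y)` and `y' ≠ y` with `α y' ≠ 0`.
Accessible elements are stable under products, inverses, conjugation by every `b` (multiply `E`
on both sides by the constants `b`, `b⁻¹`, which cost nothing).
`a_x * a_{x'}⁻¹` is accessible: let `κ = - α y / α y'`, and
`c⁰ = ((w, y) : 1, (w, y') : κ, 0 elsewhere)`; `∑ y, α y * c⁰ (w', y) = 0` for all `w'`, so `c⁰ ∈ V` and
`E⁰ = colF c⁰ * const a_0⁻¹` and its inverse have `InP` with some costs with entries `≤ B`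
(`unit_const`).
Applying the affine letter map `x ↦ m + δ x` (`InP.affine`) gives `E_{m,δ}` (rows:
`a_{m+δ} a_m⁻¹` at `(w, y)`, `a_{m+κδ} a_m⁻¹` at `(w, y')`, `1` elsewhere) and
`E_{m,δ}⁻¹` with costs `≤ B * δ ^ 2`.  With `M` steps from `x'` to `x`, `δ = (x - x') / M`,
`m_k = x' + k δ`, the product `E_{m_{M-1},δ} * ... * E_{m_0,δ}` has `a_x a_{x'}⁻¹` at `(w, y)`, something
at `(w, y')`, `1` elsewhere, and cost `≤ M * B * δ ^ 2 → 0`; the same for the inverse (product of the
`E_{m_k,δ}⁻¹` in the other order).  Prove by induction on the number `k` of steps.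
So all `e ∈ F0` are accessible (`Subgroup.closure_induction`, `Subgroup.normalClosure`).
-/

namespace Vale.Agent.Lib.P058

/-- `e` at the row `(w, y)`, anything at `(w, y')`, and `1` elsewhere, with inverse, at small cost -/
def Accessible {β Y : Type} (V : Set (β × Y → ℝ)) (w : β) (y y' : Y) (e : FreeGroup ℝ) : Prop :=
  ∀ η : ℝ, 0 < η → ∃ (E : β × Y → FreeGroup ℝ) (D D' : β × Y → β × Y → ℝ),
    InP V E D ∧ InP V E⁻¹ D' ∧ (∀ i j, D i j ≤ η) ∧ (∀ i j, D' i j ≤ η) ∧ E (w, y) = e ∧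
      ∀ j, j ≠ (w, y) → j ≠ (w, y') → E j = 1

section Closure

variable {β Y : Type} {V : Set (β × Y → ℝ)} {w : β} {y y' : Y}

theorem Accessible.one : Accessible V w y y' 1 := by
  intro η hη
  refine ⟨1, 0, 0, InP.one V, (InP.one V).of_eq (by simp) rfl, fun i j => hη.le,
    fun i j => hη.le, rfl, fun j _ _ => rfl⟩

theorem Accessible.mul {e e' : FreeGroup ℝ} (h : Accessible V w y y' e)
    (h' : Accessible V w y y' e') : Accessible V w y y' (e * e') := by
  intro η hη
  obtain ⟨E, D, D1, h1, h2, h3, h4, h5, h6⟩ := h (η / 2) (by linarith)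
  obtain ⟨E', D', D1', h1', h2', h3', h4', h5', h6'⟩ := h' (η / 2) (by linarith)
  refine ⟨E * E', D + D', D1' + D1, InP.mul h1 h1', (InP.mul h2' h2).of_eq (by rw [mul_inv_rev]) rfl,
    fun i j => ?_, fun i j => ?_, ?_, fun j hj hj' => ?_⟩
  · have := h3 i j
    have := h3' i j
    simp only [Pi.add_apply]
    linarith
  · have := h4 i j
    have := h4' i j
    simp only [Pi.add_apply]
    linarith
  · simp only [Pi.mul_apply, h5, h5']
  · simp only [Pi.mul_apply, h6 j hj hj', h6' j hj hj', mul_one]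

theorem Accessible.inv {e : FreeGroup ℝ} (h : Accessible V w y y' e) :
    Accessible V w y y' e⁻¹ := by
  intro η hη
  obtain ⟨E, D, D1, h1, h2, h3, h4, h5, h6⟩ := h η hη
  refine ⟨E⁻¹, D1, D, h2, h1.of_eq (inv_inv E).symm rfl, h4, h3, ?_, fun j hj hj' => ?_⟩
  · simp only [Pi.inv_apply, h5]
  · simp only [Pi.inv_apply, h6 j hj hj', inv_one]

theorem Accessible.conj {e : FreeGroup ℝ} (h : Accessible V w y y' e) (b : FreeGroup ℝ) :
    Accessible V w y y' (b * e * b⁻¹) := by
  intro η hη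
  obtain ⟨E, D, D1, h1, h2, h3, h4, h5, h6⟩ := h η hη
  refine ⟨(fun _ => b) * E * (fun _ => b⁻¹), 0 + D + 0, 0 + D1 + 0,
    InP.mul (InP.mul (InP.const b) h1) (InP.const b⁻¹),
    (InP.mul (InP.mul (InP.const b) h2) (InP.const b⁻¹)).of_eq ?_ rfl,
    fun i j => ?_, fun i j => ?_, ?_, fun j hj hj' => ?_⟩
  · funext j
    simp only [Pi.mul_apply, Pi.inv_apply]
    group
  · simpa using h3 i j
  · simpa using h4 i j
  · simp only [Pi.mul_apply, h5]
  · simp only [Pi.mul_apply, h6 j hj hj']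
    group

end Closure

variable {β Y : Type} [Fintype Y] [DecidableEq Y] [Fintype β] [DecidableEq β] {α : Y → ℝ}
  {V : Submodule ℝ (β × Y → ℝ)}

/-- the basic column -/
noncomputable def nullB_col (α : Y → ℝ) (w : β) (y y' : Y) (j : β × Y) : ℝ :=
  if j.1 = w then (if j.2 = y then 1 else if j.2 = y' then -α y / α y' else 0) else 0

omit [Fintype β] in
theorem nullB_col_sum (w : β) (y y' : Y) (hy : y' ≠ y) (hα : α y' ≠ 0) (w' : β) :
    ∑ z, α z * nullB_col α w y y' (w', z) = 0 := by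
  unfold nullB_col
  by_cases hw : w' = w
  · simp only [if_pos hw]
    have h1 : ∀ z, α z * (if z = y then (1 : ℝ) else if z = y' then -α y / α y' else 0) =
        (if z = y then α y else 0) + (if z = y' then -α y else 0) := by
      intro z
      by_cases hz : z = y
      · subst hz
        have : ¬ z = y' := fun h => hy h.symm
        simp [this]
      · by_cases hz' : z = y'
        · subst hz'
          simp only [if_neg hz, if_true, zero_add]
          field_simp
        · simp [hz, hz']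
    rw [Finset.sum_congr rfl fun z _ => h1 z, Finset.sum_add_distrib]
    simp
  · simp [hw]

theorem nullB_step (hV : GoodV α V) (w : β) (y y' : Y) (hy : y' ≠ y) (hα : α y' ≠ 0) :
    ∃ B : ℝ, 0 ≤ B ∧ ∀ m δ : ℝ, ∃ (E : β × Y → FreeGroup ℝ) (D D' : β × Y → β × Y → ℝ),
      InP (V : Set (β × Y → ℝ)) E D ∧ InP (V : Set (β × Y → ℝ)) E⁻¹ D' ∧
      (∀ i j, D i j ≤ δ ^ 2 * B) ∧ (∀ i j, D' i j ≤ δ ^ 2 * B) ∧
      E (w, y) = FreeGroup.of (m + δ) * (FreeGroup.of m)⁻¹ ∧
      ∀ j, j ≠ (w, y) → j ≠ (w, y') → E j = 1 := by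
  obtain ⟨hc, D1, hD1⟩ := unit_const hV (nullB_col α w y y') 0
    (nullB_col_sum w y y' hy hα)
  -- the two elements
  have hE : InP (V : Set (β × Y → ℝ))
      (fun j => FreeGroup.of (nullB_col α w y y' j) * (FreeGroup.of 0)⁻¹)
      (Dm (nullB_col α w y y')) :=
    (InP.mul (InP.col _ hc) (InP.const (FreeGroup.of 0)⁻¹)).of_eq rfl (by simp)
  have hE' : InP (V : Set (β × Y → ℝ))
      (fun j => FreeGroup.of 0 * (FreeGroup.of (nullB_col α w y y' j))⁻¹) D1 :=
    (InP.mul (InP.const (FreeGroup.of 0)) hD1).of_eq rfl (by simp)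
  obtain ⟨B, hB0, hB, hB'⟩ : ∃ B : ℝ, 0 ≤ B ∧
      (∀ i j, Dm (nullB_col α w y y') i j ≤ B) ∧ ∀ i j, D1 i j ≤ B := by
    have h0 : ∀ i j, 0 ≤ Dm (nullB_col α w y y') i j + D1 i j := fun i j =>
      add_nonneg (hE.nonneg i j) (hE'.nonneg i j)
    have h1 : ∀ i j, Dm (nullB_col α w y y') i j + D1 i j ≤
        ∑ i, ∑ j, (Dm (nullB_col α w y y') i j + D1 i j) := by
      intro i j
      calc Dm (nullB_col α w y y') i j + D1 i j
          ≤ ∑ j, (Dm (nullB_col α w y y') i j + D1 i j) :=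
            Finset.single_le_sum (f := fun j => Dm (nullB_col α w y y') i j + D1 i j)
              (fun j _ => h0 i j) (Finset.mem_univ j)
        _ ≤ ∑ i, ∑ j, (Dm (nullB_col α w y y') i j + D1 i j) :=
            Finset.single_le_sum
              (f := fun i => ∑ j, (Dm (nullB_col α w y y') i j + D1 i j))
              (fun i _ => Finset.sum_nonneg fun j _ => h0 i j) (Finset.mem_univ i)
    refine ⟨∑ i, ∑ j, (Dm (nullB_col α w y y') i j + D1 i j),
      Finset.sum_nonneg fun i _ => Finset.sum_nonneg fun j _ => h0 i j, fun i j => ?_,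
      fun i j => ?_⟩
    · have := h1 i j
      have := hE'.nonneg i j
      linarith
    · have := h1 i j
      have := hE.nonneg i j
      linarith
  refine ⟨B, hB0, fun m δ => ?_⟩
  have hone := hV.one_mem
  refine ⟨_, _, _, hE.affine hone m δ, (hE'.affine hone m δ).of_eq ?_ rfl, fun i j => ?_,
    fun i j => ?_, ?_, fun j hj hj' => ?_⟩
  · funext j
    simp
  · simp only [Pi.smul_apply, smul_eq_mul]
    exact mul_le_mul_of_nonneg_left (hB i j) (sq_nonneg δ)
  · simp only [Pi.smul_apply, smul_eq_mul]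
    exact mul_le_mul_of_nonneg_left (hB' i j) (sq_nonneg δ)
  · simp [nullB_col]
  · have h1 : nullB_col α w y y' j = 0 := by
      obtain ⟨j1, j2⟩ := j
      unfold nullB_col
      by_cases hw : j1 = w
      · have h2 : j2 ≠ y := fun h => hj (by rw [hw, h])
        have h3 : j2 ≠ y' := fun h => hj' (by rw [hw, h])
        simp [h2, h3]
      · simp [hw]
    simp [h1]

theorem nullB_steps (hV : GoodV α V) (w : β) (y y' : Y) (hy : y' ≠ y) (hα : α y' ≠ 0) :
    ∃ B : ℝ, 0 ≤ B ∧ ∀ (x δ : ℝ) (k : ℕ),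
      ∃ (E : β × Y → FreeGroup ℝ) (D D' : β × Y → β × Y → ℝ),
      InP (V : Set (β × Y → ℝ)) E D ∧ InP (V : Set (β × Y → ℝ)) E⁻¹ D' ∧
      (∀ i j, D i j ≤ k * (δ ^ 2 * B)) ∧ (∀ i j, D' i j ≤ k * (δ ^ 2 * B)) ∧
      E (w, y) = FreeGroup.of (x + k * δ) * (FreeGroup.of x)⁻¹ ∧
      ∀ j, j ≠ (w, y) → j ≠ (w, y') → E j = 1 := by
  obtain ⟨B, hB0, hB⟩ := nullB_step hV w y y' hy hα
  refine ⟨B, hB0, fun x δ k => ?_⟩
  induction k with
  | zero =>
    refine ⟨1, 0, 0, InP.one _, (InP.one _).of_eq (by simp) rfl, fun i j => by simp,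
      fun i j => by simp, ?_, fun j _ _ => rfl⟩
    simp
  | succ k ih =>
    obtain ⟨E', D', D1', h1', h2', h3', h4', h5', h6'⟩ := ih
    obtain ⟨E, D, D1, h1, h2, h3, h4, h5, h6⟩ := hB (x + k * δ) δ
    refine ⟨E * E', D + D', D1' + D1, InP.mul h1 h1',
      (InP.mul h2' h2).of_eq (by rw [mul_inv_rev]) rfl,
      fun i j => ?_, fun i j => ?_, ?_, fun j hj hj' => ?_⟩
    · have := h3 i j
      have := h3' i j
      simp only [Pi.add_apply]
      push_cast
      linarith
    · have := h4 i j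
      have := h4' i j
      simp only [Pi.add_apply]
      push_cast
      linarith
    · simp only [Pi.mul_apply, h5, h5']
      push_cast
      rw [show x + ((k : ℝ) + 1) * δ = x + k * δ + δ by ring]
      group
    · simp only [Pi.mul_apply, h6 j hj hj', h6' j hj hj', mul_one]

theorem accessible_letter (hV : GoodV α V) (w : β) (y y' : Y) (hy : y' ≠ y) (hα : α y' ≠ 0)
    (x x' : ℝ) : Accessible (V : Set (β × Y → ℝ)) w y y'
      (FreeGroup.of x * (FreeGroup.of x')⁻¹) := by
  obtain ⟨B, hB0, hB⟩ := nullB_steps hV w y y' hy hα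
  intro η hη
  obtain ⟨M, hM⟩ := exists_nat_gt ((x - x') ^ 2 * B / η)
  have hM0 : (0 : ℝ) < (M : ℝ) + 1 := by positivity
  obtain ⟨E, D, D1, h1, h2, h3, h4, h5, h6⟩ := hB x' ((x - x') / ((M : ℝ) + 1)) (M + 1)
  have hle : ((M + 1 : ℕ) : ℝ) * (((x - x') / ((M : ℝ) + 1)) ^ 2 * B) ≤ η := by
    have e1 : ((M + 1 : ℕ) : ℝ) * (((x - x') / ((M : ℝ) + 1)) ^ 2 * B) =
        (x - x') ^ 2 * B / ((M : ℝ) + 1) := by
      push_cast
      field_simp
    rw [e1, div_le_iff₀ hM0]
    rw [div_lt_iff₀ hη] at hM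
    nlinarith
  have hx : x' + ((M + 1 : ℕ) : ℝ) * ((x - x') / ((M : ℝ) + 1)) = x := by
    push_cast
    field_simp
    ring
  rw [hx] at h5
  exact ⟨E, D, D1, h1, h2, fun i j => (h3 i j).trans hle, fun i j => (h4 i j).trans hle, h5, h6⟩

theorem accessible_all (hV : GoodV α V) (w : β) (y y' : Y) (hy : y' ≠ y) (hα : α y' ≠ 0)
    (e : FreeGroup ℝ) (he : e ∈ F0) : Accessible (V : Set (β × Y → ℝ)) w y y' e := by
  let S : Subgroup (FreeGroup ℝ) :=
    { carrier := {e | Accessible (V : Set (β × Y → ℝ)) w y y' e}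
      mul_mem' := fun h h' => Accessible.mul h h'
      one_mem' := Accessible.one
      inv_mem' := fun h => Accessible.inv h }
  have : S.Normal := ⟨fun n hn g => Accessible.conj hn g⟩
  have h : F0 ≤ S := by
    apply Subgroup.normalClosure_le_normal
    rintro g ⟨x, x', rfl⟩
    exact accessible_letter hV w y y' hy hα x x'
  exact h he

end Vale.Agent.Lib.P058
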