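import Vale.Agent.Lib.P058.NullB

/-!
# P058, module NullM: single-row commutators are null

(N4) Let `j = (w, y)`; take `y' ≠ y` with `α y' ≠ 0` (`hV.two y`).  For `g, e ∈ F0`: with `h = [g]_y`
(the element of `null_class`; null, and its inverse `[g⁻¹]_y` is null) and `E` as in `accessible_all`,
`h * E * h⁻¹ * E⁻¹` is `g * e * g⁻¹ * e⁻¹` at `(w, y)`, and `1` in all other rows (at `(w, y')` because
`h = 1` there, at the others because `E = 1` there).
So `Pi.mulSingle (w, y) ⁅g, e⁆` is null (costs `η / 4` each).  `⁅F0, F0⁆` is the closure of the set of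
commutators (`Subgroup.commutator_def`), `⁅g, e⁆⁻¹ = ⁅e, g⁆`, hence the result
(`Subgroup.closure_induction`, proving the claim for `n` and `n⁻¹` together; `Null.mul`).
-/

open scoped commutatorElement

namespace Vale.Agent.Lib.P058

variable {β Y : Type} [Fintype Y] [DecidableEq Y] [Fintype β] [DecidableEq β] {α : Y → ℝ}
  {V : Submodule ℝ (β × Y → ℝ)}

private theorem null_single_commutator (hV : GoodV α V) (w : β) (y : Y) (g e : FreeGroup ℝ)
    (hg : g ∈ F0) (he : e ∈ F0) :
    Null (V : Set (β × Y → ℝ)) (Pi.mulSingle (w, y) ⁅g, e⁆) := by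
  obtain ⟨y', t, -, hy', -, hα, -⟩ := hV.two y
  intro η hη
  obtain ⟨D1, h1, l1⟩ := null_class hV y g hg (η / 4) (by linarith)
  obtain ⟨D2, h2, l2⟩ := null_class hV y g⁻¹ (F0.inv_mem hg) (η / 4) (by linarith)
  obtain ⟨E, D3, D4, h3, h4, l3, l4, hE, hE1⟩ :=
    accessible_all hV w y y' hy' hα e he (η / 4) (by linarith)
  refine ⟨D1 + D3 + D2 + D4, ((((h1.mul h3).mul h2).mul h4).of_eq ?_ rfl), fun i j => ?_⟩
  · funext j
    simp only [Pi.mul_apply, Pi.inv_apply]
    by_cases hj : j = (w, y)
    · subst hj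
      rw [Pi.mulSingle_eq_same, hE, commutatorElement_def]
      simp
    · rw [Pi.mulSingle_eq_of_ne hj]
      by_cases hj' : j = (w, y')
      · subst hj'
        simp [hy']
      · rw [hE1 j hj hj']
        by_cases hy : j.2 = y
        · simp [hy]
        · simp [hy]
  · have a1 := l1 i j
    have a2 := l2 i j
    have a3 := l3 i j
    have a4 := l4 i j
    simp only [Pi.add_apply]
    linarith

theorem null_single (hV : GoodV α V) (j : β × Y) (n : FreeGroup ℝ) (hn : n ∈ ⁅F0, F0⁆) :
    Null (V : Set (β × Y → ℝ)) (Pi.mulSingle j n) := by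
  obtain ⟨w, y⟩ := j
  have key : Null (V : Set (β × Y → ℝ)) (Pi.mulSingle (w, y) n) ∧
      Null (V : Set (β × Y → ℝ)) (Pi.mulSingle (w, y) n⁻¹) := by
    rw [Subgroup.commutator_def] at hn
    induction hn using Subgroup.closure_induction with
    | mem x hx =>
      obtain ⟨g, hg, e, he, rfl⟩ := hx
      refine ⟨null_single_commutator hV w y g e hg he, ?_⟩
      rw [commutatorElement_inv]
      exact null_single_commutator hV w y e g he hg
    | one =>
      have h : Null (V : Set (β × Y → ℝ)) (Pi.mulSingle (w, y) 1) := by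
        intro η hη
        refine ⟨0, (InP.one _).of_eq (by rw [Pi.mulSingle_one]) rfl, fun i j => ?_⟩
        simp only [Pi.zero_apply]
        exact hη.le
      exact ⟨h, by rwa [inv_one]⟩
    | mul a b _ _ iha ihb =>
      refine ⟨?_, ?_⟩
      · rw [Pi.mulSingle_mul]
        exact iha.1.mul ihb.1
      · rw [mul_inv_rev, Pi.mulSingle_mul]
        exact ihb.2.mul iha.2
    | inv a _ iha =>
      exact ⟨iha.2, by rw [inv_inv]; exact iha.1⟩
  exact key.1

end Vale.Agent.Lib.P058
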