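import Vale.Agent.Lib.P058.Main
import Vale.Agent.Lib.P058.Affine

/-!
# P058, module Octa: a spherical set that is not Ramsey

`oct x y = {(±x, ±y), (±1, 0), (0, ±1)}` with `x^2 + y^2 = 1` lies on the unit circle.  If `δ` is a
derivation of `ℝ` with `δ x ≠ 0` it is not Ramsey.

PROOF.  Write `x' = δ x`, `y' = δ y`; `x * x' + y * y' = 0` (apply `δ` to `x^2 + y^2 = 1`,
`δ 1 = 0`), `δ (-a) = - δ a`, `δ 0 = 0`.
For `v : EuclideanSpace ℝ (Fin n)` let `f v = ∑ i, (δ (v i))^2`, `h v = ∑ i, v i * δ (v i)`,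
`βE v = - 2 * x^2 * f v - 4 * x * x' * h v`, `βN v = - 2 * y^2 * f v + 4 * x * x' * h v`.
(1) `4 * f v + 2 * βE v + 2 * βN v = 0`.
(2) Let `F : oct x y → EuclideanSpace ℝ (Fin n)` be an isometry and let `b, e, g` be
`b = (F(1,0) + F(-1,0)) / 2`, `e = (F(1,0) - F(-1,0)) / 2`, `g = (F(0,1) - F(0,-1)) / 2`.
By `norm_comb_eq` (an affine relation `∑ a j • u j = 0`, `∑ a j = 0` between points of `oct x y` holds
also for the images): `F(0,1) + F(0,-1) = 2 b`, and `F(s x, t y) = b + s x • e + t y • g` for signs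
`s, t`; `F(±1,0) = b ± e`, `F(0,±1) = b ± g`; `‖e‖ = 1`, `‖g‖ = 1` (distances `2`).
(3) For every coordinate `i`, with `p = e i`, `q = g i`, `m = b i` and `p' = δ p` etc.:
`∑_{s,t=±1} (δ (m + s x p + t y q))^2 - 2 x^2 ∑_{s=±1} (δ (m + s p))^2 - 2 y^2 ∑_{s=±1} (δ (m + s q))^2
 - 4 x x' ∑_{s=±1} (m + s p) * δ (m + s p) + 4 x x' ∑_{s=±1} (m + s q) * δ (m + s q)
 = 4 x'^2 p^2 + 4 y'^2 q^2`
(expand by the rules `δ (x p) = x p' + p x'`, ...; use `x^2 + y^2 = 1` and `y y' = - x x'`: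
`linear_combination`).  Sum over `i`:
`∑_{s,t} f (F(s x, t y)) + ∑_s βE (F(s,0)) + ∑_s βN (F(0,s)) = 4 * (x'^2 + y'^2) =: τ > 0`
since `∑ p^2 = ‖e‖^2 = 1`, `∑ q^2 = ‖g‖^2 = 1`.
(4) Let `ε = τ / 16` and colour `v` by the residues modulo `32` of `⌊f v / ε⌋`, `⌊βE v / ε⌋`,
`⌊βN v / ε⌋`: a map to `ZMod 32 × ZMod 32 × ZMod 32 ≃ Fin 32768` (`Fintype.equivFin`,
`Fintype.card` computes).  If `F(oct)` is monochromatic with residues `k₁, k₂, k₃` then for the eight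
points `f (F P) / ε = k₁ + 32 n + θ`, `0 ≤ θ < 1`, etc. so by (3)
`16 = τ / ε = 4 k₁ + 2 k₂ + 2 k₃ + 32 n + Θ` with an integer `n` and `0 ≤ Θ < 8`, and by (1) for the
point `v = F(x, y)`: `0 = 4 k₁ + 2 k₂ + 2 k₃ + 32 n' + Θ'` with `0 ≤ Θ' < 8` (here
`4 * (f v / ε) = 4 k₁ + 32 * (4 n₁) + 4 θ₁` etc.).  Subtract: `16 = 32 N + Θ''` with
`|Θ''| < 8`, impossible.
Hence `IsRamsey` fails for `r = 32768`.
-/

namespace Vale.Agent.Lib.P058

/-- the points `(±x, ±y), (±1, 0), (0, ±1)` -/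
def oct (x y : ℝ) : Set (EuclideanSpace ℝ (Fin 2)) :=
  {!₂[x, y], !₂[-x, y], !₂[-x, -y], !₂[x, -y], !₂[1, 0], !₂[-1, 0], !₂[0, 1], !₂[0, -1]}

theorem oct_spherical (x y : ℝ) (h : x ^ 2 + y ^ 2 = 1) : IsSpherical (oct x y) := by
  have key : ∀ a b : ℝ, a ^ 2 + b ^ 2 = 1 → dist (!₂[a, b] : EuclideanSpace ℝ (Fin 2)) 0 = 1 := by
    intro a b hab
    rw [dist_zero_right, EuclideanSpace.norm_eq]
    simp [Fin.sum_univ_two, hab]
  refine ⟨0, 1, fun p hp => ?_⟩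
  simp only [oct, Set.mem_insert_iff, Set.mem_singleton_iff] at hp
  rcases hp with rfl | rfl | rfl | rfl | rfl | rfl | rfl | rfl <;> apply key <;> nlinarith

private theorem oct_ne {a b c d : ℝ} (h : a ≠ c ∨ b ≠ d) :
    (!₂[a, b] : EuclideanSpace ℝ (Fin 2)) ≠ !₂[c, d] := by
  intro heq
  have h0 : a = c := by simpa using congrArg (fun v : EuclideanSpace ℝ (Fin 2) => v 0) heq
  have h1 : b = d := by simpa using congrArg (fun v : EuclideanSpace ℝ (Fin 2) => v 1) heq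
  rcases h with h | h
  · exact h h0
  · exact h h1

private theorem oct_card_aux (a b : ℝ) (S : Set (EuclideanSpace ℝ (Fin 2))) (n : ℕ)
    (hS : S.Finite) (hn : S.ncard = n) (hm : (!₂[a, b] : EuclideanSpace ℝ (Fin 2)) ∉ S) :
    (insert (!₂[a, b] : EuclideanSpace ℝ (Fin 2)) S).ncard = n + 1 := by
  rw [Set.ncard_insert_of_notMem hm hS, hn]

theorem oct_ncard (x y : ℝ) (h : x ^ 2 + y ^ 2 = 1) (hx : 0 < x) (hx1 : x < 1) (hy : 0 < y) :
    (oct x y).ncard = 8 := by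
  unfold oct
  refine oct_card_aux _ _ _ 7 (Set.toFinite _) ?_ ?_
  refine oct_card_aux _ _ _ 6 (Set.toFinite _) ?_ ?_
  refine oct_card_aux _ _ _ 5 (Set.toFinite _) ?_ ?_
  refine oct_card_aux _ _ _ 4 (Set.toFinite _) ?_ ?_
  refine oct_card_aux _ _ _ 3 (Set.toFinite _) ?_ ?_
  refine oct_card_aux _ _ _ 2 (Set.toFinite _) ?_ ?_
  refine oct_card_aux _ _ _ 1 (Set.toFinite _) (Set.ncard_singleton _) ?_
  · rw [Set.mem_singleton_iff]
    exact oct_ne (Or.inr (by norm_num))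
  · simp only [Set.mem_insert_iff, Set.mem_singleton_iff, not_or]
    refine ⟨oct_ne (Or.inl (by norm_num)), oct_ne (Or.inl (by norm_num))⟩
  · simp only [Set.mem_insert_iff, Set.mem_singleton_iff, not_or]
    refine ⟨oct_ne (Or.inl (by norm_num)), oct_ne (Or.inl (by norm_num)),
      oct_ne (Or.inl (by norm_num))⟩
  · simp only [Set.mem_insert_iff, Set.mem_singleton_iff, not_or]
    refine ⟨oct_ne (Or.inl hx1.ne), oct_ne (Or.inl (ne_of_gt (by linarith))),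
      oct_ne (Or.inl hx.ne'), oct_ne (Or.inl hx.ne')⟩
  · simp only [Set.mem_insert_iff, Set.mem_singleton_iff, not_or]
    refine ⟨oct_ne (Or.inl (ne_of_lt (by linarith))), oct_ne (Or.inl (ne_of_lt (by linarith))),
      oct_ne (Or.inl (ne_of_gt (by linarith))), oct_ne (Or.inl (ne_of_lt (by linarith))),
      oct_ne (Or.inl (ne_of_lt (by linarith)))⟩
  · simp only [Set.mem_insert_iff, Set.mem_singleton_iff, not_or]
    refine ⟨oct_ne (Or.inr (ne_of_gt (by linarith))), oct_ne (Or.inr (ne_of_gt (by linarith))),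
      oct_ne (Or.inl (ne_of_lt (by linarith))),
      oct_ne (Or.inl (ne_of_gt (by linarith))), oct_ne (Or.inl (ne_of_lt (by linarith))),
      oct_ne (Or.inl (ne_of_lt (by linarith)))⟩
  · simp only [Set.mem_insert_iff, Set.mem_singleton_iff, not_or]
    refine ⟨oct_ne (Or.inl (ne_of_gt (by linarith))), oct_ne (Or.inl (ne_of_gt (by linarith))),
      oct_ne (Or.inr (ne_of_gt (by linarith))),
      oct_ne (Or.inl hx1.ne), oct_ne (Or.inl (ne_of_gt (by linarith))),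
      oct_ne (Or.inl hx.ne'), oct_ne (Or.inl hx.ne')⟩

/-- the eight points -/
private noncomputable def octP (x y : ℝ) : Fin 8 → EuclideanSpace ℝ (Fin 2) :=
  ![!₂[x, y], !₂[-x, y], !₂[-x, -y], !₂[x, -y], !₂[1, 0], !₂[-1, 0], !₂[0, 1], !₂[0, -1]]

private theorem octP_mem (x y : ℝ) (j : Fin 8) : octP x y j ∈ oct x y := by
  fin_cases j <;> simp [octP, oct]

private theorem oct_rel (x y : ℝ) {D : ℕ} (F : oct x y → EuclideanSpace ℝ (Fin D))
    (hF : Isometry F) (a : Fin 8 → ℝ) (ha : ∑ j, a j = 0)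
    (h0 : ∑ j, a j • octP x y j = 0) :
    ∑ j, a j • F ⟨octP x y j, octP_mem x y j⟩ = 0 := by
  have h1 := norm_comb_eq (octP x y) (fun j => F ⟨octP x y j, octP_mem x y j⟩)
    (fun i j => (hF.dist_eq ⟨octP x y i, octP_mem x y i⟩ ⟨octP x y j, octP_mem x y j⟩).symm) a ha
  rw [h0, norm_zero] at h1
  exact norm_eq_zero.1 h1.symm

private theorem oct_coord (x y : ℝ) {D : ℕ} (F : oct x y → EuclideanSpace ℝ (Fin D))
    (hF : Isometry F) (a : Fin 8 → ℝ) (ha : ∑ j, a j = 0)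
    (h0 : ∑ j, a j • octP x y j = 0) (i : Fin D) :
    ∑ j, a j * F ⟨octP x y j, octP_mem x y j⟩ i = 0 := by
  have h1 := oct_rel x y F hF a ha h0
  have h2 := congrArg (fun v : EuclideanSpace ℝ (Fin D) => v i) h1
  simpa using h2

private theorem oct_sub_sum {D : ℕ} (u v : EuclideanSpace ℝ (Fin D)) (h : dist u v = 2) :
    ∑ i, ((u i - v i) / 2) ^ 2 = 1 := by
  have h1 : dist u v ^ 2 = ∑ i, (u i - v i) ^ 2 := by
    rw [dist_eq_norm, EuclideanSpace.real_norm_sq_eq]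
    rfl
  rw [h] at h1
  have h2 : ∑ i, ((u i - v i) / 2) ^ 2 = (∑ i, (u i - v i) ^ 2) / 4 := by
    rw [Finset.sum_div]
    refine Finset.sum_congr rfl fun i _ => ?_
    ring
  rw [h2, ← h1]
  norm_num

/-- step (3) -/
private theorem oct_id (δ : ℝ → ℝ) (hadd : ∀ a b, δ (a + b) = δ a + δ b)
    (hmul : ∀ a b, δ (a * b) = a * δ b + b * δ a) (x y : ℝ) (h : x ^ 2 + y ^ 2 = 1)
    (m p q : ℝ) :
    δ (m + x * p + y * q) ^ 2 + δ (m - x * p + y * q) ^ 2 + δ (m - x * p - y * q) ^ 2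
      + δ (m + x * p - y * q) ^ 2
      + (-2 * x ^ 2 * (δ (m + p)) ^ 2 - 4 * x * δ x * ((m + p) * δ (m + p)))
      + (-2 * x ^ 2 * (δ (m - p)) ^ 2 - 4 * x * δ x * ((m - p) * δ (m - p)))
      + (-2 * y ^ 2 * (δ (m + q)) ^ 2 + 4 * x * δ x * ((m + q) * δ (m + q)))
      + (-2 * y ^ 2 * (δ (m - q)) ^ 2 + 4 * x * δ x * ((m - q) * δ (m - q)))
      = 4 * (δ x) ^ 2 * p ^ 2 + 4 * (δ y) ^ 2 * q ^ 2 := by
  have hzero : δ 0 = 0 := by
    have := hadd 0 0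
    rw [add_zero] at this
    linarith
  have hneg : ∀ a, δ (-a) = - δ a := by
    intro a
    have := hadd a (-a)
    rw [add_neg_cancel, hzero] at this
    linarith
  have hone : δ 1 = 0 := by
    have := hmul 1 1
    rw [one_mul, one_mul] at this
    linarith
  have hxy : x * δ x + y * δ y = 0 := by
    have h1 : δ (x * x + y * y) = δ 1 := by
      congr 1
      linarith [h, sq x, sq y]
    rw [hadd, hmul, hmul, hone] at h1
    linarith
  have hsub : ∀ a b, δ (a - b) = δ a - δ b := by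
    intro a b
    rw [sub_eq_add_neg, hadd, hneg]
    ring
  simp only [hadd, hsub, hmul]
  have e1 : y * δ y = -(x * δ x) := by linarith
  linear_combination (-4 * (δ m) ^ 2) * h + 8 * q * δ q * hxy

private theorem oct_final (A1 A2 A3 A4 E1 E5 E6 N1 N7 N8 : ℝ)
    (n2 n3 n4 m5 m6 l7 l8 : ℤ)
    (h2 : ⌊A2⌋ = ⌊A1⌋ + 32 * n2) (h3 : ⌊A3⌋ = ⌊A1⌋ + 32 * n3) (h4 : ⌊A4⌋ = ⌊A1⌋ + 32 * n4)
    (h5 : ⌊E5⌋ = ⌊E1⌋ + 32 * m5) (h6 : ⌊E6⌋ = ⌊E1⌋ + 32 * m6)
    (h7 : ⌊N7⌋ = ⌊N1⌋ + 32 * l7) (h8 : ⌊N8⌋ = ⌊N1⌋ + 32 * l8)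
    (hs : A1 + A2 + A3 + A4 + E5 + E6 + N7 + N8 = 16)
    (hz : 4 * A1 + 2 * E1 + 2 * N1 = 0) : False := by
  have a1 := Int.floor_le A1
  have a1' := Int.lt_floor_add_one A1
  have a2 := Int.floor_le A2
  have a2' := Int.lt_floor_add_one A2
  have a3 := Int.floor_le A3
  have a3' := Int.lt_floor_add_one A3
  have a4 := Int.floor_le A4
  have a4' := Int.lt_floor_add_one A4
  have e1 := Int.floor_le E1
  have e1' := Int.lt_floor_add_one E1
  have e5 := Int.floor_le E5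
  have e5' := Int.lt_floor_add_one E5
  have e6 := Int.floor_le E6
  have e6' := Int.lt_floor_add_one E6
  have b1 := Int.floor_le N1
  have b1' := Int.lt_floor_add_one N1
  have b7 := Int.floor_le N7
  have b7' := Int.lt_floor_add_one N7
  have b8 := Int.floor_le N8
  have b8' := Int.lt_floor_add_one N8
  rw [h2] at a2 a2'
  rw [h3] at a3 a3'
  rw [h4] at a4 a4'
  rw [h5] at e5 e5'
  rw [h6] at e6 e6'
  rw [h7] at b7 b7'
  rw [h8] at b8 b8'
  push_cast at a2 a2' a3 a3' a4 a4' e5 e5' e6 e6' b7 b7' b8 b8'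
  have k1 : (8 : ℝ) < ((32 * (n2 + n3 + n4 + m5 + m6 + l7 + l8) : ℤ) : ℝ) := by
    push_cast
    linarith
  have k2 : ((32 * (n2 + n3 + n4 + m5 + m6 + l7 + l8) : ℤ) : ℝ) < 24 := by
    push_cast
    linarith
  have k1' : (8 : ℤ) < 32 * (n2 + n3 + n4 + m5 + m6 + l7 + l8) := by exact_mod_cast k1
  have k2' : 32 * (n2 + n3 + n4 + m5 + m6 + l7 + l8) < (24 : ℤ) := by exact_mod_cast k2
  omega

private theorem oct_zmod (a b : ℤ) (h : (a : ZMod 32) = (b : ZMod 32)) :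
    ∃ k : ℤ, b = a + 32 * k := by
  rw [ZMod.intCast_eq_intCast_iff_dvd_sub] at h
  obtain ⟨k, hk⟩ := h
  exact ⟨k, by push_cast at hk; linarith⟩

theorem oct_not_ramsey (δ : ℝ → ℝ) (hadd : ∀ a b, δ (a + b) = δ a + δ b)
    (hmul : ∀ a b, δ (a * b) = a * δ b + b * δ a) (x y : ℝ) (h : x ^ 2 + y ^ 2 = 1)
    (hx : δ x ≠ 0) : ¬ IsRamsey (oct x y) := by
  intro hR
  set τ : ℝ := 4 * ((δ x) ^ 2 + (δ y) ^ 2) with hτ
  have hτ0 : 0 < τ := by
    have : 0 < (δ x) ^ 2 := by positivity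
    have h2 : 0 ≤ (δ y) ^ 2 := sq_nonneg _
    rw [hτ]
    linarith
  set ε : ℝ := τ / 16 with hε
  have hε0 : 0 < ε := by rw [hε]; linarith
  have hcard : 2 ≤ Fintype.card (ZMod 32 × ZMod 32 × ZMod 32) := by
    rw [Fintype.card_prod, Fintype.card_prod, ZMod.card]
    norm_num
  obtain ⟨D, hD, hcol⟩ := hR (Fintype.card (ZMod 32 × ZMod 32 × ZMod 32)) hcard
  set f : EuclideanSpace ℝ (Fin D) → ℝ := fun v => ∑ i, (δ (v i)) ^ 2 with hf
  set g : EuclideanSpace ℝ (Fin D) → ℝ := fun v => ∑ i, v i * δ (v i) with hg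
  set bE : EuclideanSpace ℝ (Fin D) → ℝ :=
    fun v => -2 * x ^ 2 * f v - 4 * x * δ x * g v with hbE
  set bN : EuclideanSpace ℝ (Fin D) → ℝ :=
    fun v => -2 * y ^ 2 * f v + 4 * x * δ x * g v with hbN
  set col : EuclideanSpace ℝ (Fin D) → ZMod 32 × ZMod 32 × ZMod 32 := fun v =>
    (((⌊f v / ε⌋ : ℤ) : ZMod 32), ((⌊bE v / ε⌋ : ℤ) : ZMod 32), ((⌊bN v / ε⌋ : ℤ) : ZMod 32))
    with hcoldef
  obtain ⟨F, hF, hmono⟩ := hcol (fun v => Fintype.equivFin _ (col v))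
  have hmono' : ∀ i j : Fin 8, col (F ⟨octP x y i, octP_mem x y i⟩)
      = col (F ⟨octP x y j, octP_mem x y j⟩) := fun i j =>
    (Fintype.equivFin _).injective (hmono _ _)
  set u : Fin 8 → EuclideanSpace ℝ (Fin D) := fun j => F ⟨octP x y j, octP_mem x y j⟩ with hu
  have hdist : ∀ i j, dist (u i) (u j) = dist (octP x y i) (octP x y j) := fun i j =>
    hF.dist_eq _ _
  -- the affine relations
  have rel : ∀ a : Fin 8 → ℝ, ∑ j, a j = 0 → ∑ j, a j • octP x y j = 0 → ∀ i,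
      a 0 * u 0 i + a 1 * u 1 i + a 2 * u 2 i + a 3 * u 3 i + a 4 * u 4 i + a 5 * u 5 i
        + a 6 * u 6 i + a 7 * u 7 i = 0 := by
    intro a ha h0 i
    have h1 := oct_coord x y F hF a ha h0 i
    rw [Fin.sum_univ_eight] at h1
    exact h1
  have r0 : ∀ i, u 6 i + u 7 i = u 4 i + u 5 i := by
    intro i
    have h1 := rel ![0, 0, 0, 0, -1, -1, 1, 1] (by simp [Fin.sum_univ_eight]) (by
        ext k
        fin_cases k <;> simp [Fin.sum_univ_eight, octP]) i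
    simp at h1
    linarith
  have r1 : ∀ i, u 0 i = (u 4 i + u 5 i) / 2 + x * ((u 4 i - u 5 i) / 2)
      + y * ((u 6 i - u 7 i) / 2) := by
    intro i
    have h1 := rel ![1, 0, 0, 0, -(1 + x) / 2, -(1 - x) / 2, -y / 2, y / 2]
      (by simp [Fin.sum_univ_eight]; ring) (by
        ext k
        fin_cases k <;> simp [Fin.sum_univ_eight, octP] <;> ring) i
    simp at h1
    linarith
  have r2 : ∀ i, u 1 i = (u 4 i + u 5 i) / 2 - x * ((u 4 i - u 5 i) / 2)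
      + y * ((u 6 i - u 7 i) / 2) := by
    intro i
    have h1 := rel ![0, 1, 0, 0, -(1 - x) / 2, -(1 + x) / 2, -y / 2, y / 2]
      (by simp [Fin.sum_univ_eight]; ring) (by
        ext k
        fin_cases k <;> simp [Fin.sum_univ_eight, octP] <;> ring) i
    simp at h1
    linarith
  have r3 : ∀ i, u 2 i = (u 4 i + u 5 i) / 2 - x * ((u 4 i - u 5 i) / 2)
      - y * ((u 6 i - u 7 i) / 2) := by
    intro i
    have h1 := rel ![0, 0, 1, 0, -(1 - x) / 2, -(1 + x) / 2, y / 2, -y / 2]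
      (by simp [Fin.sum_univ_eight]; ring) (by
        ext k
        fin_cases k <;> simp [Fin.sum_univ_eight, octP] <;> ring) i
    simp at h1
    linarith
  have r4 : ∀ i, u 3 i = (u 4 i + u 5 i) / 2 + x * ((u 4 i - u 5 i) / 2)
      - y * ((u 6 i - u 7 i) / 2) := by
    intro i
    have h1 := rel ![0, 0, 0, 1, -(1 + x) / 2, -(1 - x) / 2, y / 2, -y / 2]
      (by simp [Fin.sum_univ_eight]; ring) (by
        ext k
        fin_cases k <;> simp [Fin.sum_univ_eight, octP] <;> ring) i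
    simp at h1
    linarith
  -- the norms
  have hd1 : dist (u 4) (u 5) = 2 := by
    rw [hdist]
    simp [octP, EuclideanSpace.dist_eq, Fin.sum_univ_two, Real.dist_eq]
    norm_num
  have hd2 : dist (u 6) (u 7) = 2 := by
    rw [hdist]
    simp [octP, EuclideanSpace.dist_eq, Fin.sum_univ_two, Real.dist_eq]
    norm_num
  have hp := oct_sub_sum _ _ hd1
  have hq := oct_sub_sum _ _ hd2
  -- step (3)
  have hmain : f (u 0) + f (u 1) + f (u 2) + f (u 3) + bE (u 4) + bE (u 5) + bN (u 6) + bN (u 7)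
      = τ := by
    have hsum : f (u 0) + f (u 1) + f (u 2) + f (u 3) + bE (u 4) + bE (u 5) + bN (u 6) + bN (u 7)
        = ∑ i, (4 * (δ x) ^ 2 * ((u 4 i - u 5 i) / 2) ^ 2
          + 4 * (δ y) ^ 2 * ((u 6 i - u 7 i) / 2) ^ 2) := by
      simp only [hbE, hbN, hf, hg, Finset.mul_sum, ← Finset.sum_add_distrib,
        ← Finset.sum_sub_distrib]
      refine Finset.sum_congr rfl fun i _ => ?_
      have key := oct_id δ hadd hmul x y h ((u 4 i + u 5 i) / 2) ((u 4 i - u 5 i) / 2)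
        ((u 6 i - u 7 i) / 2)
      have c4 : (u 4 i + u 5 i) / 2 + (u 4 i - u 5 i) / 2 = u 4 i := by ring
      have c5 : (u 4 i + u 5 i) / 2 - (u 4 i - u 5 i) / 2 = u 5 i := by ring
      have c6 : (u 4 i + u 5 i) / 2 + (u 6 i - u 7 i) / 2 = u 6 i := by linarith [r0 i]
      have c7 : (u 4 i + u 5 i) / 2 - (u 6 i - u 7 i) / 2 = u 7 i := by linarith [r0 i]
      rw [← r1 i, ← r2 i, ← r3 i, ← r4 i, c4, c5, c6, c7] at key
      rw [← key]
    rw [hsum, Finset.sum_add_distrib, ← Finset.mul_sum, ← Finset.mul_sum, hp, hq, hτ]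
    ring
  have hzero : ∀ v, 4 * f v + 2 * bE v + 2 * bN v = 0 := by
    intro v
    simp only [hbE, hbN]
    linear_combination (-4 * f v) * h
  -- step (4)
  have cz : ∀ i j : Fin 8, (∃ k : ℤ, ⌊f (u j) / ε⌋ = ⌊f (u i) / ε⌋ + 32 * k) ∧
      (∃ k : ℤ, ⌊bE (u j) / ε⌋ = ⌊bE (u i) / ε⌋ + 32 * k) ∧
      (∃ k : ℤ, ⌊bN (u j) / ε⌋ = ⌊bN (u i) / ε⌋ + 32 * k) := by
    intro i j
    have hc := hmono' i j
    simp only [hcoldef, Prod.mk.injEq] at hc
    exact ⟨oct_zmod _ _ hc.1, oct_zmod _ _ hc.2.1, oct_zmod _ _ hc.2.2⟩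
  obtain ⟨n2, h2⟩ := (cz 0 1).1
  obtain ⟨n3, h3⟩ := (cz 0 2).1
  obtain ⟨n4, h4⟩ := (cz 0 3).1
  obtain ⟨m5, h5⟩ := (cz 0 4).2.1
  obtain ⟨m6, h6⟩ := (cz 0 5).2.1
  obtain ⟨l7, h7⟩ := (cz 0 6).2.2
  obtain ⟨l8, h8⟩ := (cz 0 7).2.2
  refine oct_final _ _ _ _ _ _ _ _ _ _ n2 n3 n4 m5 m6 l7 l8 h2 h3 h4 h5 h6 h7 h8 ?_ ?_
  · have e : f (u 0) / ε + f (u 1) / ε + f (u 2) / ε + f (u 3) / ε + bE (u 4) / ε + bE (u 5) / ε
        + bN (u 6) / ε + bN (u 7) / ε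
        = (f (u 0) + f (u 1) + f (u 2) + f (u 3) + bE (u 4) + bE (u 5) + bN (u 6) + bN (u 7)) / ε := by
      ring
    rw [e, hmain, hε]
    field_simp
  · have e : 4 * (f (u 0) / ε) + 2 * (bE (u 0) / ε) + 2 * (bN (u 0) / ε)
        = (4 * f (u 0) + 2 * bE (u 0) + 2 * bN (u 0)) / ε := by ring
    rw [e, hzero, zero_div]

end Vale.Agent.Lib.P058
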