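import Vale.Agent.Lib.P058.Defs

/-!
# P058, module Ultra

The maximal group `e (β List ℝ) e` of a minimal idempotent receives a homomorphism from
`FreeGroup ℝ`, `a_x ↦ e * [x] * e`.

PROOF.  Let `T = Ultrafilter (FreeMonoid ℝ)` (`FreeMonoid ℝ` is `List ℝ` with concatenation; one may
also put a local `Semigroup` structure on `List ℝ`).  `T` is a compact Hausdorff semigroup for
`Ultrafilter.semigroup` (file `Mathlib/Combinatorics/Hindman.lean`; make it a local instance) and
`fun U => U * V` is continuous (`Ultrafilter.continuous_mul_left`).  So every `T * V = {U * V | U}`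
is compact, hence closed, and nonempty.

1. By Zorn (`zorn_superset_nonempty` or `zorn_superset`; intersections of chains of nonempty
   closed sets are nonempty by compactness,
   `IsCompact.nonempty_sInter_of_directedOn_nonempty_isCompact_isClosed`) there is a minimal
   nonempty closed `L` with `∀ U, ∀ V ∈ L, U * V ∈ L` (left ideal).
2. `L` is a closed subsemigroup, so it contains an idempotent `e`
   (`exists_idempotent_in_compact_subsemigroup`, file
   `Mathlib/Topology/Algebra/Semigroup.lean`).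
3. For `x ∈ L`: `T * x ⊆ L` is a nonempty closed left ideal so `T * x = L`; hence there is `y` with
   `y * x = e`.
4. `G = {x : T // e * x = x ∧ x * e = x}` is a monoid with identity `e`.  For `x ∈ G`,
   `x = x * e ∈ L` (left ideal), pick `y` with `y * x = e`; then `(e * y * e) ∈ G` and
   `(e * y * e) * x = e * y * x = e * e = e`.  So every element of `G` has a left inverse:
   `G` is a group (`Group.ofLeftAxioms`).
5. `Φ g = FreeGroup.lift (fun x => ⟨e * pure [x] * e, _⟩) g`, and unfold with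
   `Ultrafilter.eventually_mul` (it is `Iff.rfl`) and `Filter.eventually_pure`.
   In the second conclusion `Φ (of x) = e * pure [x] * e`,
   so `∀ᶠ w in Φ (of x), p w ↔ ∀ᶠ u in e, ∀ᶠ w in e, p ((u ++ [x]) ++ w)`.
-/

namespace Vale.Agent.Lib.P058

open Filter

/-- a compact right topological semigroup has an idempotent `e` such that `e T e` is a group -/
theorem ultra_exists_min {T : Type} [Semigroup T] [TopologicalSpace T] [CompactSpace T] [T2Space T]
    [Nonempty T] (hc : ∀ r : T, Continuous (· * r)) :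
    ∃ e : T, e * e = e ∧ ∀ x : T, e * x = x → x * e = x →
      ∃ y : T, e * y = y ∧ y * e = y ∧ y * x = e := by
  let S : Set (Set T) := {L | IsClosed L ∧ L.Nonempty ∧ ∀ U, ∀ V ∈ L, U * V ∈ L}
  obtain ⟨L, hL⟩ : ∃ L, Minimal (· ∈ S) L := by
    refine zorn_superset _ fun c hcs hc => ?_
    refine ⟨⋂₀ c, ⟨isClosed_sInter fun t ht => (hcs ht).1, ?_, ?_⟩, fun s hs =>
      Set.sInter_subset_of_mem hs⟩
    · obtain rfl | hcnemp := c.eq_empty_or_nonempty
      · rw [Set.sInter_empty]
        apply Set.univ_nonempty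
      convert!
        @IsCompact.nonempty_iInter_of_directed_nonempty_isCompact_isClosed _ _ _ hcnemp.coe_sort
          ((↑) : c → Set T) ?_ ?_ ?_ ?_
      · exact Set.sInter_eq_iInter
      · refine DirectedOn.directed_val (IsChain.directedOn hc.symm)
      exacts [fun i => (hcs i.prop).2.1, fun i => (hcs i.prop).1.isCompact,
        fun i => (hcs i.prop).1]
    · intro U V hV t ht
      exact (hcs ht).2.2 U V (hV t ht)
  obtain ⟨hLc, hLn, hLi⟩ := hL.prop
  obtain ⟨e, heL, hee⟩ := exists_idempotent_in_compact_subsemigroup hc L hLn hLc.isCompact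
    (fun x _ y hy => hLi x y hy)
  refine ⟨e, hee, fun x hex hxe => ?_⟩
  have hxL : x ∈ L := by rw [← hxe]; exact hLi x e heL
  have hsub : Set.range (· * x) ⊆ L := by
    rintro _ ⟨u, rfl⟩
    exact hLi u x hxL
  have hmem : Set.range (· * x) ∈ S := by
    refine ⟨(isCompact_range (hc x)).isClosed, Set.range_nonempty _, ?_⟩
    rintro U _ ⟨u, rfl⟩
    exact ⟨U * u, mul_assoc U u x⟩
  have heq : L ⊆ Set.range (· * x) := hL.2 hmem hsub
  obtain ⟨y, hy⟩ := heq heL
  simp only at hy
  refine ⟨e * y * e, ?_, ?_, ?_⟩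
  · rw [← mul_assoc, ← mul_assoc, hee]
  · rw [mul_assoc, hee]
  · rw [mul_assoc, hex, mul_assoc, hy, hee]

/-- the group `e T e` receives a homomorphism from the free group -/
theorem ultra_exists_hom {T : Type} [Semigroup T] [TopologicalSpace T] [CompactSpace T] [T2Space T]
    [Nonempty T] (hc : ∀ r : T, Continuous (· * r)) (q : ℝ → T) :
    ∃ Φ : FreeGroup ℝ → T, (∀ g h, Φ (g * h) = Φ g * Φ h) ∧
      ∀ x, Φ (FreeGroup.of x) = Φ 1 * q x * Φ 1 := by
  obtain ⟨e, hee, he⟩ := ultra_exists_min hc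
  let G : Type := {x : T // e * x = x ∧ x * e = x}
  let m : Mul G := ⟨fun a b => ⟨a.1 * b.1, by rw [← mul_assoc, a.2.1], by rw [mul_assoc, b.2.2]⟩⟩
  let o : One G := ⟨⟨e, hee, hee⟩⟩
  have hinv : ∀ a : G, ∃ b : G, b * a = 1 := by
    intro a
    obtain ⟨y, hy1, hy2, hy3⟩ := he a.1 a.2.1 a.2.2
    exact ⟨⟨y, hy1, hy2⟩, Subtype.ext hy3⟩
  let i : Inv G := ⟨fun a => (hinv a).choose⟩
  let gr : Group G := Group.ofLeftAxioms (fun a b c => Subtype.ext (mul_assoc a.1 b.1 c.1))
    (fun a => Subtype.ext a.2.1) (fun a => (hinv a).choose_spec)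
  have hq : ∀ x, e * (e * q x * e) = e * q x * e ∧ (e * q x * e) * e = e * q x * e := by
    intro x
    constructor
    · rw [← mul_assoc, ← mul_assoc, hee]
    · rw [mul_assoc, hee]
  let φ : FreeGroup ℝ →* G := FreeGroup.lift (fun x => (⟨e * q x * e, hq x⟩ : G))
  refine ⟨fun g => (φ g).1, fun g h => ?_, fun x => ?_⟩
  · change (φ (g * h)).1 = (φ g).1 * (φ h).1
    rw [map_mul]
    rfl
  · have h1 : φ 1 = 1 := map_one φ
    have h2 : φ (FreeGroup.of x) = ⟨e * q x * e, hq x⟩ := FreeGroup.lift_apply_of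
    change (φ (FreeGroup.of x)).1 = (φ 1).1 * q x * (φ 1).1
    rw [h1, h2]
    rfl

attribute [local instance] Ultrafilter.mul Ultrafilter.semigroup

theorem exists_ultra : ∃ Φ : FreeGroup ℝ → Ultrafilter (List ℝ),
    (∀ (g h : FreeGroup ℝ) (p : List ℝ → Prop),
      (∀ᶠ w in (Φ (g * h) : Filter (List ℝ)), p w) ↔
        ∀ᶠ u in (Φ g : Filter (List ℝ)), ∀ᶠ w in (Φ h : Filter (List ℝ)), p (u ++ w)) ∧
    ∀ (x : ℝ) (p : List ℝ → Prop),
      (∀ᶠ w in (Φ (FreeGroup.of x) : Filter (List ℝ)), p w) ↔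
        ∀ᶠ u in (Φ 1 : Filter (List ℝ)), ∀ᶠ w in (Φ 1 : Filter (List ℝ)), p (u ++ (x :: w)) := by
  let sg : Semigroup (List ℝ) := { mul := fun a b => a ++ b, mul_assoc := List.append_assoc }
  have : Nonempty (Ultrafilter (List ℝ)) := ⟨pure []⟩
  obtain ⟨Φ, hΦ, hx⟩ := ultra_exists_hom (T := Ultrafilter (List ℝ))
    (fun V => Ultrafilter.continuous_mul_left V) (fun x => pure [x])
  refine ⟨Φ, fun g h p => ?_, fun x p => ?_⟩
  · rw [hΦ g h]
    exact Ultrafilter.eventually_mul (Φ g) (Φ h) p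
  · rw [hx x]
    rw [Ultrafilter.eventually_mul, Ultrafilter.eventually_mul]
    apply Iff.of_eq
    congr 1
    funext u
    change (∀ᶠ v in (pure [x] : Filter (List ℝ)), ∀ᶠ w in (Φ 1 : Filter (List ℝ)),
      p ((u ++ v) ++ w)) = _
    rw [Filter.eventually_pure]
    simp only [List.append_assoc, List.singleton_append]

end Vale.Agent.Lib.P058
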