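import Vale.Agent.Lib.P058.Basic
import Vale.Agent.Lib.P058.Ultra

/-!
# P058, module Realize

Every positive identity is realised monochromatically by words.

PROOF.  Take `Φ` from `exists_ultra`.
Key lemma (induction on `InP V v D`): for all `C : J → Set (List ℝ)` with
`∀ j, ∀ᶠ w in Φ (v j), w ∈ C j` there is `w : J → List ℝ` with `w j ∈ C j`, all lengths equal,
`wdist (w i) (w j) = D i j` and `wnorm (w i) - wnorm (w j) = homL (fun x => x^2) (v i)
- homL (fun x => x^2) (v j)` for all `i j`.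
* `const b`: `⋂ j, C j` is in `Φ b` (`Filter.eventually_all`, `J` finite), so it contains a word
  `w` (`Filter.Eventually.exists`); take all rows equal to `w` (`wdist w w = 0`).
* `col c`: `∀ j, ∀ᶠ u in Φ 1, ∀ᶠ w in Φ 1, u ++ (c j :: w) ∈ C j`; by finiteness of `J` first find a
  common `u`, then a common `w`.  Rows `u ++ (c j :: w)`.
* `mul`: apply the first induction hypothesis to
  `C₁ j = {u | ∀ᶠ w in Φ (v' j), u ++ w ∈ C j}`, get `u j`, then the second to
  `C₂ j = {w | u j ++ w ∈ C j}`, get `w j`; rows `u j ++ w j`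
  (`List.zipWith_append` for equal lengths).
Finally for `InD V D` and a colouring `χ` with finitely many colours, the ultrafilter `Φ b` gives a
colour `k` with `∀ᶠ w in Φ b, χ w = k` (e.g. `Ultrafilter.eventually_exists_iff`/
`Ultrafilter.map` to a finite type is principal); use `C j = {w | χ w = k}`.  If `J` is empty
everything is trivial.
-/

namespace Vale.Agent.Lib.P058

open Filter

theorem wdist_self (u : List ℝ) : wdist u u = 0 := by
  induction u with
  | nil => simp [wdist]
  | cons a u ih =>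
    simp only [wdist, List.zipWith_cons_cons, List.sum_cons] at ih ⊢
    rw [ih]; ring

theorem wdist_append {u u' w w' : List ℝ} (h : u.length = u'.length) :
    wdist (u ++ w) (u' ++ w') = wdist u u' + wdist w w' := by
  simp [wdist, List.zipWith_append h]

theorem wdist_cons (a b : ℝ) (w w' : List ℝ) :
    wdist (a :: w) (b :: w') = (a - b) ^ 2 + wdist w w' := by
  simp [wdist]

theorem wnorm_append (u w : List ℝ) : wnorm (u ++ w) = wnorm u + wnorm w := by
  simp [wnorm]

theorem wnorm_cons (a : ℝ) (w : List ℝ) : wnorm (a :: w) = a ^ 2 + wnorm w := by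
  simp [wnorm]

theorem realize_key {J : Type} [Finite J] {V : Set (J → ℝ)} (Φ : FreeGroup ℝ → Ultrafilter (List ℝ))
    (hmul : ∀ (g h : FreeGroup ℝ) (p : List ℝ → Prop),
      (∀ᶠ w in (Φ (g * h) : Filter (List ℝ)), p w) ↔
        ∀ᶠ u in (Φ g : Filter (List ℝ)), ∀ᶠ w in (Φ h : Filter (List ℝ)), p (u ++ w))
    (hof : ∀ (x : ℝ) (p : List ℝ → Prop),
      (∀ᶠ w in (Φ (FreeGroup.of x) : Filter (List ℝ)), p w) ↔
        ∀ᶠ u in (Φ 1 : Filter (List ℝ)), ∀ᶠ w in (Φ 1 : Filter (List ℝ)), p (u ++ (x :: w)))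
    {v : J → FreeGroup ℝ} {D : J → J → ℝ} (h : InP V v D) :
    ∀ C : J → Set (List ℝ), (∀ j, ∀ᶠ w in (Φ (v j) : Filter (List ℝ)), w ∈ C j) →
      ∃ w : J → List ℝ, (∀ j, w j ∈ C j) ∧ (∀ i j, (w i).length = (w j).length) ∧
        (∀ i j, wdist (w i) (w j) = D i j) ∧
        ∀ i j, wnorm (w i) - wnorm (w j)
          = homL (fun x => x ^ 2) (v i) - homL (fun x => x ^ 2) (v j) := by
  induction h with
  | const b =>
    intro C hC
    obtain ⟨w, hw⟩ := (Filter.eventually_all.2 hC).exists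
    exact ⟨fun _ => w, hw, fun _ _ => rfl, fun _ _ => wdist_self w, fun _ _ => by simp⟩
  | col c hc =>
    intro C hC
    have h1 : ∀ j, ∀ᶠ u in (Φ 1 : Filter (List ℝ)), ∀ᶠ w in (Φ 1 : Filter (List ℝ)),
        u ++ (c j :: w) ∈ C j := fun j => (hof (c j) (fun w => w ∈ C j)).1 (hC j)
    obtain ⟨u, hu⟩ := (Filter.eventually_all.2 h1).exists
    obtain ⟨w, hw⟩ := (Filter.eventually_all.2 hu).exists
    refine ⟨fun j => u ++ (c j :: w), hw, fun i j => by simp, fun i j => ?_, fun i j => ?_⟩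
    · rw [wdist_append rfl, wdist_cons, wdist_self, wdist_self]
      simp [Dm]
    · simp only [wnorm_append, wnorm_cons, colF, homL_of]
      ring
  | mul _ _ ih ih' =>
    intro C hC
    rename_i v v' D D' _ _
    obtain ⟨u, hu, hul, hud, hun⟩ := ih
      (fun j => {u | ∀ᶠ w in (Φ (v' j) : Filter (List ℝ)), u ++ w ∈ C j})
      (fun j => (hmul (v j) (v' j) (fun w => w ∈ C j)).1 (hC j))
    obtain ⟨w, hw, hwl, hwd, hwn⟩ := ih' (fun j => {w | u j ++ w ∈ C j}) (fun j => hu j)
    refine ⟨fun j => u j ++ w j, hw, fun i j => ?_, fun i j => ?_, fun i j => ?_⟩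
    · simp only [List.length_append]
      rw [hul i j, hwl i j]
    · rw [wdist_append (hul i j), hud i j, hwd i j]
      rfl
    · have e1 := hun i j
      have e2 := hwn i j
      simp only [wnorm_append, Pi.mul_apply, homL_mul]
      linarith

theorem realize {J : Type} [Finite J] (V : Set (J → ℝ)) (D : J → J → ℝ) (hD : InD V D)
    {C : Type} [Finite C] (χ : List ℝ → C) :
    ∃ w : J → List ℝ, (∀ i j, (w i).length = (w j).length) ∧
      (∀ i j, wnorm (w i) = wnorm (w j)) ∧ (∀ i j, wdist (w i) (w j) = D i j) ∧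
      ∀ i j, χ (w i) = χ (w j) := by
  obtain ⟨Φ, hmul, hof⟩ := exists_ultra
  obtain ⟨b, hb⟩ := hD
  obtain ⟨k, hk⟩ := Ultrafilter.eq_pure_of_finite ((Φ b).map χ)
  have hk' : ∀ᶠ w in (Φ b : Filter (List ℝ)), χ w = k := by
    have : ∀ᶠ c in (((Φ b).map χ : Ultrafilter C) : Filter C), c = k := by
      rw [hk]
      simp
    simpa using this
  obtain ⟨w, hw, hwl, hwd, hwn⟩ := realize_key Φ hmul hof hb (fun _ => {w | χ w = k})
    (fun _ => hk')
  refine ⟨w, hwl, fun i j => ?_, hwd, fun i j => ?_⟩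
  · have := hwn i j
    linarith
  · have h1 : χ (w i) = k := hw i
    have h2 : χ (w j) = k := hw j
    rw [h1, h2]

end Vale.Agent.Lib.P058
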