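import Vale.Agent.Lib.P058.Defs

/-!
# P058, module S0

A submonoid of `X → G` (`X` finite, `G` a group) that contains the constants and is stable under
permutations of `X` is stable under inverses.

PROOF.  Let `v ∈ A`.
Claim (induction on the finset `s`, `Finset.induction_on`): there are `u ∈ A` and `x : G` with
`(v * u) b = x` for all `b ∈ s`.
* `s = ∅`: `u = 1`.
* Step `s ∪ {b'}`, `b' ∉ s`: let `t = v * u ∈ A`, `t = x` on `s` and `z = t b'`.
  Second claim (induction on a list `L` without duplicates of elements of `s`, or on a sub-finset of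
  `s`): there is `q ∈ A` with `q = z` on `L`, `q b' = x`, and `q = x` on `s \ L`.
  For `L = []` take the constant `x`.  For `b :: L` take
  `q' = (t ∘ swap b b') * (const x⁻¹) * q`: at `b` it is `z * x⁻¹ * x = z`, at `b'` it is
  `x * x⁻¹ * x = x`, at an element of `L` it is `x * x⁻¹ * z = z`, at the other elements of `s` it is
  `x * x⁻¹ * x = x`.
  With `q` for `L = s` put `t' = t * (const x⁻¹) * q = v * (u * const x⁻¹ * q)`:
  on `s` it is `x * x⁻¹ * z = z`, and at `b'` it is `z * x⁻¹ * x = z`.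
* Conclusion with `s = univ`: `v * u = const x`, so `v⁻¹ = u * const x⁻¹ ∈ A`.
-/

namespace Vale.Agent.Lib.P058

/-- second claim: exchange the value `z` at `b'` with the values `x` on `L` -/
theorem S0_exchange {X G : Type} [DecidableEq X] [Group G] (A : Submonoid (X → G))
    (hconst : ∀ g : G, (fun _ => g) ∈ A)
    (hperm : ∀ v ∈ A, ∀ σ : Equiv.Perm X, (fun x => v (σ x)) ∈ A)
    {t : X → G} (ht : t ∈ A) {s : Finset X} {b' : X} (hb' : b' ∉ s) {x : G}
    (hx : ∀ b ∈ s, t b = x) (L : Finset X) :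
    L ⊆ s → ∃ q ∈ A, (∀ b ∈ L, q b = t b') ∧ q b' = x ∧ ∀ b ∈ s, b ∉ L → q b = x := by
  induction L using Finset.induction_on with
  | empty =>
    intro _
    exact ⟨fun _ => x, hconst x, by simp, rfl, fun _ _ _ => rfl⟩
  | insert b L hbL ih =>
    intro hL
    have hbs : b ∈ s := hL (Finset.mem_insert_self b L)
    have hLs : L ⊆ s := fun c hc => hL (Finset.mem_insert_of_mem hc)
    obtain ⟨q, hq, hq1, hq2, hq3⟩ := ih hLs
    have hne : b ≠ b' := fun h => hb' (h ▸ hbs)
    refine ⟨(fun y => t (Equiv.swap b b' y)) * (fun _ => x⁻¹) * q,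
      A.mul_mem (A.mul_mem (hperm t ht _) (hconst _)) hq, ?_, ?_, ?_⟩
    · intro c hc
      simp only [Pi.mul_apply]
      rcases Finset.mem_insert.1 hc with rfl | hc
      · rw [Equiv.swap_apply_left, hq3 c hbs hbL]
        group
      · have h1 : c ≠ b := fun h => hbL (h ▸ hc)
        have h2 : c ≠ b' := fun h => hb' (h ▸ hLs hc)
        rw [Equiv.swap_apply_of_ne_of_ne h1 h2, hx c (hLs hc), hq1 c hc]
        group
    · simp only [Pi.mul_apply]
      rw [Equiv.swap_apply_right, hx b hbs, hq2]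
      group
    · intro c hc hcL
      simp only [Pi.mul_apply]
      have h1 : c ≠ b := fun h => hcL (h ▸ Finset.mem_insert_self _ _)
      have h2 : c ≠ b' := fun h => hb' (h ▸ hc)
      rw [Equiv.swap_apply_of_ne_of_ne h1 h2, hx c hc,
        hq3 c hc fun h => hcL (Finset.mem_insert_of_mem h)]
      group

/-- first claim: `v` can be multiplied into a function that is constant on `s` -/
theorem S0_constant {X G : Type} [DecidableEq X] [Group G] (A : Submonoid (X → G))
    (hconst : ∀ g : G, (fun _ => g) ∈ A)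
    (hperm : ∀ v ∈ A, ∀ σ : Equiv.Perm X, (fun x => v (σ x)) ∈ A)
    (v : X → G) (hv : v ∈ A) (s : Finset X) :
    ∃ u ∈ A, ∃ x : G, ∀ b ∈ s, (v * u) b = x := by
  induction s using Finset.induction_on with
  | empty => exact ⟨1, A.one_mem, 1, by simp⟩
  | insert b' s hb' ih =>
    obtain ⟨u, hu, x, hx⟩ := ih
    have ht : v * u ∈ A := A.mul_mem hv hu
    obtain ⟨q, hq, hq1, hq2, -⟩ := S0_exchange A hconst hperm ht hb' hx s (fun _ h => h)
    refine ⟨u * (fun _ => x⁻¹) * q, A.mul_mem (A.mul_mem hu (hconst _)) hq, (v * u) b', ?_⟩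
    intro b hb
    have e : (v * (u * (fun _ => x⁻¹) * q) : X → G) b = (v * u) b * x⁻¹ * q b := by
      simp only [Pi.mul_apply]
      group
    rw [e]
    rcases Finset.mem_insert.1 hb with rfl | hb
    · rw [hq2]
      group
    · rw [hx b hb, hq1 b hb]
      group

theorem inv_mem_of_perm {X G : Type} [Finite X] [Group G] (A : Submonoid (X → G))
    (hconst : ∀ g : G, (fun _ => g) ∈ A)
    (hperm : ∀ v ∈ A, ∀ σ : Equiv.Perm X, (fun x => v (σ x)) ∈ A)
    (v : X → G) (hv : v ∈ A) : v⁻¹ ∈ A := by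
  classical
  cases nonempty_fintype X
  obtain ⟨u, hu, x, hx⟩ := S0_constant A hconst hperm v hv Finset.univ
  have e : v⁻¹ = u * fun _ => x⁻¹ := by
    funext b
    have h1 := hx b (Finset.mem_univ b)
    simp only [Pi.mul_apply, Pi.inv_apply] at h1 ⊢
    rw [← h1]
    group
  rw [e]
  exact A.mul_mem hu (hconst _)

end Vale.Agent.Lib.P058
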