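import Vale.Agent.Lib.P058.Main2

/-!
# P058, module Simplex: affinely independent sets

PROOF.  `IsRamsey` is inherited by isometrically embedded sets (`isRamsey_mono`).
Let `A` be finite and affinely independent.
* If `A` has at most `2` points it embeds isometrically in a three-point affinely independent set
  (`IsRamsey` for `A = ∅`, or one point, is also immediate: any constant map).
* If `A` has at least three points `y₁, y₂, y₃, …`: it lies on a sphere with centre `z`
  (Mathlib: `AffineIndependent.existsUnique_dist_eq` / `Affine.Simplex.circumsphere`).  With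
  `e₂ = y₂ - y₁`, `e₃ = y₃ - y₁`, `s = (‖e₂‖² + ‖e₃‖²) / ‖e₂ + e₃‖²`, `q = y₁ + s • (e₂ + e₃)`:
  `2 ⟪z - y₁, e_i⟫ = ‖e_i‖²` so `‖q - z‖² = ‖y₁ - z‖² - 2 s ⟪z - y₁, e₂ + e₃⟫ + s² ‖e₂ + e₃‖² = ‖y₁ - z‖²`.
  `q ∉ A`: affine coefficients `1 - 2 s, s, s` with `s > 0` (`e₂ + e₃ ≠ 0` by affine independence):
  if `q ∈ A` then by affine independence it would be a vertex, but two of its coefficients are
  `s ≠ 0`.
  So `insert q A` satisfies `isRamsey_of_affineIndependent`, and `A` is a subset of it.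
-/

namespace Vale.Agent.Lib.P058

open scoped RealInnerProductSpace

private theorem isRamsey_of_subsingleton {d : ℕ} (A : Set (EuclideanSpace ℝ (Fin d)))
    (h : A.Subsingleton) : IsRamsey A := by
  intro r _
  refine ⟨1, le_refl 1, fun c => ⟨fun _ => 0, ?_, fun _ _ => rfl⟩⟩
  refine Isometry.of_dist_eq fun x y => ?_
  have hxy : x = y := Subtype.ext (h x.2 y.2)
  subst hxy
  simp

private theorem dist_single {n : ℕ} {i j : Fin n} (hij : i ≠ j) (t : ℝ) (ht : 0 ≤ t) :
    dist (EuclideanSpace.single i (t / √2) : EuclideanSpace ℝ (Fin n))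
      (EuclideanSpace.single j (t / √2)) = t := by
  rw [EuclideanSpace.dist_eq]
  have h1 : ∀ k : Fin n, dist ((EuclideanSpace.single i (t / √2) : EuclideanSpace ℝ (Fin n)) k)
      ((EuclideanSpace.single j (t / √2) : EuclideanSpace ℝ (Fin n)) k) ^ 2
      = (if k = i then t ^ 2 / 2 else 0) + (if k = j then t ^ 2 / 2 else 0) := by
    intro k
    rw [Real.dist_eq, sq_abs]
    have h2 : (t / √2) ^ 2 = t ^ 2 / 2 := by
      rw [div_pow, Real.sq_sqrt (by norm_num : (0 : ℝ) ≤ 2)]
    by_cases hi : k = i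
    · subst hi
      simp [hij, h2]
    · by_cases hj : k = j
      · subst hj
        simp [hi, h2]
      · simp [hi, hj]
  rw [Finset.sum_congr rfl fun k _ => h1 k, Finset.sum_add_distrib]
  simp [Real.sqrt_sq ht]

private theorem isRamsey_pair {d : ℕ} (x y : EuclideanSpace ℝ (Fin d)) (hxy : x ≠ y) :
    IsRamsey ({x, y} : Set (EuclideanSpace ℝ (Fin d))) := by
  classical
  intro r _
  refine ⟨r + 1, by omega, fun c => ?_⟩
  obtain ⟨i, j, hij, hc⟩ := Fintype.exists_ne_map_eq_of_card_lt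
    (fun i : Fin (r + 1) => c (EuclideanSpace.single i (dist x y / √2))) (by simp)
  refine ⟨fun a => if (a : EuclideanSpace ℝ (Fin d)) = x then
    EuclideanSpace.single i (dist x y / √2) else EuclideanSpace.single j (dist x y / √2), ?_, ?_⟩
  · refine Isometry.of_dist_eq ?_
    rintro ⟨a, ha⟩ ⟨b, hb⟩
    have hyx : y ≠ x := fun h => hxy h.symm
    rcases ha with ha | ha <;> rcases hb with hb | hb
    · subst ha; subst hb; simp
    · subst ha
      have hb' : b = y := hb
      subst hb'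
      simp only [Subtype.dist_eq, if_true, if_neg hyx]
      exact dist_single hij _ dist_nonneg
    · subst hb
      have ha' : a = y := ha
      subst ha'
      simp only [Subtype.dist_eq, if_true, if_neg hyx]
      rw [dist_comm a b]
      exact dist_single hij.symm _ dist_nonneg
    · have ha' : a = y := ha
      have hb' : b = y := hb
      subst ha'; subst hb'; simp
  · rintro ⟨a, ha⟩ ⟨b, hb⟩
    simp only
    split_ifs
    · rfl
    · exact hc
    · exact hc.symm
    · rfl

private theorem lin_of_ind {V : Type*} [AddCommGroup V] [Module ℝ V] {ι : Type*} {p : ι → V}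
    (h : AffineIndependent ℝ p) {i j k : ι} (hij : i ≠ j) (hik : i ≠ k) (hjk : j ≠ k) (a b : ℝ)
    (h0 : a • (p j - p i) + b • (p k - p i) = 0) : a = 0 ∧ b = 0 := by
  classical
  have h1 := (affineIndependent_iff (k := ℝ) (p := p)).1 h {i, j, k}
    (fun m => if m = i then -(a + b) else if m = j then a else b) ?_ ?_
  · have hj := h1 j (by simp)
    have hk := h1 k (by simp)
    simp only [if_neg hij.symm, if_true] at hj
    simp only [if_neg hik.symm, if_neg hjk.symm] at hk
    exact ⟨hj, hk⟩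
  · rw [Finset.sum_insert (by simp [hij, hik]), Finset.sum_insert (by simp [hjk]),
      Finset.sum_singleton]
    simp only [if_true, if_neg hij.symm, if_neg hik.symm, if_neg hjk.symm]
    ring
  · rw [Finset.sum_insert (by simp [hij, hik]), Finset.sum_insert (by simp [hjk]),
      Finset.sum_singleton]
    simp only [if_true, if_neg hij.symm, if_neg hik.symm, if_neg hjk.symm]
    rw [← h0]
    module

theorem isRamsey_simplex {d : ℕ} (A : Set (EuclideanSpace ℝ (Fin d)))
    (hfin : A.Finite)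
    (hind : AffineIndependent ℝ (fun x : A => (x : EuclideanSpace ℝ (Fin d)))) : IsRamsey A := by
  classical
  by_cases hs : A.Subsingleton
  · exact isRamsey_of_subsingleton A hs
  rw [Set.not_subsingleton_iff] at hs
  obtain ⟨y₁, h₁, y₂, h₂, h12⟩ := hs
  by_cases h3 : ∃ y₃ ∈ A, y₁ ≠ y₃ ∧ y₂ ≠ y₃
  swap
  · have hA : A = {y₁, y₂} := by
      ext x
      constructor
      · intro hx
        by_contra hne
        apply h3
        refine ⟨x, hx, fun h => hne ?_, fun h => hne ?_⟩
        · rw [h]; exact Set.mem_insert _ _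
        · rw [h]; exact Set.mem_insert_of_mem _ rfl
      · rintro (h | h)
        · rw [h]; exact h₁
        · rw [h]; exact h₂
    rw [hA]
    exact isRamsey_pair y₁ y₂ h12
  obtain ⟨y₃, h₃, h13, h23⟩ := h3
  have hlin : ∀ a b : ℝ, a • (y₂ - y₁) + b • (y₃ - y₁) = 0 → a = 0 ∧ b = 0 := fun a b h0 =>
    lin_of_ind hind (i := ⟨y₁, h₁⟩) (j := ⟨y₂, h₂⟩) (k := ⟨y₃, h₃⟩)
      (fun h => h12 (congrArg Subtype.val h)) (fun h => h13 (congrArg Subtype.val h))
      (fun h => h23 (congrArg Subtype.val h)) a b h0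
  have hAne : Nonempty A := ⟨⟨y₁, h₁⟩⟩
  have hAfin : Finite A := hfin.to_subtype
  obtain ⟨cs, ⟨-, hcs⟩, -⟩ := hind.existsUnique_dist_eq
  have hsph : ∀ x ∈ A, dist x cs.center = cs.radius := by
    intro x hx
    exact EuclideanGeometry.mem_sphere.1 (hcs ⟨⟨x, hx⟩, rfl⟩)
  set z := cs.center with hz
  -- the additional point
  set e₂ := y₂ - y₁ with he₂
  set e₃ := y₃ - y₁ with he₃
  have hne : e₂ + e₃ ≠ 0 := by
    intro h
    have := hlin 1 1 (by simpa using h)
    exact one_ne_zero this.1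
  have hpos : 0 < ‖e₂ + e₃‖ ^ 2 := by positivity
  have he2 : e₂ ≠ 0 := by
    intro h
    have := hlin 1 0 (by simp [h])
    exact one_ne_zero this.1
  have hpos2 : 0 < ‖e₂‖ ^ 2 + ‖e₃‖ ^ 2 := by positivity
  set s : ℝ := (‖e₂‖ ^ 2 + ‖e₃‖ ^ 2) / ‖e₂ + e₃‖ ^ 2 with hs
  have hspos : 0 < s := div_pos hpos2 hpos
  set q := y₁ + s • (e₂ + e₃) with hq
  have hin : ∀ y ∈ A, 2 * ⟪z - y₁, y - y₁⟫ = ‖y - y₁‖ ^ 2 := by
    intro y hy
    have ha := hsph y hy
    have hb := hsph y₁ h₁
    rw [dist_eq_norm] at ha hb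
    have hc : y - z = (y - y₁) - (z - y₁) := by abel
    have hd : ‖y - z‖ ^ 2 = ‖y - y₁‖ ^ 2 - 2 * ⟪y - y₁, z - y₁⟫ + ‖z - y₁‖ ^ 2 := by
      rw [hc, norm_sub_sq_real]
    rw [norm_sub_rev y₁ z] at hb
    rw [ha, hb, real_inner_comm] at hd
    linarith
  have hqz : dist q z = cs.radius := by
    have hb := hsph y₁ h₁
    rw [← hb, dist_eq_norm, dist_eq_norm, norm_sub_rev y₁ z]
    have hc : q - z = s • (e₂ + e₃) - (z - y₁) := by rw [hq]; abel
    have hd : ‖q - z‖ ^ 2 = ‖z - y₁‖ ^ 2 := by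
      rw [hc, norm_sub_sq_real, norm_smul, inner_smul_left, real_inner_comm, inner_add_right,
        mul_pow, Real.norm_eq_abs, sq_abs]
      have h2 := hin y₂ h₂
      have h3 := hin y₃ h₃
      rw [← he₂] at h2
      rw [← he₃] at h3
      simp only [conj_trivial]
      have h4 : s * ‖e₂ + e₃‖ ^ 2 = ‖e₂‖ ^ 2 + ‖e₃‖ ^ 2 := by
        rw [hs]; field_simp
      nlinarith
    exact (sq_eq_sq₀ (norm_nonneg _) (norm_nonneg _)).1 hd
  have hq1 : y₁ ≠ q := by
    intro h
    have h1 : s • (e₂ + e₃) = 0 := by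
      have : y₁ + s • (e₂ + e₃) = y₁ := h.symm
      simpa using this
    rcases smul_eq_zero.1 h1 with h2 | h2
    · exact hspos.ne' h2
    · exact hne h2
  have hq2 : y₂ ≠ q := by
    intro h
    have h1 : (s - 1) • e₂ + s • e₃ = 0 := by
      have h5 : q - y₂ = 0 := by rw [← h]; simp
      rw [← h5, hq, he₂]
      module
    exact hspos.ne' (hlin _ _ h1).2
  have hq3 : y₃ ≠ q := by
    intro h
    have h1 : s • e₂ + (s - 1) • e₃ = 0 := by
      have h5 : q - y₃ = 0 := by rw [← h]; simp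
      rw [← h5, hq, he₃]
      module
    exact hspos.ne' (hlin _ _ h1).1
  have hbig : IsRamsey (insert q A) := by
    refine isRamsey_of_affineIndependent (insert q A) (hfin.insert q) ⟨z, cs.radius, ?_⟩ q
      (Set.mem_insert _ _) ?_ ?_
    · rintro x (hx | hx)
      · rw [hx]; exact hqz
      · exact hsph x hx
    · let φ : {x // x ∈ insert q A ∧ x ≠ q} ↪ A :=
        ⟨fun x => ⟨x.1, x.2.1.resolve_left x.2.2⟩, fun x y h => by
          have := congrArg Subtype.val h
          exact Subtype.ext this⟩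
      exact hind.comp_embedding φ
    · have m1 : y₁ ∈ affineSpan ℝ (insert q A \ {q}) :=
        subset_affineSpan ℝ _ ⟨Set.mem_insert_of_mem _ h₁, hq1⟩
      have m2 : y₂ ∈ affineSpan ℝ (insert q A \ {q}) :=
        subset_affineSpan ℝ _ ⟨Set.mem_insert_of_mem _ h₂, hq2⟩
      have m3 : y₃ ∈ affineSpan ℝ (insert q A \ {q}) :=
        subset_affineSpan ℝ _ ⟨Set.mem_insert_of_mem _ h₃, hq3⟩
      have d1 := AffineSubspace.smul_vsub_vadd_mem _ s m2 m1 m1
      have d2 := AffineSubspace.smul_vsub_vadd_mem _ s m3 m1 d1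
      simp only [vsub_eq_sub, vadd_eq_add] at d2
      have hqe : q = s • (y₃ - y₁) + (s • (y₂ - y₁) + y₁) := by
        rw [hq, he₂, he₃]
        module
      rwa [← hqe] at d2
  exact isRamsey_mono (fun x : A => (⟨x.1, Set.mem_insert_of_mem _ x.2⟩ : ↥(insert q A)))
    (Isometry.of_dist_eq fun _ _ => rfl) hbig

end Vale.Agent.Lib.P058
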