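import Vale.Agent.Lib.P058.Compact

/-!
# P058, module Sphere

The words of `realize_finite` are put on a sphere of large radius.

PROOF.  Let `W` be the finite set of words of `realize_finite` with `C = Fin (k + 1)`.
Let `N` bound the lengths and `R > max R0 0` with `R ^ 2 ≥ wnorm u` for all `u ∈ W`.
Map a word `u` to the point `φ u ∈ EuclideanSpace ℝ (Fin (N + 1))` with coordinates
`i ↦ u.getD i 0` for `i < N` and last coordinate `√(R ^ 2 - wnorm u)`
(`Fin.snoc` or `if (i : ℕ) < N then .. else ..`; `Fin.sum_univ_castSucc`).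
For `u` of length `≤ N`: `∑_{i<N} (u.getD i 0) ^ 2 = wnorm u`, and for two words of equal length
`≤ N`, `∑_{i<N} (u.getD i 0 - u'.getD i 0) ^ 2 = wdist u u'` (induction on the lists).
So `‖φ u‖ = R` for `u ∈ W`, and `dist (φ u) (φ u') ^ 2 = wdist u u'` when moreover
`wnorm u = wnorm u'`.  Take the finite set `W.image φ`.
Given `χ`, `K` with `K.card ≤ k` there is `ι : ℕ → Fin (k+1)` injective on `K`
(`K` embeds in `Fin k`, or use `Finset.exists_embedding..`/`K.equivFin`); colour the words by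
`ι ∘ χ ∘ φ`.
-/

namespace Vale.Agent.Lib.P058

theorem Sphere_wnorm (u : List ℝ) : ∀ N : ℕ, u.length ≤ N →
    ∑ i ∈ Finset.range N, (u.getD i 0) ^ 2 = wnorm u := by
  induction u with
  | nil =>
    intro N _
    simp [wnorm]
  | cons a u ih =>
    intro N hN
    obtain ⟨M, rfl⟩ : ∃ M, N = M + 1 := ⟨N - 1, by simp at hN; omega⟩
    rw [Finset.sum_range_succ']
    have h1 := ih M (by simpa using hN)
    have h2 : ∀ i, ((a :: u).getD (i + 1) 0) = u.getD i 0 := fun i => by simp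
    have h3 : ((a :: u).getD 0 0) = a := by simp
    simp only [h2, h3, h1]
    unfold wnorm
    rw [List.map_cons, List.sum_cons, add_comm]

theorem Sphere_wdist (u : List ℝ) : ∀ (v : List ℝ) (N : ℕ), u.length = v.length → u.length ≤ N →
    ∑ i ∈ Finset.range N, (u.getD i 0 - v.getD i 0) ^ 2 = wdist u v := by
  induction u with
  | nil =>
    intro v N hv _
    have h : v = [] := List.length_eq_zero_iff.mp hv.symm
    subst h
    simp [wdist]
  | cons a u ih =>
    intro v N hv hN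
    obtain ⟨b, v', rfl⟩ : ∃ b v', v = b :: v' := by
      cases v with
      | nil => simp at hv
      | cons b v' => exact ⟨b, v', rfl⟩
    obtain ⟨M, rfl⟩ : ∃ M, N = M + 1 := ⟨N - 1, by simp at hN; omega⟩
    rw [Finset.sum_range_succ']
    have h1 := ih v' M (by simpa using hv) (by simpa using hN)
    have h2 : ∀ i, ((a :: u).getD (i + 1) 0) = u.getD i 0 := fun i => by simp
    have h2' : ∀ i, ((b :: v').getD (i + 1) 0) = v'.getD i 0 := fun i => by simp
    have h3 : ((a :: u).getD 0 0) = a := by simp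
    have h3' : ((b :: v').getD 0 0) = b := by simp
    simp only [h2, h2', h3, h3', h1]
    unfold wdist
    rw [List.zipWith_cons_cons, List.sum_cons, add_comm]

/-- the point of the sphere of radius `R` given by a word -/
noncomputable def Sphere_pt (N : ℕ) (R : ℝ) (u : List ℝ) : EuclideanSpace ℝ (Fin (N + 1)) :=
  WithLp.toLp 2 (Fin.snoc (fun i : Fin N => u.getD i 0) (Real.sqrt (R ^ 2 - wnorm u)))

theorem Sphere_pt_castSucc (N : ℕ) (R : ℝ) (u : List ℝ) (i : Fin N) :
    Sphere_pt N R u i.castSucc = u.getD i 0 := by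
  change (Fin.snoc (fun i : Fin N => u.getD i 0) (Real.sqrt (R ^ 2 - wnorm u)) :
    Fin (N + 1) → ℝ) i.castSucc = _
  rw [Fin.snoc_castSucc]

theorem Sphere_pt_last (N : ℕ) (R : ℝ) (u : List ℝ) :
    Sphere_pt N R u (Fin.last N) = Real.sqrt (R ^ 2 - wnorm u) := by
  change (Fin.snoc (fun i : Fin N => u.getD i 0) (Real.sqrt (R ^ 2 - wnorm u)) :
    Fin (N + 1) → ℝ) (Fin.last N) = _
  rw [Fin.snoc_last]

theorem Sphere_norm (N : ℕ) (R : ℝ) (hR : 0 ≤ R) (u : List ℝ) (hu : u.length ≤ N)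
    (huR : wnorm u ≤ R ^ 2) : ‖Sphere_pt N R u‖ = R := by
  have h1 : ‖Sphere_pt N R u‖ ^ 2 = R ^ 2 := by
    rw [EuclideanSpace.norm_sq_eq, Fin.sum_univ_castSucc]
    simp only [Sphere_pt_castSucc, Sphere_pt_last, Real.norm_eq_abs, sq_abs]
    rw [Fin.sum_univ_eq_sum_range (fun i => (u.getD i 0) ^ 2) N, Sphere_wnorm u N hu,
      Real.sq_sqrt (by linarith)]
    ring
  exact (pow_left_inj₀ (norm_nonneg _) hR two_ne_zero).mp h1

theorem Sphere_dist (N : ℕ) (R : ℝ) (u v : List ℝ) (hu : u.length ≤ N)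
    (hl : u.length = v.length) (hn : wnorm u = wnorm v) :
    dist (Sphere_pt N R u) (Sphere_pt N R v) ^ 2 = wdist u v := by
  rw [dist_eq_norm, EuclideanSpace.norm_sq_eq, Fin.sum_univ_castSucc]
  simp only [PiLp.sub_apply, Sphere_pt_castSucc, Sphere_pt_last, Real.norm_eq_abs, sq_abs]
  rw [Fin.sum_univ_eq_sum_range (fun i => (u.getD i 0 - v.getD i 0) ^ 2) N,
    Sphere_wdist u v N hl hu, hn, sub_self]
  ring

theorem sphere_finite {J : Type} [Finite J] (V : Set (J → ℝ)) (D : J → J → ℝ)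
    (hD : InD V D) (k : ℕ) (R0 : ℝ) :
    ∃ (n : ℕ) (W : Finset (EuclideanSpace ℝ (Fin n))) (R : ℝ), R0 < R ∧ (∀ x ∈ W, ‖x‖ = R) ∧
      ∀ (χ : EuclideanSpace ℝ (Fin n) → ℕ) (K : Finset ℕ), K.card ≤ k → (∀ x ∈ W, χ x ∈ K) →
        ∃ u : J → EuclideanSpace ℝ (Fin n), (∀ j, u j ∈ W) ∧
          (∀ i j, dist (u i) (u j) ^ 2 = D i j) ∧ ∀ i j, χ (u i) = χ (u j) := by
  classical
  obtain ⟨W, hW⟩ := realize_finite V D hD (Fin (k + 1))
  obtain ⟨N, hN⟩ : ∃ N : ℕ, ∀ u ∈ W, u.length ≤ N :=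
    ⟨W.sup List.length, fun u hu => Finset.le_sup (f := List.length) hu⟩
  obtain ⟨B, hB⟩ : ∃ B : ℝ, ∀ u ∈ W, wnorm u ≤ B := by
    refine ⟨∑ u ∈ W, |wnorm u|, fun u hu => (le_abs_self _).trans ?_⟩
    exact Finset.single_le_sum (f := fun u => |wnorm u|) (fun _ _ => abs_nonneg _) hu
  set R : ℝ := |R0| + |B| + 1 with hRdef
  have hR0 : R0 < R := by
    have h1 := le_abs_self R0
    have h2 := abs_nonneg B
    rw [hRdef]
    linarith
  have hR : 1 ≤ R := by
    have h1 := abs_nonneg R0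
    have h2 := abs_nonneg B
    rw [hRdef]
    linarith
  have hBR : ∀ u ∈ W, wnorm u ≤ R ^ 2 := by
    intro u hu
    have h1 := hB u hu
    have h2 := le_abs_self B
    have h3 := abs_nonneg R0
    have h4 : B ≤ R := by
      rw [hRdef]
      linarith
    nlinarith
  refine ⟨N + 1, W.image (Sphere_pt N R), R, hR0, ?_, ?_⟩
  · intro x hx
    obtain ⟨u, hu, rfl⟩ := Finset.mem_image.mp hx
    exact Sphere_norm N R (by linarith) u (hN u hu) (hBR u hu)
  · intro χ K hK hχ
    set ι : ℕ → Fin (k + 1) := fun n =>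
      if h : n ∈ K then Fin.castLE (by omega) (K.equivFin ⟨n, h⟩) else 0 with hι
    have hinj : ∀ a ∈ K, ∀ b ∈ K, ι a = ι b → a = b := by
      intro a ha b hb hab
      simp only [hι, dif_pos ha, dif_pos hb] at hab
      have h1 := Fin.castLE_injective _ hab
      have h2 := K.equivFin.injective h1
      exact congrArg Subtype.val h2
    obtain ⟨w, hw1, hw2, hw3, hw4, hw5⟩ := hW fun u => ι (χ (Sphere_pt N R u))
    have hmem : ∀ j, Sphere_pt N R (w j) ∈ W.image (Sphere_pt N R) := fun j =>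
      Finset.mem_image_of_mem _ (hw1 j)
    refine ⟨fun j => Sphere_pt N R (w j), hmem, fun i j => ?_, fun i j => ?_⟩
    · rw [Sphere_dist N R (w i) (w j) (hN _ (hw1 i)) (hw2 i j) (hw3 i j)]
      exact hw4 i j
    · exact hinj _ (hχ _ (hmem i)) _ (hχ _ (hmem j)) (hw5 i j)

end Vale.Agent.Lib.P058
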