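import Vale.Agent.Lib.P058.Duality
import Vale.Agent.Lib.P058.Sphere
import Vale.Agent.Lib.P058.Geom
import Vale.Agent.Lib.P058.Affine

/-!
# P058, module Step: the induction over the number of colours
-/

namespace Vale.Agent.Lib.P058

/-- the base case: no colour -/
theorem sram_zero {I : Type} {d : ℕ} (a : I → EuclideanSpace ℝ (Fin d)) : SRam 0 a := by
  intro R0
  refine ⟨1, {EuclideanSpace.single 0 (|R0| + 1)}, |R0| + 1, ?_, by simp, ?_, ?_⟩
  · linarith [le_abs_self R0]
  · intro z hz
    rw [Finset.mem_singleton] at hz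
    subst hz
    rw [EuclideanSpace.norm_single, Real.norm_eq_abs, abs_of_pos]
    positivity
  · intro χ K hK h
    exfalso
    have := h _ (Finset.mem_singleton_self _)
    rw [Nat.le_zero, Finset.card_eq_zero] at hK
    rw [hK] at this
    simp at this

/-- the distances inside a group, to the apex and between apexes -/
theorem sram_succ {Y : Type} [Fintype Y] {d : ℕ}
    (p : Y → EuclideanSpace ℝ (Fin d)) (q : EuclideanSpace ℝ (Fin d)) (α : Y → ℝ)
    (hsum : ∑ y, α y = 1) (hq : ∑ y, α y • p y = q) (ρ : ℝ) (hp : ∀ y, ‖p y‖ = ρ) (hqρ : ‖q‖ = ρ)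
    (htwo : ∀ p : Y, ∃ r t : Y, r ≠ t ∧ r ≠ p ∧ t ≠ p ∧ α r ≠ 0 ∧ α t ≠ 0)
    (hspan : ∀ δ : Y → ℝ, ∑ y, α y * δ y = 0 →
      ∃ g : EuclideanSpace ℝ (Fin d), ∀ y, inner ℝ g (p y - q) = δ y)
    (r : ℕ) (a : Option Y → EuclideanSpace ℝ (Fin d)) (ha0 : a none = q)
    (ha : ∀ y, a (some y) = p y) (h : SRam r a) : SRam (r + 1) a := by
  classical
  intro R0
  obtain ⟨N, Z, R, hR, hZne, hZR, hZ⟩ := h ρ
  let β : Type := {z // z ∈ Z}
  have : Nonempty β := hZne.to_subtype
  let z : β → EuclideanSpace ℝ (Fin N) := fun b => b.1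
  obtain ⟨v, R1, hv, hv1, hv2, hv3, hv4, ⟨g1, hg1⟩, hloc⟩ :=
    geometry p q α hsum hq ρ hp hqρ hspan z R hR (fun b => hZR _ b.2)
  let T : EuclideanSpace ℝ (Fin N ⊕ (β × Fin d) ⊕ Unit) →ₗ[ℝ] (β × Y → ℝ) :=
    { toFun := fun g j => inner ℝ g (v j)
      map_add' := fun g g' => by funext j; simp [inner_add_left]
      map_smul' := fun c g => by funext j; simp [inner_smul_left] }
  let V : Submodule ℝ (β × Y → ℝ) := LinearMap.range T
  have hV : GoodV α V :=
    { sum_one := hsum
      two := htwo
      one_mem := ⟨g1, by funext j; exact hg1 j⟩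
      loc_mem := fun w δ hδ => by
        obtain ⟨g, hg⟩ := hloc w δ hδ
        exact ⟨g, by funext j; exact hg j⟩ }
  have hrange : ∀ c : β × Y → ℝ, c ∈ V ↔
      ∃ g : EuclideanSpace ℝ (Fin N ⊕ (β × Fin d) ⊕ Unit), ∀ j, c j = inner ℝ g (v j) := by
    intro c
    constructor
    · rintro ⟨g, rfl⟩
      exact ⟨g, fun j => rfl⟩
    · rintro ⟨g, hg⟩
      exact ⟨g, by funext j; exact (hg j).symm⟩
  have hD := duality v R1 hv V hV hrange
  obtain ⟨n, W, R2, hR2, hWR, hW⟩ := sphere_finite (V : Set (β × Y → ℝ)) _ hD (r + 1) R0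
  -- the completed finite set
  let comp : (Y → {x // x ∈ W}) → EuclideanSpace ℝ (Fin n) := fun u => ∑ y, α y • (u y).1
  let W' : Finset (EuclideanSpace ℝ (Fin n)) :=
    W ∪ ((Finset.univ.image comp).filter (fun x => ‖x‖ = R2))
  -- `W` is nonempty: any colouring has a family
  have hWne : W.Nonempty := by
    by_contra hne
    rw [Finset.not_nonempty_iff_eq_empty] at hne
    obtain ⟨u, hu, -, -⟩ := hW (fun _ => 0) ∅ (by simp) (by simp [hne])
    have : Nonempty Y := by
      by_contra h
      rw [not_nonempty_iff] at h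
      simp at hsum
    have b : β := Classical.arbitrary β
    have y : Y := Classical.arbitrary Y
    have := hu (b, y)
    rw [hne] at this
    simp at this
  refine ⟨n, W', R2, hR2, hWne.mono Finset.subset_union_left, ?_, ?_⟩
  · intro x hx
    rcases Finset.mem_union.1 hx with hx | hx
    · exact hWR x hx
    · exact (Finset.mem_filter.1 hx).2
  · intro χ K hK hχ
    obtain ⟨u, huW, hud, huχ⟩ := hW χ K hK (fun x hx => hχ x (Finset.mem_union_left _ hx))
    have hdist : ∀ i j, dist (u i) (u j) = dist (v i) (v j) := by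
      intro i j
      have h1 := hud i j
      rw [← dist_eq_norm (v i) (v j)] at h1
      exact (pow_left_inj₀ dist_nonneg dist_nonneg two_ne_zero).1 h1
    -- apexes
    let A : β → EuclideanSpace ℝ (Fin n) := fun b => ∑ y, α y • u (b, y)
    have hAA : ∀ b b', dist (A b) (A b') = dist (z b) (z b') := by
      intro b b'
      rw [← hv3 b b', dist_eq_norm, dist_eq_norm]
      have e1 : A b - A b' = ∑ j : Y ⊕ Y, (Sum.elim α (fun y => - α y)) j •
          (Sum.elim (fun y => u (b, y)) (fun y => u (b', y))) j := by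
        simp only [Fintype.sum_sum_type, Sum.elim_inl, Sum.elim_inr, neg_smul,
          Finset.sum_neg_distrib, ← sub_eq_add_neg, A]
      have e2 : (∑ y, α y • v (b, y)) - (∑ y, α y • v (b', y)) =
          ∑ j : Y ⊕ Y, (Sum.elim α (fun y => - α y)) j •
          (Sum.elim (fun y => v (b, y)) (fun y => v (b', y))) j := by
        simp only [Fintype.sum_sum_type, Sum.elim_inl, Sum.elim_inr, neg_smul,
          Finset.sum_neg_distrib, ← sub_eq_add_neg]
      rw [e1, e2]
      apply norm_comb_eq
      · rintro (i | i) (j | j) <;> simp [hdist]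
      · simp [Fintype.sum_sum_type]
    have hAu : ∀ b y, dist (A b) (u (b, y)) = dist q (p y) := by
      intro b y
      rw [← hv2 b y, dist_eq_norm, dist_eq_norm]
      have e1 : A b - u (b, y) = ∑ j : Option Y, (fun j => Option.elim j (-1) α) j •
          ((fun j : Option Y => u (b, j.getD y)) j) := by
        rw [Fintype.sum_option]
        simp only [Option.elim, Option.getD_none, Option.getD_some, A]
        rw [neg_one_smul]
        abel
      have e2 : (∑ y', α y' • v (b, y')) - v (b, y) = ∑ j : Option Y, (fun j => Option.elim j (-1) α) j •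
          ((fun j : Option Y => v (b, j.getD y)) j) := by
        rw [Fintype.sum_option]
        simp only [Option.elim, Option.getD_none, Option.getD_some]
        rw [neg_one_smul]
        abel
      rw [e1, e2]
      apply norm_comb_eq
      · intro i j
        exact hdist _ _
      · rw [Fintype.sum_option]
        simp [hsum]
    have hAn : ∀ b, ‖A b‖ = R2 := by
      intro b
      have hb := norm_comb_one (fun y => u (b, y)) (fun y => v (b, y)) (fun i j => hdist _ _)
        R2 R1 (fun y => hWR _ (huW _)) (fun y => hv _) α hsum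
      rw [hv4 b, sub_self, sub_eq_zero] at hb
      have hR2' : 0 ≤ R2 := by
        obtain ⟨x, hx⟩ := hWne
        rw [← hWR x hx]
        exact norm_nonneg _
      exact (pow_left_inj₀ (norm_nonneg _) hR2' two_ne_zero).1 hb
    have hAW : ∀ b, A b ∈ W' := by
      intro b
      refine Finset.mem_union_right _ (Finset.mem_filter.2 ⟨?_, hAn b⟩)
      exact Finset.mem_image.2 ⟨fun y => ⟨u (b, y), huW _⟩, Finset.mem_univ _, rfl⟩
    -- the colour of `u`
    obtain ⟨b0⟩ := (inferInstance : Nonempty β)
    have hYne : Nonempty Y := by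
      by_contra h
      rw [not_nonempty_iff] at h
      simp at hsum
    obtain ⟨y0⟩ := hYne
    set k := χ (u (b0, y0)) with hk
    by_cases hex : ∃ b, χ (A b) = k
    · obtain ⟨b, hb⟩ := hex
      refine ⟨fun i => Option.elim i (A b) (fun y => u (b, y)), ?_, ?_, ?_⟩
      · rintro (_ | y)
        · exact hAW b
        · exact Finset.mem_union_left _ (huW _)
      · rintro (_ | y) (_ | y')
        · simp
        · simpa [ha0, ha] using hAu b y'
        · simpa [ha0, ha, dist_comm] using hAu b y
        · simpa [ha] using (hdist (b, y) (b, y')).trans (hv1 b y y')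
      · have hcol : ∀ i : Option Y, χ (Option.elim i (A b) (fun y => u (b, y))) = k := by
          rintro (_ | y)
          · exact hb
          · exact huχ _ _
        intro i j
        rw [hcol i, hcol j]
    · push Not at hex
      -- colour `Z` by the colours of the apexes
      have hkK : k ∈ K := hχ _ (Finset.mem_union_left _ (huW _))
      let χ' : EuclideanSpace ℝ (Fin N) → ℕ := fun x =>
        if hx : x ∈ Z then χ (A ⟨x, hx⟩) else 0
      obtain ⟨f, hfZ, hfd, hfχ⟩ := hZ χ' (K.erase k) (by
          rw [Finset.card_erase_of_mem hkK]; omega) (by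
          intro x hx
          simp only [χ', dif_pos hx]
          exact Finset.mem_erase.2 ⟨hex _, hχ _ (hAW _)⟩)
      refine ⟨fun i => A ⟨f i, hfZ i⟩, fun i => hAW _, ?_, ?_⟩
      · intro i j
        rw [hAA, ← hfd i j]
      · intro i j
        have := hfχ i j
        simpa only [χ', dif_pos (hfZ i), dif_pos (hfZ j)] using this

theorem sram_all {Y : Type} [Fintype Y] {d : ℕ}
    (p : Y → EuclideanSpace ℝ (Fin d)) (q : EuclideanSpace ℝ (Fin d)) (α : Y → ℝ)
    (hsum : ∑ y, α y = 1) (hq : ∑ y, α y • p y = q) (ρ : ℝ) (hp : ∀ y, ‖p y‖ = ρ) (hqρ : ‖q‖ = ρ)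
    (htwo : ∀ p : Y, ∃ r t : Y, r ≠ t ∧ r ≠ p ∧ t ≠ p ∧ α r ≠ 0 ∧ α t ≠ 0)
    (hspan : ∀ δ : Y → ℝ, ∑ y, α y * δ y = 0 →
      ∃ g : EuclideanSpace ℝ (Fin d), ∀ y, inner ℝ g (p y - q) = δ y)
    (a : Option Y → EuclideanSpace ℝ (Fin d)) (ha0 : a none = q)
    (ha : ∀ y, a (some y) = p y) (r : ℕ) : SRam r a := by
  induction r with
  | zero => exact sram_zero a
  | succ r ih => exact sram_succ p q α hsum hq ρ hp hqρ htwo hspan r a ha0 ha ih

end Vale.Agent.Lib.P058
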