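import Vale.Agent.Lib.P058.UnitsA

/-!
# P058, module Units

Columns of `V` have inverses in `P`.

(3) `unit_all`: `c ∈ V` arbitrary (uses `unit_const` of module UnitsA, called (2) here; `Vc` = columns
with `∑ y, α y * c (w, y)` independent of `w`).  Write `e_x = a_x * a_0⁻¹` (so `e_0 = 1`).
For a row `(w, p)` and `x : ℝ` the single-row element `Pi.mulSingle (w, p) (e_{-x} * e_x)⁻¹` is in
`P`: take `r t` from `hV.two p`, `u = α p * x` and the columns, supported on the group `w`,
`C₁ = (p : 0, r : -u / α r, t : u / α t)`, `C₂ = (p : x, r : -u / α r, t : 0)`,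
`C₃ = (p : -x, r : 0, t : u / α t)`; each has `∑ y, α y * C y = 0`, so it is in `Vc` with `m = 0` and
`X_i := (e_{C_i j})_j = colF C_i * const a_0⁻¹` is a unit of `P` by (2).  And
`X_1 * X_2⁻¹ * X_3⁻¹` is: row `p`: `e_0 * e_x⁻¹ * e_{-x}⁻¹ = (e_{-x} * e_x)⁻¹`; row `r`: `1`;
row `t`: `e_{u / α t} * e_0⁻¹ * e_{u / α t}⁻¹ = 1`; other rows `1`.
Multiplying over all rows `j` (with `x = c j`) the element `E j = (e_{-c j} * e_{c j})⁻¹` is in `P`.
With `X_c j = e_{c j}` (in `P`), `X_{-c}` (in `P`, `V` is a subspace),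
`E * X_{-c} = X_c⁻¹`, so `(a_{c j})⁻¹ = a_0⁻¹ * (e_{c j})⁻¹` is in `P`.
-/

namespace Vale.Agent.Lib.P058

variable {β Y : Type} [Fintype Y] [Fintype β] [DecidableEq β] {α : Y → ℝ}
  {V : Submodule ℝ (β × Y → ℝ)}

/-- the letter `x` divided by the letter `0` -/
private def eL (x : ℝ) : FreeGroup ℝ := FreeGroup.of x * (FreeGroup.of 0)⁻¹

private theorem eL_zero : eL 0 = 1 := by
  simp [eL]

omit [Fintype Y] [Fintype β] [DecidableEq β] in
private theorem P_mul {v v' : β × Y → FreeGroup ℝ} (h : ∃ D, InP (V : Set (β × Y → ℝ)) v D)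
    (h' : ∃ D, InP (V : Set (β × Y → ℝ)) v' D) :
    ∃ D, InP (V : Set (β × Y → ℝ)) (v * v') D := by
  obtain ⟨D, hD⟩ := h
  obtain ⟨D', hD'⟩ := h'
  exact ⟨_, InP.mul hD hD'⟩

omit [Fintype Y] [Fintype β] [DecidableEq β] in
private theorem P_congr {v v' : β × Y → FreeGroup ℝ} (h : ∃ D, InP (V : Set (β × Y → ℝ)) v D)
    (hv : ∀ j, v j = v' j) : ∃ D, InP (V : Set (β × Y → ℝ)) v' D := by
  have : v = v' := funext hv
  rw [← this]
  exact h

omit [Fintype Y] [Fintype β] [DecidableEq β] in
private theorem P_eL (c : β × Y → ℝ) (hc : c ∈ V) :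
    ∃ D, InP (V : Set (β × Y → ℝ)) (fun j => eL (c j)) D := by
  refine P_congr (P_mul ⟨_, InP.col c hc⟩ ⟨_, InP.const (FreeGroup.of 0)⁻¹⟩) ?_
  intro j
  simp [colF, eL]

private theorem P_eL_inv (hV : GoodV α V) (c : β × Y → ℝ) (hc : ∀ w, ∑ y, α y * c (w, y) = 0) :
    (∃ D, InP (V : Set (β × Y → ℝ)) (fun j => eL (c j)) D) ∧
      ∃ D, InP (V : Set (β × Y → ℝ)) (fun j => (eL (c j))⁻¹) D := by
  obtain ⟨h1, h2⟩ := unit_const hV c 0 hc
  refine ⟨P_eL c h1, ?_⟩
  refine P_congr (P_mul ⟨_, InP.const (FreeGroup.of 0)⟩ h2) ?_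
  intro j
  simp [eL]

private theorem P_single [DecidableEq Y] (hV : GoodV α V) (w : β) (p : Y) (x : ℝ) :
    ∃ D, InP (V : Set (β × Y → ℝ))
      (fun j => if j = (w, p) then (eL (-x) * eL x)⁻¹ else 1) D := by
  obtain ⟨r, t, hrt, hrp, htp, hr0, ht0⟩ := hV.two p
  set u : ℝ := α p * x with hu
  let C1 : β × Y → ℝ := fun j =>
    if j.1 = w then (if j.2 = r then -u / α r else if j.2 = t then u / α t else 0) else 0
  let C2 : β × Y → ℝ := fun j =>
    if j.1 = w then (if j.2 = p then x else if j.2 = r then -u / α r else 0) else 0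
  let C3 : β × Y → ℝ := fun j =>
    if j.1 = w then (if j.2 = p then -x else if j.2 = t then u / α t else 0) else 0
  have key : ∀ (a b : Y) (A B : ℝ), a ≠ b → α a * A + α b * B = 0 → ∀ w' : β,
      ∑ y, α y * (if (w', y).1 = w then (if (w', y).2 = a then A else
        if (w', y).2 = b then B else 0) else 0) = 0 := by
    intro a b A B hab hsum w'
    by_cases hw : w' = w
    · simp only [hw, if_true]
      have h1 : ∀ y, α y * (if y = a then A else if y = b then B else 0) =
          (if y = a then α a * A else 0) + (if y = b then α b * B else 0) := by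
        intro y
        by_cases hya : y = a
        · subst hya
          simp [hab]
        · by_cases hyb : y = b
          · subst hyb
            simp [hya]
          · simp [hya, hyb]
      rw [Finset.sum_congr rfl (fun y _ => h1 y), Finset.sum_add_distrib]
      simp [hsum]
    · simp [hw]
  have h1 := P_eL_inv hV C1 (key r t (-u / α r) (u / α t) hrt (by field_simp; ring))
  have h2 := P_eL_inv hV C2 (key p r x (-u / α r) (Ne.symm hrp) (by field_simp; rw [hu]; ring))
  have h3 := P_eL_inv hV C3 (key p t (-x) (u / α t) (Ne.symm htp) (by field_simp; rw [hu]; ring))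
  refine P_congr (P_mul (P_mul h1.1 h2.2) h3.2) ?_
  rintro ⟨w', y⟩
  simp only [Pi.mul_apply, C1, C2, C3]
  by_cases hw : w' = w
  · subst hw
    by_cases hyp : y = p
    · subst hyp
      have hyr : ¬ y = r := fun h => hrp h.symm
      have hyt : ¬ y = t := fun h => htp h.symm
      simp [hyr, hyt, eL_zero, mul_inv_rev]
    · by_cases hyr : y = r
      · subst hyr
        have hyt : ¬ y = t := hrt
        simp [hyp, hyt, eL_zero]
      · by_cases hyt : y = t
        · subst hyt
          simp [hyp, hyr, eL_zero]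
        · simp [hyp, hyr, hyt, eL_zero]
  · simp [hw, eL_zero]

theorem unit_all (hV : GoodV α V) (c : β × Y → ℝ) (hc : c ∈ V) :
    ∃ D, InP (V : Set (β × Y → ℝ)) (fun j => (FreeGroup.of (c j))⁻¹) D := by
  classical
  have hE : ∀ T : Finset (β × Y), ∃ D, InP (V : Set (β × Y → ℝ))
      (fun j => if j ∈ T then (eL (-c j) * eL (c j))⁻¹ else 1) D := by
    intro T
    induction T using Finset.induction_on with
    | empty =>
      refine P_congr ⟨_, InP.const 1⟩ ?_
      intro j
      simp
    | insert a T ha ih =>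
      refine P_congr (P_mul (P_single hV a.1 a.2 (c a)) ih) ?_
      intro j
      simp only [Pi.mul_apply, Prod.mk.eta, Finset.mem_insert]
      by_cases hj : j = a
      · subst hj
        simp [ha]
      · simp [hj]
  have h1 := hE Finset.univ
  have h2 := P_eL (V := V) (fun j => - c j) (V.neg_mem hc)
  refine P_congr (P_mul (P_mul ⟨_, InP.const (FreeGroup.of 0)⁻¹⟩ h1) h2) ?_
  intro j
  simp only [Pi.mul_apply, Finset.mem_univ, if_true, mul_inv_rev]
  simp only [eL]
  group

end Vale.Agent.Lib.P058
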