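import Vale.Agent.Lib.P058.Basic
import Vale.Agent.Lib.P058.S0

/-!
# P058, module UnitsA

Columns of `V` have inverses in `P`.

(1) `unit_class`: `v y = a_{u y}` for a class-level column `u : Y → ℝ`.
Let `P_Y = {v : Y → FreeGroup ℝ | ∃ D, InP Set.univ v D}`, a submonoid of `Y → FreeGroup ℝ`
containing the constants and stable under permutations of `Y` (`InP.comap`).  By S0 it is stable
under inverses.  `InP.comap Prod.snd` transports it to `β × Y`, with columns in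
`Vc = {c : β × Y → ℝ | ∃ m, ∀ w, ∑ y, α y * c (w, y) = m}`.

(2) `unit_const`: `c ∈ Vc`.
Let `P_c = InP Vc`, and
`H = {u : Y → FreeGroup ℝ | (∃ D, InP Vc (fun j => u j.2) D) ∧ (∃ D, InP Vc (fun j => (u j.2)⁻¹) D)}`,
a subgroup of `Y → FreeGroup ℝ`.
Let `A = {v : β → H | ∃ D, InP Vc (fun j => (v j.1 : Y → FreeGroup ℝ) j.2) D}`, a submonoid of
`β → H` containing the constants, and stable under permutations of `β` (`InP.comap (σ × id)`;
`Vc` is stable).  S0 with `X = β`, `G = H`.  For `c ∈ Vc` the element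
`w ↦ (y ↦ a_{c (w, y)})` has values in `H` by (1), and is in `A`.  So its inverse is in `A`.
Also `Vc ⊆ V`: for `c ∈ Vc` with constant `m`, `c = m • 1 + ∑ w, (δ_w on the group w)`,
`δ_w y = c (w, y) - m`, `∑ y, α y * δ_w y = m - m * ∑ α = 0` (`InP.mono`).

-/

namespace Vale.Agent.Lib.P058

variable {β Y : Type} [Fintype Y] [Fintype β] [DecidableEq β] {α : Y → ℝ}
  {V : Submodule ℝ (β × Y → ℝ)}

/-- columns on `β × Y` with equal weighted group sums -/
private def UnitsA_Vc (β : Type) {Y : Type} [Fintype Y] (α : Y → ℝ) : Set (β × Y → ℝ) :=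
  {c | ∃ m : ℝ, ∀ w : β, ∑ y, α y * c (w, y) = m}

/-- the subgroup of class level elements -/
private def UnitsA_H (Y : Type) [Fintype Y] : Subgroup (Y → FreeGroup ℝ) where
  carrier := {v | ∃ D, InP (Set.univ : Set (Y → ℝ)) v D}
  mul_mem' := by
    rintro a b ⟨D, hD⟩ ⟨D', hD'⟩
    exact ⟨_, InP.mul hD hD'⟩
  one_mem' := ⟨0, InP.one _⟩
  inv_mem' := by
    intro v hv
    let A : Submonoid (Y → FreeGroup ℝ) :=
      { carrier := {v | ∃ D, InP (Set.univ : Set (Y → ℝ)) v D}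
        mul_mem' := by
          rintro a b ⟨D, hD⟩ ⟨D', hD'⟩
          exact ⟨_, InP.mul hD hD'⟩
        one_mem' := ⟨0, InP.one _⟩ }
    have h := inv_mem_of_perm A (fun g => ⟨0, InP.const g⟩)
      (fun u hu σ => by
        obtain ⟨D, hD⟩ := hu
        exact ⟨_, hD.comap (V' := Set.univ) σ (fun c _ => Set.mem_univ _)⟩) v hv
    exact h

omit [DecidableEq β] in
private theorem UnitsA_inv (c : β × Y → ℝ) (hc : c ∈ UnitsA_Vc β α) :
    ∃ D, InP (UnitsA_Vc β α) (fun j => (FreeGroup.of (c j))⁻¹) D := by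
  let A : Submonoid (β → UnitsA_H Y) :=
    { carrier := {v | ∃ D, InP (UnitsA_Vc β α) (fun j : β × Y => (v j.1 : Y → FreeGroup ℝ) j.2) D}
      mul_mem' := by
        rintro a b ⟨D, hD⟩ ⟨D', hD'⟩
        exact ⟨_, InP.mul hD hD'⟩
      one_mem' := ⟨0, InP.one _⟩ }
  have hconst : ∀ g : UnitsA_H Y, (fun _ => g) ∈ A := by
    rintro ⟨g, D, hD⟩
    refine ⟨_, hD.comap (V' := UnitsA_Vc β α) (fun j : β × Y => j.2) ?_⟩
    intro c _
    exact ⟨∑ y, α y * c y, fun w => rfl⟩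
  have hperm : ∀ v ∈ A, ∀ σ : Equiv.Perm β, (fun x => v (σ x)) ∈ A := by
    rintro v ⟨D, hD⟩ σ
    refine ⟨_, hD.comap (V' := UnitsA_Vc β α) (fun j : β × Y => (σ j.1, j.2)) ?_⟩
    rintro c ⟨m, hm⟩
    exact ⟨m, fun w => hm (σ w)⟩
  let v : β → UnitsA_H Y := fun w => ⟨colF (fun y => c (w, y)), _, InP.col _ (Set.mem_univ _)⟩
  have hv : v ∈ A := ⟨_, InP.col c hc⟩
  obtain ⟨D, hD⟩ := inv_mem_of_perm A hconst hperm v hv
  exact ⟨D, hD⟩

private theorem UnitsA_sub (hV : GoodV α V) (c : β × Y → ℝ) (hc : c ∈ UnitsA_Vc β α) :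
    c ∈ V := by
  obtain ⟨m, hm⟩ := hc
  have h1 : c = m • (fun _ => (1 : ℝ)) +
      ∑ w : β, (fun j : β × Y => if j.1 = w then c (w, j.2) - m else 0) := by
    funext j
    rw [Pi.add_apply, Finset.sum_apply]
    simp only [Pi.smul_apply, smul_eq_mul, mul_one]
    rw [Finset.sum_ite_eq Finset.univ j.1 (fun w => c (w, j.2) - m), if_pos (Finset.mem_univ _)]
    ring
  rw [h1]
  refine V.add_mem (V.smul_mem m hV.one_mem) (V.sum_mem fun w _ => ?_)
  refine hV.loc_mem w (fun y => c (w, y) - m) ?_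
  have h2 : ∑ y, α y * (c (w, y) - m) = ∑ y, α y * c (w, y) - (∑ y, α y) * m := by
    rw [Finset.sum_mul, ← Finset.sum_sub_distrib]
    exact Finset.sum_congr rfl fun y _ => by ring
  rw [h2, hm w, hV.sum_one]
  ring

theorem unit_const (hV : GoodV α V) (c : β × Y → ℝ) (m : ℝ)
    (hc : ∀ w, ∑ y, α y * c (w, y) = m) :
    c ∈ V ∧ ∃ D, InP (V : Set (β × Y → ℝ)) (fun j => (FreeGroup.of (c j))⁻¹) D := by
  refine ⟨UnitsA_sub hV c ⟨m, hc⟩, ?_⟩
  obtain ⟨D, hD⟩ := UnitsA_inv (α := α) c ⟨m, hc⟩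
  exact ⟨D, hD.mono fun c' hc' => UnitsA_sub hV c' hc'⟩

end Vale.Agent.Lib.P058
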